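import Crest.Agent.X212.Sob92.Der

/-! Spanning families of vector fields detect differentiability and smoothness:
uniform limits, and the `C^n` criterion. -/

open scoped Manifold ContDiff Topology
open Set Filter Function

noncomputable section
namespace Crest.Agent.X212.Sob92

variable {E H : Type*} [NormedAddCommGroup E] [NormedSpace ℝ E] [TopologicalSpace H]
  {I : ModelWithCorners ℝ E H} {M : Type*} [TopologicalSpace M] [ChartedSpace H M]
  {V : Type*} [NormedAddCommGroup V] [NormedSpace ℝ V] {ι : Type*} [Fintype ι]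

/-- The linear map `c ↦ ∑ c a • g a`. -/
def comb (ι V : Type*) [Fintype ι] [NormedAddCommGroup V] [NormedSpace ℝ V] :
    (ι → V) →L[ℝ] (ι → ℝ) →L[ℝ] V :=
  ∑ a : ι, (ContinuousLinearMap.smulRightL ℝ (ι → ℝ) V (ContinuousLinearMap.proj a)).comp
    (ContinuousLinearMap.proj a)

theorem comb_apply (g : ι → V) (c : ι → ℝ) : comb ι V g c = ∑ a, c a • g a := by
  simp [comb]

variable [I.Boundaryless] [IsManifold I ∞ M]

theorem chart_symm_smoothAt {x₀ x : M} (hx : x ∈ (chartAt H x₀).source) :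
    ContMDiffAt 𝓘(ℝ, E) I ∞ (extChartAt I x₀).symm (extChartAt I x₀ x) := by
  have h : extChartAt I x₀ x ∈ (extChartAt I x₀).target :=
    (extChartAt I x₀).map_source (by simpa using hx)
  exact (contMDiffOn_extChartAt_symm x₀).contMDiffAt
    ((isOpen_extChartAt_target x₀).mem_nhds h)

omit [I.Boundaryless] [IsManifold I ∞ M] in
theorem eq_comp_chart {V : Type*} {x₀ x : M} (hx : x ∈ (chartAt H x₀).source) (u : M → V) :
    u =ᶠ[𝓝 x] fun y => (u ∘ (extChartAt I x₀).symm) (extChartAt I x₀ y) := by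
  filter_upwards [(chartAt H x₀).open_source.mem_nhds hx] with y hy
  rw [comp_apply, (extChartAt I x₀).left_inv (by simpa using hy)]

omit [I.Boundaryless] in
theorem of_chart_hasFDerivAt {x₀ x : M} (hx : x ∈ (chartAt H x₀).source) {u : M → V}
    {L : E →L[ℝ] V} (h : HasFDerivAt (u ∘ (extChartAt I x₀).symm) L (extChartAt I x₀ x)) :
    MDifferentiableAt I 𝓘(ℝ, V) u x ∧
      ∀ e : (x : M) → TangentSpace I x, dv I e u x = L (dv I e (extChartAt I x₀) x) := by
  have h1 : MDifferentiableAt I 𝓘(ℝ, E) (extChartAt I x₀) x :=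
    (contMDiffAt_extChartAt' (n := ∞) hx).mdifferentiableAt (by simp)
  refine ⟨?_, fun e => ?_⟩
  · exact (h.differentiableAt.mdifferentiableAt.comp x h1).congr_of_eventuallyEq
      (eq_comp_chart hx u)
  · rw [dv_congr (eq_comp_chart (I := I) hx u)]
    exact dv_comp h1 h

theorem chart_differentiableAt {x₀ x : M} (hx : x ∈ (chartAt H x₀).source) {u : M → V}
    (hu : MDifferentiableAt I 𝓘(ℝ, V) u x) :
    DifferentiableAt ℝ (u ∘ (extChartAt I x₀).symm) (extChartAt I x₀ x) := by
  have h := (chart_symm_smoothAt (I := I) hx).mdifferentiableAt (by simp)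
  have h2 : MDifferentiableAt I 𝓘(ℝ, V) u ((extChartAt I x₀).symm (extChartAt I x₀ x)) := by
    rwa [(extChartAt I x₀).left_inv (by simpa using hx)]
  exact (h2.comp _ h).differentiableAt

variable [FiniteDimensional ℝ E] {e : ι → (x : M) → TangentSpace I x}

omit [I.Boundaryless] in
/-- A smooth local right inverse of a spanning family, read in the chart at `x₀`. -/
theorem exists_rinv
    (he : ∀ a, ContMDiff I I.tangent ∞ (fun x => (⟨x, e a x⟩ : TangentBundle I M)))
    (x₀ : M) (hs : ∀ v : TangentSpace I x₀, ∃ c : ι → ℝ, v = ∑ a, c a • e a x₀) :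
    ∃ R : M → E →L[ℝ] (ι → ℝ), ContMDiffAt I 𝓘(ℝ, E →L[ℝ] (ι → ℝ)) ∞ R x₀ ∧
      ∀ᶠ x in 𝓝 x₀, ∀ v, comb ι E (fun a => dv I (e a) (extChartAt I x₀) x) (R x v) = v := by
  have : CompleteSpace E := FiniteDimensional.complete ℝ E
  set T : M → (ι → ℝ) →L[ℝ] E := fun x => comb ι E fun a => dv I (e a) (extChartAt I x₀) x
  have hT : ContMDiffAt I 𝓘(ℝ, (ι → ℝ) →L[ℝ] E) ∞ T x₀ := by
    refine (comb ι E).contMDiff.contMDiffAt.comp x₀ (contMDiffAt_pi_space.2 fun a => ?_)
    exact dv_smoothAt (he a x₀) contMDiffAt_extChartAt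
  have hsurj : (T x₀).range = ⊤ := by
    rw [LinearMap.range_eq_top]
    intro w
    obtain ⟨L, hL⟩ := isInvertible_mfderiv_extChartAt (I := I) (mem_extChartAt_source x₀)
    obtain ⟨c, hc⟩ := hs (L.symm w)
    refine ⟨c, ?_⟩
    have h1 : w = mfderiv I 𝓘(ℝ, E) (extChartAt I x₀) x₀ (L.symm w) := by
      rw [← hL]; exact (L.apply_symm_apply w).symm
    rw [h1, hc, map_sum]
    change comb ι E _ c = _
    rw [comb_apply]
    refine Finset.sum_congr rfl fun a _ => ?_
    rw [map_smul]; rfl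
  obtain ⟨R₀, hR₀⟩ := (T x₀).exists_rightInverse_of_surjective hsurj
  have hS : ContMDiffAt I 𝓘(ℝ, E →L[ℝ] E) ∞ (fun x => (T x).comp R₀) x₀ :=
    hT.clm_comp contMDiffAt_const
  have hinv : ((T x₀).comp R₀).IsInvertible := by
    rw [hR₀]; exact ⟨ContinuousLinearEquiv.refl ℝ E, rfl⟩
  refine ⟨fun x => R₀.comp ((T x).comp R₀).inverse, contMDiffAt_const.clm_comp
    ((hinv.contDiffAt_map_inverse (n := ∞)).contMDiffAt.comp x₀ hS), ?_⟩
  have hopen : ∀ᶠ x in 𝓝 x₀, ((T x).comp R₀).IsInvertible := by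
    have : {L : E →L[ℝ] E | L.IsInvertible} ∈ 𝓝 ((T x₀).comp R₀) :=
      ContinuousLinearEquiv.isOpen.mem_nhds hinv
    exact hS.continuousAt this
  filter_upwards [hopen] with x hx v
  exact hx.self_apply_inverse v

omit [FiniteDimensional ℝ E] in
/-- The derivative in the chart, through the spanning family. -/
theorem chart_hasFDerivAt {x₀ x : M} (hx : x ∈ (chartAt H x₀).source) {R : E →L[ℝ] (ι → ℝ)}
    (hR : ∀ v, comb ι E (fun a => dv I (e a) (extChartAt I x₀) x) (R v) = v) {u : M → V}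
    (hu : MDifferentiableAt I 𝓘(ℝ, V) u x) :
    HasFDerivAt (u ∘ (extChartAt I x₀).symm) ((comb ι V fun a => dv I (e a) u x).comp R)
      (extChartAt I x₀ x) := by
  have h := (chart_differentiableAt hx hu).hasFDerivAt
  convert h using 1
  ext v
  conv_rhs => rw [← hR v, comb_apply, map_sum]
  rw [ContinuousLinearMap.comp_apply, comb_apply]
  refine Finset.sum_congr rfl fun a _ => ?_
  rw [map_smul, (of_chart_hasFDerivAt hx h).2]

/-- `C^n` criterion: a graded class closed under the derivatives consists of `C^n` functions. -/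
theorem contMDiff_of_class
    (he : ∀ a, ContMDiff I I.tangent ∞ (fun x => (⟨x, e a x⟩ : TangentBundle I M)))
    (hs : ∀ x (v : TangentSpace I x), ∃ c : ι → ℝ, v = ∑ a, c a • e a x)
    (P : ℕ → (M → V) → Prop) (h0 : ∀ u, P 0 u → Continuous u)
    (h1 : ∀ n u, P (n + 1) u → MDifferentiable I 𝓘(ℝ, V) u ∧ ∀ a, P n (dv I (e a) u))
    (n : ℕ) : ∀ u, P n u → ContMDiff I 𝓘(ℝ, V) n u := by
  induction n with
  | zero => exact fun u hu => contMDiff_zero_iff.2 (h0 u hu)
  | succ n ih =>
    intro u hu x₀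
    obtain ⟨hd, hP⟩ := h1 n u hu
    obtain ⟨R, hR, hRT⟩ := exists_rinv he x₀ (hs x₀)
    have hx₀ := mem_chart_source H x₀
    have hsy := chart_symm_smoothAt (I := I) hx₀
    have hA : ContMDiffAt I 𝓘(ℝ, E →L[ℝ] V) n
        (fun x => (comb ι V fun a => dv I (e a) u x).comp (R x)) x₀ :=
      ((comb ι V).contMDiff.contMDiffAt.comp x₀
        (contMDiffAt_pi_space.2 fun a => ih _ (hP a) x₀)).clm_comp (hR.of_le (by exact_mod_cast le_top))
    have hc : ContDiffAt ℝ (n + 1) (u ∘ (extChartAt I x₀).symm) (extChartAt I x₀ x₀) := by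
      refine contDiffAt_succ_iff_hasFDerivAt.2 ⟨fun y => (fun x => (comb ι V fun a =>
        dv I (e a) u x).comp (R x)) ((extChartAt I x₀).symm y), ?_, ?_⟩
      · have h2 : ∀ᶠ y in 𝓝 (extChartAt I x₀ x₀), y ∈ (extChartAt I x₀).target :=
          extChartAt_target_mem_nhds x₀
        have h3 := hsy.continuousAt.tendsto
        rw [extChartAt_to_inv] at h3
        refine ⟨_, h2.and (h3.eventually hRT), fun y hy => ?_⟩
        have h4 : (extChartAt I x₀).symm y ∈ (chartAt H x₀).source := by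
          simpa using (extChartAt I x₀).map_target hy.1
        have := chart_hasFDerivAt h4 hy.2 (hd _)
        rwa [(extChartAt I x₀).right_inv hy.1] at this
      · have hn : (n : WithTop ℕ∞) ≤ ∞ := by exact_mod_cast le_top
        rw [← extChartAt_to_inv (I := I) x₀] at hA
        exact ContMDiffAt.contDiffAt (ContMDiffAt.comp _ hA (hsy.of_le hn))
    have := hc.contMDiffAt.comp x₀ (contMDiffAt_extChartAt (I := I) (n := n + 1) (x := x₀))
    exact_mod_cast this.congr_of_eventuallyEq (eq_comp_chart hx₀ u)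

/-- Uniform limits: if `u n → f` pointwise and `dv (e a) (u n) → g a` uniformly then `f` is
differentiable with `dv (e a) f = g a`. -/
theorem mdiff_of_limit
    (he : ∀ a, ContMDiff I I.tangent ∞ (fun x => (⟨x, e a x⟩ : TangentBundle I M)))
    (hs : ∀ x (v : TangentSpace I x), ∃ c : ι → ℝ, v = ∑ a, c a • e a x)
    {κ : Type*} {l : Filter κ} [l.NeBot] {u : κ → M → V} {f : M → V} {g : ι → M → V}
    (hu : ∀ n, MDifferentiable I 𝓘(ℝ, V) (u n)) (hf : ∀ x, Tendsto (fun n => u n x) l (𝓝 (f x)))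
    (hg : ∀ a, TendstoUniformly (fun n => dv I (e a) (u n)) (g a) l) (x₀ : M) :
    MDifferentiableAt I 𝓘(ℝ, V) f x₀ ∧ ∀ a, dv I (e a) f x₀ = g a x₀ := by
  obtain ⟨R, hR, hRT⟩ := exists_rinv he x₀ (hs x₀)
  have hx₀ := mem_chart_source H x₀
  have h3 := (chart_symm_smoothAt (I := I) hx₀).continuousAt.tendsto
  rw [extChartAt_to_inv] at h3
  have h2 : ∀ᶠ y in 𝓝 (extChartAt I x₀ x₀), y ∈ (extChartAt I x₀).target :=
    extChartAt_target_mem_nhds x₀
  have hb : ∀ᶠ x in 𝓝 x₀, ‖R x‖ < ‖R x₀‖ + 1 :=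
    hR.continuousAt.norm.eventually (gt_mem_nhds (by linarith))
  have key : HasFDerivAt (f ∘ (extChartAt I x₀).symm) ((fun y => (comb ι V fun a =>
      g a ((extChartAt I x₀).symm y)).comp (R ((extChartAt I x₀).symm y))) (extChartAt I x₀ x₀))
      (extChartAt I x₀ x₀) := by
    refine hasFDerivAt_of_tendstoUniformlyOnFilter (l := l)
      (f := fun n => u n ∘ (extChartAt I x₀).symm) (g := f ∘ (extChartAt I x₀).symm)
      (g' := fun y => (comb ι V fun a =>
        g a ((extChartAt I x₀).symm y)).comp (R ((extChartAt I x₀).symm y)))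
      (f' := fun n y => (comb ι V fun a => dv I (e a) (u n) ((extChartAt I x₀).symm y)).comp
        (R ((extChartAt I x₀).symm y))) ?_ ?_ (Eventually.of_forall fun y => hf _)
    · rw [Metric.tendstoUniformlyOnFilter_iff]
      intro ε hε
      set C := (‖comb ι V‖ + 1) * (‖R x₀‖ + 1)
      have hC : 0 < C := by positivity
      have h5 : ∀ᶠ n in l, ∀ a x, dist (g a x) (dv I (e a) (u n) x) < ε / C :=
        eventually_all.2 fun a => Metric.tendstoUniformly_iff.1 (hg a) _ (by positivity)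
      filter_upwards [h5.prod_mk (h3.eventually hb)] with p hp
      obtain ⟨hp1, hp2⟩ := hp
      rw [dist_eq_norm, ← ContinuousLinearMap.sub_comp, ← map_sub]
      have h6 : ‖(fun a => g a ((extChartAt I x₀).symm p.2)) -
          fun a => dv I (e a) (u p.1) ((extChartAt I x₀).symm p.2)‖ ≤ ε / C :=
        (pi_norm_le_iff_of_nonneg (by positivity)).2 fun a => by
          simpa [dist_eq_norm] using (hp1 a _).le
      refine (ContinuousLinearMap.opNorm_comp_le _ _).trans_lt ?_
      calc _ ≤ ‖comb ι V‖ * (ε / C) * (‖R x₀‖ + 1) := by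
            gcongr
            exact ((comb ι V).le_opNorm _).trans (by gcongr)
        _ < (‖comb ι V‖ + 1) * (ε / C) * (‖R x₀‖ + 1) := by gcongr; linarith
        _ = ε := by simp only [C]; field_simp
    · filter_upwards [Eventually.prod_inr (h2.and (h3.eventually hRT)) l] with p hp
      have h4 : (extChartAt I x₀).symm p.2 ∈ (chartAt H x₀).source := by
        simpa using (extChartAt I x₀).map_target hp.1
      have := chart_hasFDerivAt h4 hp.2 (hu p.1 _)
      rwa [(extChartAt I x₀).right_inv hp.1] at this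
  have hd := of_chart_hasFDerivAt hx₀ key
  refine ⟨hd.1, fun a => ?_⟩
  have hl : Tendsto (fun n => dv I (e a) (u n) x₀) l (𝓝 (g a x₀)) := (hg a).tendsto_at x₀
  have hl2 : Tendsto (fun n => dv I (e a) (u n) x₀) l (𝓝 (dv I (e a) f x₀)) := by
    have h7 := hRT.self_of_nhds
    have h8 : ∀ n, dv I (e a) (u n) x₀ = comb ι V (fun b => dv I (e b) (u n) x₀)
        (R x₀ (dv I (e a) (extChartAt I x₀) x₀)) := fun n =>
      (of_chart_hasFDerivAt hx₀ (chart_hasFDerivAt hx₀ h7 (hu n x₀))).2 (e a)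
    rw [hd.2]
    beta_reduce
    rw [extChartAt_to_inv]
    refine Tendsto.congr (fun n => (h8 n).symm) ?_
    have h9 : Tendsto (fun n b => dv I (e b) (u n) x₀) l (𝓝 fun b => g b x₀) :=
      tendsto_pi_nhds.2 fun b => (hg b).tendsto_at x₀
    exact (((comb ι V).flip (R x₀ (dv I (e a) (extChartAt I x₀) x₀))).continuous.tendsto _).comp h9
  exact tendsto_nhds_unique hl2 hl

end Crest.Agent.X212.Sob92
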