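import Mathlib

/-! Derivative of a vector valued function along a vector field: smoothness, Leibniz, support. -/

open scoped Manifold ContDiff Topology
open Set Filter Function

noncomputable section
namespace Crest.Agent.X212.Sob92

variable {E H : Type*} [NormedAddCommGroup E] [NormedSpace ℝ E] [TopologicalSpace H]
  {I : ModelWithCorners ℝ E H} {M : Type*} [TopologicalSpace M] [ChartedSpace H M]
  {V W X : Type*} [NormedAddCommGroup V] [NormedSpace ℝ V] [NormedAddCommGroup W]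
  [NormedSpace ℝ W] [NormedAddCommGroup X] [NormedSpace ℝ X]

variable (I) in
/-- The derivative of `u` along the vector field `e`. -/
def dv (e : (x : M) → TangentSpace I x) (u : M → V) : M → V :=
  fun x => mfderiv I 𝓘(ℝ, V) u x (e x)

variable {e : (x : M) → TangentSpace I x}

theorem dv_eq (u : M → V) (x : M) : dv I e u x = mvfderiv I u x (e x) := rfl

theorem dv_smoothAt [IsManifold I 1 M] {x : M}
    (he : ContMDiffAt I I.tangent ∞ (fun x => (⟨x, e x⟩ : TangentBundle I M)) x)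
    {u : M → V} (hu : ContMDiffAt I 𝓘(ℝ, V) ∞ u x) :
    ContMDiffAt I 𝓘(ℝ, V) ∞ (dv I e u) x := by
  have h1 : ContMDiffAt I (𝓘(ℝ, V)).tangent ∞
      (fun y => (⟨u y, mfderiv I 𝓘(ℝ, V) u y (e y)⟩ : TangentBundle 𝓘(ℝ, V) V)) x :=
    ContMDiffAt.clm_apply_of_inCoordinates (b₁ := id) (b₂ := u)
      (ϕ := fun y => mfderiv I 𝓘(ℝ, V) u y) (v := e)
      (hu.mfderiv_const (m := ∞) (by simp)) he hu
  exact (contMDiff_snd_tangentBundle_modelSpace V 𝓘(ℝ, V) (n := ∞) _).comp x h1

theorem dv_smooth [IsManifold I 1 M]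
    (he : ContMDiff I I.tangent ∞ (fun x => (⟨x, e x⟩ : TangentBundle I M)))
    {u : M → V} (hu : ContMDiff I 𝓘(ℝ, V) ∞ u) : ContMDiff I 𝓘(ℝ, V) ∞ (dv I e u) :=
  fun x => dv_smoothAt (he x) (hu x)

theorem dv_congr {u v : M → V} {x : M} (h : u =ᶠ[𝓝 x] v) : dv I e u x = dv I e v x := by
  unfold dv
  rw [h.mfderiv_eq]
  rfl

@[simp] theorem dv_const (c : V) : dv I e (fun _ : M => c) = 0 := by
  funext x
  simp [dv_eq, mvfderiv_const]

@[simp] theorem dv_zero : dv I e (0 : M → V) = 0 := dv_const 0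

theorem dv_add {u v : M → V} {x : M} (hu : MDifferentiableAt I 𝓘(ℝ, V) u x)
    (hv : MDifferentiableAt I 𝓘(ℝ, V) v x) : dv I e (u + v) x = dv I e u x + dv I e v x := by
  simp [dv_eq, mvfderiv_add hu hv]

theorem dv_sub {u v : M → V} {x : M} (hu : MDifferentiableAt I 𝓘(ℝ, V) u x)
    (hv : MDifferentiableAt I 𝓘(ℝ, V) v x) : dv I e (u - v) x = dv I e u x - dv I e v x := by
  simp [dv_eq, mvfderiv_sub hu hv]

theorem dv_neg (u : M → V) (x : M) : dv I e (-u) x = -dv I e u x := by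
  simp [dv_eq, mvfderiv_neg]

/-- Chain rule with a differentiable map of normed spaces. -/
theorem dv_comp {u : M → V} {x : M} (hu : MDifferentiableAt I 𝓘(ℝ, V) u x) {g : V → W}
    {g' : V →L[ℝ] W} (hg : HasFDerivAt g g' (u x)) :
    dv I e (fun y => g (u y)) x = g' (dv I e u x) := by
  have h := (hg.hasMFDerivAt.comp x hu.hasMFDerivAt).mfderiv
  unfold dv
  exact congrArg (fun L : TangentSpace I x →L[ℝ] W => L (e x)) h

theorem dv_clm (L : V →L[ℝ] W) {u : M → V} {x : M} (hu : MDifferentiableAt I 𝓘(ℝ, V) u x) :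
    dv I e (fun y => L (u y)) x = L (dv I e u x) := dv_comp hu L.hasFDerivAt

theorem dv_const_smul (c : ℝ) {u : M → V} {x : M} (hu : MDifferentiableAt I 𝓘(ℝ, V) u x) :
    dv I e (c • u) x = c • dv I e u x :=
  dv_clm (c • ContinuousLinearMap.id ℝ V) hu

theorem dv_prod {u : M → V} {v : M → W} {x : M} (hu : MDifferentiableAt I 𝓘(ℝ, V) u x)
    (hv : MDifferentiableAt I 𝓘(ℝ, W) v x) :
    dv I e (fun y => (u y, v y)) x = (dv I e u x, dv I e v x) := by
  have h := hu.prodMk_space hv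
  refine Prod.ext ?_ ?_
  · exact (dv_clm (ContinuousLinearMap.fst ℝ V W) h).symm
  · exact (dv_clm (ContinuousLinearMap.snd ℝ V W) h).symm

/-- Leibniz rule for a continuous bilinear map. -/
theorem dv_bil (B : V →L[ℝ] W →L[ℝ] X) {u : M → V} {v : M → W} {x : M}
    (hu : MDifferentiableAt I 𝓘(ℝ, V) u x) (hv : MDifferentiableAt I 𝓘(ℝ, W) v x) :
    dv I e (fun y => B (u y) (v y)) x = B (dv I e u x) (v x) + B (u x) (dv I e v x) := by
  have h := dv_comp (e := e) (hu.prodMk_space hv) (g := fun p : V × W => B p.1 p.2)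
    (B.isBoundedBilinearMap.hasFDerivAt (u x, v x))
  rw [dv_prod hu hv] at h
  rw [h, add_comm]
  rfl

/-- Leibniz rule for an operator field applied to a function. -/
theorem dv_app {f : M → V →L[ℝ] W} {u : M → V} {x : M}
    (hf : MDifferentiableAt I 𝓘(ℝ, V →L[ℝ] W) f x) (hu : MDifferentiableAt I 𝓘(ℝ, V) u x) :
    dv I e (fun y => f y (u y)) x = dv I e f x (u x) + f x (dv I e u x) :=
  dv_bil (ContinuousLinearMap.id ℝ (V →L[ℝ] W)) hf hu

theorem dv_smul {f : M → ℝ} {u : M → V} {x : M}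
    (hf : MDifferentiableAt I 𝓘(ℝ, ℝ) f x) (hu : MDifferentiableAt I 𝓘(ℝ, V) u x) :
    dv I e (fun y => f y • u y) x = dv I e f x • u x + f x • dv I e u x :=
  dv_bil (ContinuousLinearMap.lsmul ℝ ℝ) hf hu

theorem mdiff_sum {κ : Type*} (s : Finset κ) {u : κ → M → V} {x : M}
    (hu : ∀ i ∈ s, MDifferentiableAt I 𝓘(ℝ, V) (u i) x) :
    MDifferentiableAt I 𝓘(ℝ, V) (fun y => ∑ i ∈ s, u i y) x := by
  classical
  induction s using Finset.induction_on with
  | empty => simpa using mdifferentiableAt_const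
  | insert a s ha ih =>
    simp only [Finset.sum_insert ha]
    exact (hu a (Finset.mem_insert_self _ _)).add
      (ih fun i hi => hu i (Finset.mem_insert_of_mem hi))

theorem dv_sum {κ : Type*} (s : Finset κ) {u : κ → M → V} {x : M}
    (hu : ∀ i ∈ s, MDifferentiableAt I 𝓘(ℝ, V) (u i) x) :
    dv I e (fun y => ∑ i ∈ s, u i y) x = ∑ i ∈ s, dv I e (u i) x := by
  classical
  induction s using Finset.induction_on with
  | empty => simp
  | insert a s ha ih =>
    have h2 : ∀ i ∈ s, MDifferentiableAt I 𝓘(ℝ, V) (u i) x :=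
      fun i hi => hu i (Finset.mem_insert_of_mem hi)
    simp only [Finset.sum_insert ha]
    rw [← ih h2]
    exact dv_add (hu a (Finset.mem_insert_self _ _)) (mdiff_sum s h2)

theorem dv_eq_zero_of_notMem {u : M → V} {x : M} (hx : x ∉ tsupport u) : dv I e u x = 0 := by
  rw [dv_congr (notMem_tsupport_iff_eventuallyEq.1 hx), dv_zero]; rfl

theorem support_dv (u : M → V) : support (dv I e u) ⊆ tsupport u := fun _ hx => by
  by_contra h
  exact hx (dv_eq_zero_of_notMem h)

theorem tsupport_dv (u : M → V) : tsupport (dv I e u) ⊆ tsupport u :=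
  closure_minimal (support_dv u) (isClosed_tsupport u)

theorem dv_hcs {u : M → V} (hu : HasCompactSupport u) : HasCompactSupport (dv I e u) :=
  hu.of_isClosed_subset (isClosed_tsupport _) (tsupport_dv u)

theorem smooth_bil (B : V →L[ℝ] W →L[ℝ] X) {u : M → V} {v : M → W}
    (hu : ContMDiff I 𝓘(ℝ, V) ∞ u) (hv : ContMDiff I 𝓘(ℝ, W) ∞ v) :
    ContMDiff I 𝓘(ℝ, X) ∞ (fun y => B (u y) (v y)) :=
  (B.contMDiff.comp hu).clm_apply hv

end Crest.Agent.X212.Sob92
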