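import Crest.Agent.X212.Sob92.Bil
import Crest.Agent.X212.Sob92.Lim

/-! `toL2`, `ev`, `val`: elements of `H` as functions. -/

set_option autoImplicit false
set_option linter.unusedSectionVars false
noncomputable section
open scoped Manifold ContDiff Topology InnerProductSpace
open MeasureTheory Set Function Filter

namespace Crest.Agent.X212.Sob92
open An An.Pre

variable {E : Type} [NormedAddCommGroup E] [NormedSpace ℝ E] [FiniteDimensional ℝ E]
  [MeasurableSpace E] [BorelSpace E]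
  {HM : Type} [TopologicalSpace HM] {I : ModelWithCorners ℝ E HM}
  {M : Type} [TopologicalSpace M] [ChartedSpace HM M] [IsManifold I ∞ M]
  [MeasurableSpace M] [T2Space M] [BorelSpace M] {ι : Type} [Fintype ι]
  {U V W : Type} [NormedAddCommGroup U] [InnerProductSpace ℝ U]
  [NormedAddCommGroup V] [InnerProductSpace ℝ V] [NormedAddCommGroup W] [InnerProductSpace ℝ W]
  {k j l : ℕ} {p : M → V →L[ℝ] V} {q : M → W →L[ℝ] W} {r : M → U →L[ℝ] U}

section L2
variable {F : Pre I M ι} [CompleteSpace V]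

theorem memLp_sec (u : Sec I p) : MemLp u.1 2 F.μ := (FL_sec (F := F) 0 u :)

omit [CompleteSpace V] in
theorem norm_toLp_eq {u : M → V} (hu : MemLp u 2 F.μ) : ‖hu.toLp u‖ = F.nrm 0 u := by
  rw [norm_eq_sqrt_real_inner, L2.inner_def, Pre.nrm, ip]
  congr 1
  refine integral_congr_ae ?_
  filter_upwards [hu.coeFn_toLp] with x hx
  rw [hx]

theorem toL2_toH (u : Sec I p) : F.toL2 k p (F.toH k p u) =ᵐ[F.μ] u.1 := by
  let L : Sec I p →ₗ[ℝ] Lp V 2 F.μ :=
    { toFun := fun u => (memLp_sec u).toLp u.1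
      map_add' := fun u v => MemLp.toLp_add (memLp_sec u) (memLp_sec v)
      map_smul' := fun c u => MemLp.toLp_const_smul c (memLp_sec u) }
  obtain ⟨A, hA, -⟩ := exists_ext (F := F) (k := k) L zero_le_one fun u => by
    rw [one_mul]; exact (norm_toLp_eq (memLp_sec u)).trans_le (nrm_mono (Nat.zero_le k) _)
  have h : ∃ A : F.H k p →L[ℝ] Lp V 2 F.μ, ∀ u : Sec I p, A (F.toH k p u) =ᵐ[F.μ] u.1 :=
    ⟨A, fun u => by rw [hA]; exact (memLp_sec u).coeFn_toLp⟩
  rw [toL2, dif_pos h]
  exact h.choose_spec u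

theorem toL2_toH_eq (u : Sec I p) : F.toL2 k p (F.toH k p u) = (memLp_sec u).toLp u.1 :=
  Lp.ext ((toL2_toH u).trans (memLp_sec u).coeFn_toLp.symm)

theorem toL2_incl (h : j ≤ k) (x : F.H k p) : F.toL2 j p (F.incl k j p x) = F.toL2 k p x := by
  induction x using H_ind with
  | hP => exact isClosed_eq (by fun_prop) (by fun_prop)
  | h u => rw [incl_toH h, toL2_toH_eq, toL2_toH_eq]

theorem toL2_fg (x : F.H k p) : F.toL2 k _ (fg F k p x) = F.toL2 k p x := by
  induction x using H_ind with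
  | hP => exact isClosed_eq (by fun_prop) (by fun_prop)
  | h u => rw [RepT_toH rep_fg, toL2_toH_eq, toL2_toH_eq]; rfl

theorem norm_toL2_zero (x : F.H 0 p) : ‖F.toL2 0 p x‖ = ‖x‖ := by
  induction x using H_ind with
  | hP => exact isClosed_eq (by fun_prop) (by fun_prop)
  | h u => rw [toL2_toH_eq, norm_toLp_eq, norm_toH]

theorem norm_toL2 (x : F.H k p) : ‖F.toL2 k p x‖ = ‖F.incl k 0 p x‖ := by
  rw [← norm_toL2_zero, toL2_incl (Nat.zero_le k)]

theorem norm_toL2_le (x : F.H k p) : ‖F.toL2 k p x‖ ≤ ‖x‖ :=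
  (norm_toL2 x).trans_le (norm_incl_le (Nat.zero_le k) x)

theorem inner_toL2 (x y : F.H 0 p) : ⟪F.toL2 0 p x, F.toL2 0 p y⟫_ℝ = ⟪x, y⟫_ℝ :=
  (LinearIsometry.mk (F.toL2 0 p).toLinearMap norm_toL2_zero).inner_map_map x y

theorem toL2_injective {F : Fr I M ι} : Injective (F.toL2 k p) :=
  (injective_iff_map_eq_zero _).2 fun x hx => incl_zero_eq_zero k <| by
    rw [← norm_eq_zero, ← norm_toL2, hx, norm_zero]

/-- an a.e. convergent sequence of smooth sections -/
theorem exists_seq_ae (x : F.H k p) : ∃ u : ℕ → Sec I p,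
    Tendsto (fun n => F.toH k p (u n)) atTop (𝓝 x) ∧
      ∀ᵐ y ∂F.μ, Tendsto (fun n => (u n).1 y) atTop (𝓝 (F.toL2 k p x y)) := by
  obtain ⟨u, hu⟩ := exists_seq x
  have h1 := ((F.toL2 k p).continuous.tendsto x).comp hu
  obtain ⟨φ, hφ, h2⟩ := (tendstoInMeasure_of_tendsto_Lp h1).exists_seq_tendsto_ae
  refine ⟨fun n => u (φ n), hu.comp hφ.tendsto_atTop, ?_⟩
  filter_upwards [h2, ae_all_iff.2 fun n => toL2_toH (F := F) (k := k) (u n)] with y hy hy'
  simpa only [comp_apply, hy'] using hy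

/-- an `L²` limit of a sequence with an a.e. limit -/
theorem ae_eq_of_tendsto {g : ℕ → Lp V 2 F.μ} {G : Lp V 2 F.μ} (hg : Tendsto g atTop (𝓝 G))
    {f : M → V} (hf : ∀ᵐ y ∂F.μ, Tendsto (fun n => g n y) atTop (𝓝 (f y))) : G =ᵐ[F.μ] f := by
  obtain ⟨φ, hφ, h2⟩ := (tendstoInMeasure_of_tendsto_Lp hg).exists_seq_tendsto_ae
  filter_upwards [h2, hf] with y hy hy'
  exact tendsto_nhds_unique hy (hy'.comp hφ.tendsto_atTop)

theorem toL2_proj (x : F.H k p) :
    ∀ᵐ y ∂F.μ, p y (F.toL2 k p x y) = F.toL2 k p x y := by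
  obtain ⟨u, -, hu⟩ := exists_seq_ae x
  filter_upwards [hu] with y hy
  refine tendsto_nhds_unique (((p y).continuous.tendsto _).comp hy) ?_
  simpa only [comp_def, fun n => (u n).2.2.2 y] using hy

/-- a represented operator given by a pointwise continuous formula acts a.e. by the formula -/
theorem toL2_rep [CompleteSpace W] {A : F.H k p →L[ℝ] F.H j q} {g : M → V → W}
    (hA : F.Rep A fun u x => g x (u x)) (hg : ∀ x, Continuous (g x)) (x : F.H k p) :
    F.toL2 j q (A x) =ᵐ[F.μ] fun y => g y (F.toL2 k p x y) := by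
  obtain ⟨u, hu, hu'⟩ := exists_seq_ae x
  refine ae_eq_of_tendsto ((((F.toL2 j q).comp A).continuous.tendsto x).comp hu) ?_
  filter_upwards [hu', ae_all_iff.2 fun n => toL2_toH (F := F) (k := j)
    ⟨_, RepT_mem hA (u n)⟩] with y hy hy'
  simp only [comp_apply, ContinuousLinearMap.comp_apply, RepT_toH hA, hy']
  exact ((hg y).tendsto _).comp hy

variable [SecondCountableTopology M] [CompleteSpace W]

theorem toL2_mulH {f : M → V →L[ℝ] W} (hf : F.Cb f) (hm : Maps p q f) (x : F.H k p) :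
    F.toL2 k q (F.mulH k p q f x) =ᵐ[F.μ] fun y => f y (F.toL2 k p x y) :=
  toL2_rep (g := fun y v => f y v) (rep_mulH hf hm) (fun y => (f y).continuous) x

theorem toL2_smulH {f : M → ℝ} (hf : F.Cb f) (x : F.H k p) :
    F.toL2 k p (smulH F k p f x) =ᵐ[F.μ] fun y => f y • F.toL2 k p x y :=
  toL2_rep (g := fun y v => f y • v) (rep_smulH hf) (fun _ => by fun_prop) x

theorem toL2_bilH [CompleteSpace U] {S : ℝ} {β : M → V →L[ℝ] W →L[ℝ] U} (hS : Sup F S)
    (h : Lev k j l) (hβ : F.Cb β) (hm : Maps₂ p q r β) (x : F.H k p) (y : F.H j q) :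
    F.toL2 l r (F.bilH k j p q r l β x y) =ᵐ[F.μ]
      fun z => β z (F.toL2 k p x z) (F.toL2 j q y z) := by
  obtain ⟨u, hu, hu'⟩ := exists_seq_ae x
  obtain ⟨v, hv, hv'⟩ := exists_seq_ae y
  have hc : Continuous fun z : F.H k p × F.H j q => F.toL2 l r (F.bilH k j p q r l β z.1 z.2) := by
    fun_prop
  refine ae_eq_of_tendsto ((hc.tendsto (x, y)).comp (hu.prodMk_nhds hv)) ?_
  filter_upwards [hu', hv', ae_all_iff.2 fun n => toL2_toH (F := F) (k := l)
    ⟨_, Rep₂_mem (rep_bilH hS h hβ hm) (u n) (v n)⟩] with z hz hz' hz''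
  simp only [comp_apply, Rep₂_toH (rep_bilH hS h hβ hm), hz'']
  exact ((β z).continuous₂.tendsto (_, _)).comp (hz.prodMk_nhds hz')

end L2

section ev
variable {F : Pre I M ι} {S : ℝ} [CompleteSpace V]

theorem ev_spec (hS : Sup F S) (hk : 4 ≤ k) (x : M) :
    (∀ u : Sec I p, F.ev k p x (F.toH k p u) = u.1 x) ∧ ‖F.ev k p x‖ ≤ √|S| := by
  let L : Sec I p →ₗ[ℝ] V :=
    { toFun := fun u => u.1 x, map_add' := fun _ _ => rfl, map_smul' := fun _ _ => rfl }
  obtain ⟨A, hA, hn⟩ := exists_ext (F := F) (k := k) L (Real.sqrt_nonneg |S|) fun u =>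
    (CB_bound (hS.CB 0 u.2.1 u.2.2.1) x).trans
      (mul_le_mul_of_nonneg_left (nrm_mono hk _) (Real.sqrt_nonneg _))
  have h : ∃ A : F.H k p →L[ℝ] V, ∀ u : Sec I p, A (F.toH k p u) = u.1 x := ⟨A, hA⟩
  have : F.ev k p x = A := by
    rw [ev, dif_pos h]
    exact clm_ext fun u => (h.choose_spec u).trans (hA u).symm
  rw [this]
  exact ⟨hA, hn⟩

theorem val_toH (hS : Sup F S) (hk : 4 ≤ k) (u : Sec I p) : F.val k p (F.toH k p u) = u.1 :=
  funext fun x => (ev_spec hS hk x).1 u

theorem norm_val_le (hS : Sup F S) (hk : 4 ≤ k) (h : F.H k p) (x : M) :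
    ‖F.val k p h x‖ ≤ √|S| * ‖h‖ := (F.ev k p x).le_of_opNorm_le (ev_spec hS hk x).2 h

omit [CompleteSpace V] in
theorem val_add (h h' : F.H k p) : F.val k p (h + h') = F.val k p h + F.val k p h' :=
  funext fun x => map_add (F.ev k p x) h h'

omit [CompleteSpace V] in
theorem val_sub (h h' : F.H k p) : F.val k p (h - h') = F.val k p h - F.val k p h' :=
  funext fun x => map_sub (F.ev k p x) h h'

omit [CompleteSpace V] in
theorem val_neg (h : F.H k p) : F.val k p (-h) = -F.val k p h :=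
  funext fun x => map_neg (F.ev k p x) h

omit [CompleteSpace V] in
theorem val_smul (c : ℝ) (h : F.H k p) : F.val k p (c • h) = c • F.val k p h :=
  funext fun x => map_smul (F.ev k p x) c h

omit [CompleteSpace V] in
theorem val_zero : F.val k p 0 = 0 := funext fun x => map_zero (F.ev k p x)

omit [CompleteSpace V] in
theorem val_sum {κ : Type*} (s : Finset κ) (h : κ → F.H k p) (x : M) :
    F.val k p (∑ i ∈ s, h i) x = ∑ i ∈ s, F.val k p (h i) x := map_sum (F.ev k p x) h s

omit [CompleteSpace V] in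
@[fun_prop] theorem continuous_val_apply (x : M) : Continuous fun h => F.val k p h x :=
  (F.ev k p x).continuous

theorem tendstoUniformly_val (hS : Sup F S) (hk : 4 ≤ k) {κ : Type*} {L : Filter κ}
    {h : κ → F.H k p} {g : F.H k p} (hh : Tendsto h L (𝓝 g)) :
    TendstoUniformly (fun n => F.val k p (h n)) (F.val k p g) L := by
  rw [Metric.tendstoUniformly_iff]
  intro ε hε
  have h1 : Tendsto (fun n => √|S| * ‖g - h n‖) L (𝓝 (√|S| * ‖g - g‖)) :=
    ((tendsto_const_nhds.sub hh).norm).const_mul _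
  rw [sub_self, norm_zero, mul_zero] at h1
  filter_upwards [h1.eventually (gt_mem_nhds hε)] with n hn x
  rw [dist_eq_norm]
  exact lt_of_le_of_lt (by simpa [val_sub] using norm_val_le hS hk (g - h n) x) hn

theorem continuous_val (hS : Sup F S) (hk : 4 ≤ k) (h : F.H k p) : Continuous (F.val k p h) := by
  obtain ⟨u, hu⟩ := exists_seq h
  refine (tendstoUniformly_val hS hk hu).continuous (Frequently.of_forall fun n => ?_)
  rw [val_toH hS hk]; exact (u n).2.1.continuous

theorem continuous_val₂ (hS : Sup F S) (hk : 4 ≤ k) :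
    Continuous fun z : F.H k p × M => F.val k p z.1 z.2 := by
  refine continuous_prod_of_continuous_lipschitzWith _ ⟨√|S|, Real.sqrt_nonneg _⟩
    (continuous_val hS hk) fun x => LipschitzWith.of_dist_le_mul fun h h' => ?_
  have := norm_val_le hS hk (h - h') x
  rw [val_sub] at this
  rw [dist_eq_norm, dist_eq_norm]
  exact this

theorem val_ae (hS : Sup F S) (hk : 4 ≤ k) (h : F.H k p) :
    F.toL2 k p h =ᵐ[F.μ] F.val k p h := by
  obtain ⟨u, hu, hu'⟩ := exists_seq_ae h
  filter_upwards [hu'] with y hy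
  refine tendsto_nhds_unique hy ?_
  simpa only [val_toH hS hk] using (tendstoUniformly_val hS hk hu).tendsto_at y

theorem val_injective {F : Fr I M ι} (hS : Sup F.toPre S) (hk : 4 ≤ k) : Injective (F.val k p) :=
  fun h h' e => toL2_injective (Lp.ext (((val_ae hS hk h).trans (by rw [e])).trans
    (val_ae hS hk h').symm))

theorem val_proj (hS : Sup F S) (hk : 4 ≤ k) (h : F.H k p) (x : M) :
    p x (F.val k p h x) = F.val k p h x := by
  induction h using H_ind with
  | hP => exact isClosed_eq (by fun_prop) (by fun_prop)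
  | h u => rw [val_toH hS hk]; exact u.2.2.2 x

theorem val_rep [CompleteSpace W] (hS : Sup F S) (hk : 4 ≤ k) (hj : 4 ≤ j)
    {A : F.H k p →L[ℝ] F.H j q} {g : M → V → W} (hA : F.Rep A fun u x => g x (u x))
    (hg : ∀ x, Continuous (g x)) (h : F.H k p) (x : M) :
    F.val j q (A h) x = g x (F.val k p h x) := by
  induction h using H_ind with
  | hP => exact isClosed_eq (by fun_prop) ((hg x).comp (by fun_prop))
  | h u => rw [RepT_toH hA, val_toH hS hk, val_toH hS hj]

theorem val_incl (hS : Sup F S) (hj : 4 ≤ j) (hk : j ≤ k) (h : F.H k p) :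
    F.val j p (F.incl k j p h) = F.val k p h :=
  funext (val_rep (g := fun _ v => v) hS (hj.trans hk) hj (rep_incl hk) (fun _ => continuous_id) h)

theorem val_fg (hS : Sup F S) (hk : 4 ≤ k) (h : F.H k p) :
    F.val k _ (fg F k p h) = F.val k p h :=
  funext (val_rep (g := fun _ v => v) hS hk hk rep_fg (fun _ => continuous_id) h)

theorem val_mulH [SecondCountableTopology M] [CompleteSpace W] (hS : Sup F S) (hk : 4 ≤ k)
    {f : M → V →L[ℝ] W} (hf : F.Cb f) (hm : Maps p q f) (h : F.H k p) (x : M) :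
    F.val k q (F.mulH k p q f h) x = f x (F.val k p h x) :=
  val_rep (g := fun y v => f y v) hS hk hk (rep_mulH hf hm) (fun y => (f y).continuous) h x

theorem val_smulH [SecondCountableTopology M] (hS : Sup F S) (hk : 4 ≤ k)
    {f : M → ℝ} (hf : F.Cb f) (h : F.H k p) (x : M) :
    F.val k p (smulH F k p f h) x = f x • F.val k p h x :=
  val_rep (g := fun y v => f y • v) hS hk hk (rep_smulH hf) (fun _ => by fun_prop) h x

theorem val_bilH [SecondCountableTopology M] [CompleteSpace W] [CompleteSpace U] (hS : Sup F S)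
    (h : Lev k j l) (hl : 4 ≤ l) {β : M → V →L[ℝ] W →L[ℝ] U} (hβ : F.Cb β) (hm : Maps₂ p q r β)
    (x : F.H k p) (y : F.H j q) (z : M) :
    F.val l r (F.bilH k j p q r l β x y) z = β z (F.val k p x z) (F.val j q y z) := by
  induction x, y using H_ind₂ with
  | hP => exact isClosed_eq (by fun_prop) (by fun_prop)
  | h u v => rw [Rep₂_toH (rep_bilH hS h hβ hm), val_toH hS hl, val_toH hS (hl.trans h.1),
      val_toH hS (hl.trans h.2.1)]

/-! ### differentiability -/

omit [CompleteSpace V] in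
theorem span_coef (F : Pre I M ι) (x : M) (v : TangentSpace I x) :
    ∃ c : ι → ℝ, v = ∑ a, c a • F.e a x := by
  obtain ⟨c, hc⟩ := (Submodule.mem_span_range_iff_exists_fun ℝ).1
    (show v ∈ Submodule.span ℝ (range fun a => F.e a x) from F.span x ▸ Submodule.mem_top)
  exact ⟨c, hc.symm⟩

variable [I.Boundaryless]

theorem val_DH (hS : Sup F S) (hk : 4 ≤ k) (h : F.H (k + 1) p) :
    MDifferentiable I 𝓘(ℝ, V) (F.val (k + 1) p h) ∧
      ∀ a, F.D a (F.val (k + 1) p h) = F.val k _ (DH F k p a h) := by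
  obtain ⟨u, hu⟩ := exists_seq h
  have key := mdiff_of_limit F.sm (span_coef F) (l := atTop) (u := fun n => (u n).1)
    (f := F.val (k + 1) p h) (g := fun a => F.val k _ (DH F k p a h))
    (fun n => (u n).2.1.mdifferentiable (by simp))
    (fun x => by
      simpa only [val_toH hS (hk.trans k.le_succ)] using
        (tendstoUniformly_val hS (hk.trans k.le_succ) hu).tendsto_at x)
    (fun a => by
      simpa only [comp_apply, RepT_toH (rep_DH a), val_toH hS hk, D_def] using
        tendstoUniformly_val hS hk (((DH F k p a).continuous.tendsto h).comp hu))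
  exact ⟨fun x => (key x).1, fun a => funext fun x => (key x).2 a⟩

theorem contMDiff_val (hS : Sup F S) {n : ℕ} (hk : n + 4 ≤ k) (h : F.H k p) :
    ContMDiff I 𝓘(ℝ, V) n (F.val k p h) := by
  refine contMDiff_of_class F.sm (span_coef F)
    (fun n u => ∃ k, n + 4 ≤ k ∧ ∃ h : F.H k (triv M V), F.val k _ h = u) ?_ ?_ n _
    ⟨k, hk, fg F k p h, val_fg hS (by omega) h⟩
  · rintro _ ⟨k, hk, h, rfl⟩
    exact continuous_val hS (by omega) h
  · rintro n _ ⟨k, hk, h, rfl⟩
    obtain ⟨k, rfl⟩ : ∃ k', k = k' + 1 := ⟨k - 1, by omega⟩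
    have := val_DH hS (by omega) h
    exact ⟨this.1, fun a => ⟨k, by omega, _, (this.2 a).symm⟩⟩

theorem CB_val (hS : Sup F S) (n : ℕ) : ∀ {k : ℕ} {p : M → V →L[ℝ] V} (_ : n + 4 ≤ k)
    (h : F.H k p), F.CB n (F.val k p h) (√|S| * ‖h‖) := by
  induction n with
  | zero => exact fun hk h => CB_zero.2 (norm_val_le hS hk h)
  | succ n ih =>
    intro k p hk h
    obtain ⟨k, rfl⟩ : ∃ k', k = k' + 1 := ⟨k - 1, by omega⟩
    refine CB_succ.2 ⟨norm_val_le hS (by omega) h, fun a => ?_⟩
    rw [(val_DH hS (by omega) h).2 a]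
    exact CB_mono (ih (by omega) _)
      (mul_le_mul_of_nonneg_left (norm_DH_le a h) (Real.sqrt_nonneg _))

/-- elements of all the `H j` are smooth with bounded derivatives -/
theorem Cb_val (hS : Sup F S) (hk : 4 ≤ k) {h : F.H k p}
    (hh : ∀ j, k ≤ j → ∃ g : F.H j p, F.incl j k p g = h) : F.Cb (F.val k p h) := by
  choose g hg using fun n => hh (k + n) (Nat.le_add_right k n)
  have e : ∀ n, F.val k p h = F.val (k + n) p (g n) := fun n => by
    rw [← hg n, val_incl hS hk (Nat.le_add_right k n)]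
  refine ⟨fun n => √|S| * ‖g n‖, contMDiff_infty.2 fun n => ?_, fun n => ?_⟩
  · rw [e n]; exact contMDiff_val hS (by omega) _
  · rw [e n]; exact CB_val hS n (by omega) _

/-- on a closed manifold such elements are smooth sections -/
theorem exists_sec [CompactSpace M] {F : Fr I M ι} (hS : Sup F.toPre S) (hk : 4 ≤ k) {h : F.H k p}
    (hh : ∀ j, k ≤ j → ∃ g : F.H j p, F.incl j k p g = h) : ∃ u : Sec I p, F.toH k p u = h :=
  ⟨⟨F.val k p h, (Cb_val hS hk hh).choose_spec.1, HasCompactSupport.of_compactSpace _,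
    val_proj hS hk h⟩, val_injective hS hk (val_toH hS hk _)⟩

theorem val_opH [SecondCountableTopology M] [CompleteSpace W] (hS : Sup F S) (hk : 4 ≤ k)
    {σ : ι → M → V →L[ℝ] W} {B : M → V →L[ℝ] W} (hσ : ∀ a, F.Cb (σ a)) (hB : F.Cb B)
    (hq : ∀ a x v, q x (σ a x v) = σ a x v) (hm : Maps p q B) (h : F.H (k + 1) p) :
    F.val k q (F.opH k p q σ B h) = F.op σ B (F.val (k + 1) p h) := by
  funext x
  simp only [Pre.op, (val_DH hS hk h).2]
  induction h using H_ind with
  | hP => exact isClosed_eq (by fun_prop) (by fun_prop)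
  | h u =>
    simp only [RepT_toH (rep_opH hσ hB hq hm), RepT_toH (rep_DH _), val_toH hS hk,
      val_toH hS (hk.trans k.le_succ), Pre.op]

end ev

end Crest.Agent.X212.Sob92
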