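import Crest.Agent.X212.Sob92.Der

/-! Squared `L²_k` norms of functions along a family of vector fields; tame product estimate. -/

open scoped Manifold ContDiff Topology
open Set Filter Function MeasureTheory

noncomputable section
namespace Crest.Agent.X212.Sob92

variable {E H : Type*} [NormedAddCommGroup E] [NormedSpace ℝ E] [TopologicalSpace H]
  {I : ModelWithCorners ℝ E H} {M : Type*} [TopologicalSpace M] [ChartedSpace H M]
  {V W X : Type*} [NormedAddCommGroup V] [NormedSpace ℝ V] [NormedAddCommGroup W]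
  [NormedSpace ℝ W] [NormedAddCommGroup X] [NormedSpace ℝ X] {ι : Type*}

variable (I) in
/-- Sup bounds for the derivatives of order `< i`. -/
def cb (e : ι → (x : M) → TangentSpace I x) : ℕ → (M → V) → ℝ → Prop
  | 0, _, _ => True
  | i + 1, f, C => (∀ x, ‖f x‖ ≤ C) ∧ ∀ a, cb e i (dv I (e a) f) C

variable {e : ι → (x : M) → TangentSpace I x}

theorem cb.pred : ∀ {i : ℕ} {f : M → V} {C : ℝ}, cb I e (i + 1) f C → cb I e i f C
  | 0, _, _, _ => trivial
  | _ + 1, _, _, h => ⟨h.1, fun a => (h.2 a).pred⟩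

theorem cb.of_le {i j : ℕ} {f : M → V} {C : ℝ} (h : cb I e j f C) (hij : i ≤ j) : cb I e i f C := by
  induction hij with
  | refl => exact h
  | step _ ih => exact ih h.pred

theorem cb.mono : ∀ {i : ℕ} {f : M → V} {C C' : ℝ}, cb I e i f C → C ≤ C' → cb I e i f C'
  | 0, _, _, _, _, _ => trivial
  | _ + 1, _, _, _, h, hC => ⟨fun x => (h.1 x).trans hC, fun a => (h.2 a).mono hC⟩

variable [MeasurableSpace M] {μ : Measure M}

variable (I e μ) in
/-- All derivatives of order `≤ k` are square integrable. -/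
def ML : ℕ → (M → V) → Prop
  | 0, u => MemLp u 2 μ
  | k + 1, u => MemLp u 2 μ ∧ ∀ a, ML k (dv I (e a) u)

theorem ML.memLp : ∀ {k : ℕ} {u : M → V}, ML I e μ k u → MemLp u 2 μ
  | 0, _, h => h
  | _ + 1, _, h => h.1

theorem ML.pred : ∀ {k : ℕ} {u : M → V}, ML I e μ (k + 1) u → ML I e μ k u
  | 0, _, h => h.1
  | _ + 1, _, h => ⟨h.1, fun a => (h.2 a).pred⟩

theorem ML.of_le {i j : ℕ} {u : M → V} (h : ML I e μ j u) (hij : i ≤ j) : ML I e μ i u := by
  induction hij with
  | refl => exact h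
  | step _ ih => exact ih h.pred

variable [Fintype ι]

variable (I e μ) in
/-- The squared `L²_k` norm. -/
def n2 : ℕ → (M → V) → ℝ
  | 0, u => ∫ x, ‖u x‖ ^ 2 ∂μ
  | k + 1, u => ∫ x, ‖u x‖ ^ 2 ∂μ + ∑ a, n2 k (dv I (e a) u)

theorem n2_succ (k : ℕ) (u : M → V) :
    n2 I e μ (k + 1) u = n2 I e μ 0 u + ∑ a, n2 I e μ k (dv I (e a) u) := rfl

theorem n2_nonneg : ∀ (k : ℕ) (u : M → V), 0 ≤ n2 I e μ k u
  | 0, _ => integral_nonneg fun _ => by positivity
  | k + 1, _ => add_nonneg (integral_nonneg fun _ => by positivity)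
      (Finset.sum_nonneg fun _ _ => n2_nonneg k _)

theorem n2_le_succ : ∀ (k : ℕ) (u : M → V), n2 I e μ k u ≤ n2 I e μ (k + 1) u
  | 0, _ => le_add_of_nonneg_right (Finset.sum_nonneg fun _ _ => n2_nonneg 0 _)
  | k + 1, _ => add_le_add le_rfl (Finset.sum_le_sum fun _ _ => n2_le_succ k _)

theorem n2_mono {i j : ℕ} (hij : i ≤ j) (u : M → V) : n2 I e μ i u ≤ n2 I e μ j u := by
  induction hij with
  | refl => exact le_rfl
  | step _ ih => exact ih.trans (n2_le_succ _ u)

theorem sum_n2_dv_le (k : ℕ) (u : M → V) :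
    ∑ a, n2 I e μ k (dv I (e a) u) ≤ n2 I e μ (k + 1) u :=
  le_add_of_nonneg_left (n2_nonneg (I := I) (e := e) (μ := μ) 0 u)

theorem n2_dv_le (k : ℕ) (u : M → V) (a : ι) :
    n2 I e μ k (dv I (e a) u) ≤ n2 I e μ (k + 1) u :=
  (Finset.single_le_sum (f := fun a => n2 I e μ k (dv I (e a) u)) (fun _ _ => n2_nonneg k _)
    (Finset.mem_univ a)).trans (sum_n2_dv_le k u)

omit [TopologicalSpace M] [NormedSpace ℝ V] in
theorem int_sq {u : M → V} (hu : MemLp u 2 μ) : Integrable (fun x => ‖u x‖ ^ 2) μ :=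
  (memLp_two_iff_integrable_sq_norm hu.1).1 hu

variable [IsManifold I 1 M]

omit [Fintype ι] in
theorem ML.add
    (he : ∀ a, ContMDiff I I.tangent ∞ (fun x => (⟨x, e a x⟩ : TangentBundle I M))) :
    ∀ {k : ℕ} {u v : M → V}, ContMDiff I 𝓘(ℝ, V) ∞ u → ContMDiff I 𝓘(ℝ, V) ∞ v →
      ML I e μ k u → ML I e μ k v → ML I e μ k (u + v)
  | 0, _, _, _, _, h, h' => MemLp.add h h'
  | k + 1, u, v, hu, hv, h, h' => ⟨h.1.add h'.1, fun a => by
      have : dv I (e a) (u + v) = dv I (e a) u + dv I (e a) v := funext fun x =>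
        dv_add (hu.mdifferentiableAt (by simp)) (hv.mdifferentiableAt (by simp))
      rw [this]
      exact ML.add he (dv_smooth (he a) hu) (dv_smooth (he a) hv) (h.2 a) (h'.2 a)⟩

theorem n2_add_le
    (he : ∀ a, ContMDiff I I.tangent ∞ (fun x => (⟨x, e a x⟩ : TangentBundle I M))) :
    ∀ (k : ℕ) {u v : M → V}, ContMDiff I 𝓘(ℝ, V) ∞ u → ContMDiff I 𝓘(ℝ, V) ∞ v →
      ML I e μ k u → ML I e μ k v →
      n2 I e μ k (u + v) ≤ 2 * n2 I e μ k u + 2 * n2 I e μ k v := by
  have h0 : ∀ {u v : M → V}, MemLp u 2 μ → MemLp v 2 μ →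
      n2 I e μ 0 (u + v) ≤ 2 * n2 I e μ 0 u + 2 * n2 I e μ 0 v := fun {u v} h h' => by
    simp only [n2]
    rw [← integral_const_mul, ← integral_const_mul,
      ← integral_add ((int_sq h).const_mul 2) ((int_sq h').const_mul 2)]
    refine integral_mono (int_sq (h.add h'))
      (((int_sq h).const_mul 2).add ((int_sq h').const_mul 2)) fun x => ?_
    have := norm_add_le (u x) (v x)
    have h1 : ‖u x + v x‖ ^ 2 ≤ (‖u x‖ + ‖v x‖) ^ 2 := by gcongr
    simp only [Pi.add_apply]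
    nlinarith [sq_nonneg (‖u x‖ - ‖v x‖)]
  intro k
  induction k with
  | zero => exact fun _ _ h h' => h0 h h'
  | succ k ih =>
    intro u v hu hv h h'
    have h1 : ∀ a, n2 I e μ k (dv I (e a) (u + v)) ≤
        2 * n2 I e μ k (dv I (e a) u) + 2 * n2 I e μ k (dv I (e a) v) := fun a => by
      have : dv I (e a) (u + v) = dv I (e a) u + dv I (e a) v := funext fun x =>
        dv_add (hu.mdifferentiableAt (by simp)) (hv.mdifferentiableAt (by simp))
      rw [this]
      exact ih (dv_smooth (he a) hu) (dv_smooth (he a) hv) (h.2 a) (h'.2 a)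
    have h2 := Finset.sum_le_sum fun a (_ : a ∈ Finset.univ) => h1 a
    rw [Finset.sum_add_distrib, ← Finset.mul_sum, ← Finset.mul_sum] at h2
    have := h0 h.1 h'.1
    simp only [n2_succ]
    linarith

variable [OpensMeasurableSpace M] [SecondCountableTopologyEither M X]

/-- The tame product estimate. -/
theorem n2_bil
    (he : ∀ a, ContMDiff I I.tangent ∞ (fun x => (⟨x, e a x⟩ : TangentBundle I M)))
    (B : V →L[ℝ] W →L[ℝ] X) {A C : ℝ} (k : ℕ) :
    ∀ (i j : ℕ) {u : M → V} {v : M → W}, i + j = k + 1 → ContMDiff I 𝓘(ℝ, V) ∞ u →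
      ContMDiff I 𝓘(ℝ, W) ∞ v → cb I e i u A → cb I e j v C → (1 ≤ j → ML I e μ k u) →
      (1 ≤ i → ML I e μ k v) →
      ML I e μ k (fun x => B (u x) (v x)) ∧ n2 I e μ k (fun x => B (u x) (v x)) ≤
        (2 * Fintype.card ι + 3) ^ k * ‖B‖ ^ 2 * (A ^ 2 * n2 I e μ k v + C ^ 2 * n2 I e μ k u) := by
  have h0 : ∀ (i j : ℕ) {u : M → V} {v : M → W}, 1 ≤ i + j → ContMDiff I 𝓘(ℝ, V) ∞ u →
      ContMDiff I 𝓘(ℝ, W) ∞ v → cb I e i u A → cb I e j v C → (1 ≤ j → MemLp u 2 μ) →
      (1 ≤ i → MemLp v 2 μ) → MemLp (fun x => B (u x) (v x)) 2 μ ∧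
      n2 I e μ 0 (fun x => B (u x) (v x)) ≤
        ‖B‖ ^ 2 * (A ^ 2 * n2 I e μ 0 v + C ^ 2 * n2 I e μ 0 u) := by
    intro i j u v hij hu hv hA hC h h'
    have hm : AEStronglyMeasurable (fun x => B (u x) (v x)) μ :=
      (smooth_bil B hu hv).continuous.aestronglyMeasurable
    have hu0 := n2_nonneg (I := I) (e := e) (μ := μ) 0 u
    have hv0 := n2_nonneg (I := I) (e := e) (μ := μ) 0 v
    rcases i with _ | i
    · obtain ⟨j, rfl⟩ : ∃ j', j = j' + 1 := ⟨j - 1, by omega⟩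
      have hb : ∀ x, ‖B (u x) (v x)‖ ≤ ‖B‖ * C * ‖u x‖ := fun x => by
        have := hC.1 x
        calc _ ≤ ‖B‖ * ‖u x‖ * ‖v x‖ := B.le_opNorm₂ _ _
          _ ≤ ‖B‖ * ‖u x‖ * C := by gcongr
          _ = _ := by ring
      have h1 := (h (by omega)).of_le_mul hm (Eventually.of_forall hb)
      refine ⟨h1, ?_⟩
      calc _ ≤ ∫ x, (‖B‖ * C) ^ 2 * ‖u x‖ ^ 2 ∂μ :=
            integral_mono (int_sq h1) ((int_sq (h (by omega))).const_mul _) fun x => by
              simp only [← mul_pow]; gcongr; exact hb x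
        _ = ‖B‖ ^ 2 * (C ^ 2 * n2 I e μ 0 u) := by rw [integral_const_mul]; simp only [n2]; ring
        _ ≤ _ := by gcongr; exact le_add_of_nonneg_left (by positivity)
    · have hb : ∀ x, ‖B (u x) (v x)‖ ≤ ‖B‖ * A * ‖v x‖ := fun x => by
        have := hA.1 x
        calc _ ≤ ‖B‖ * ‖u x‖ * ‖v x‖ := B.le_opNorm₂ _ _
          _ ≤ _ := by gcongr
      have h1 := (h' (by omega)).of_le_mul hm (Eventually.of_forall hb)
      refine ⟨h1, ?_⟩
      calc _ ≤ ∫ x, (‖B‖ * A) ^ 2 * ‖v x‖ ^ 2 ∂μ :=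
            integral_mono (int_sq h1) ((int_sq (h' (by omega))).const_mul _) fun x => by
              simp only [← mul_pow]; gcongr; exact hb x
        _ = ‖B‖ ^ 2 * (A ^ 2 * n2 I e μ 0 v) := by rw [integral_const_mul]; simp only [n2]; ring
        _ ≤ _ := by gcongr; exact le_add_of_nonneg_right (by positivity)
  induction k with
  | zero =>
    intro i j u v hij hu hv hA hC h h'
    have := h0 i j hij.ge hu hv hA hC h h'
    exact ⟨this.1, by simpa using this.2⟩
  | succ k ih =>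
    intro i j u v hij hu hv hA hC h h'
    have hz := h0 i j (by omega) hu hv hA hC (fun q => (h q).1) (fun q => (h' q).1)
    set c : ℝ := (2 * Fintype.card ι + 3) ^ k
    have h1 : ∀ a, ML I e μ k (fun x => B (dv I (e a) u x) (v x)) ∧
        n2 I e μ k (fun x => B (dv I (e a) u x) (v x)) ≤
        c * ‖B‖ ^ 2 * (A ^ 2 * n2 I e μ k v + C ^ 2 * n2 I e μ k (dv I (e a) u)) := fun a => by
      rcases i with _ | i
      · obtain ⟨j, rfl⟩ : ∃ j', j = j' + 1 := ⟨j - 1, by omega⟩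
        exact ih 0 j (by omega) (dv_smooth (he a) hu) hv trivial hC.pred
          (fun _ => (h (by omega)).2 a) (fun q => absurd q (by omega))
      · exact ih i j (by omega) (dv_smooth (he a) hu) hv (hA.2 a) hC
          (fun q => (h q).2 a) (fun _ => (h' (by omega)).pred)
    have h2 : ∀ a, ML I e μ k (fun x => B (u x) (dv I (e a) v x)) ∧
        n2 I e μ k (fun x => B (u x) (dv I (e a) v x)) ≤
        c * ‖B‖ ^ 2 * (A ^ 2 * n2 I e μ k (dv I (e a) v) + C ^ 2 * n2 I e μ k u) := fun a => by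
      rcases j with _ | j
      · obtain ⟨i, rfl⟩ : ∃ i', i = i' + 1 := ⟨i - 1, by omega⟩
        exact ih i 0 (by omega) hu (dv_smooth (he a) hv) hA.pred trivial
          (fun q => absurd q (by omega)) (fun _ => (h' (by omega)).2 a)
      · exact ih i j (by omega) hu (dv_smooth (he a) hv) hA (hC.2 a)
          (fun _ => (h (by omega)).pred) (fun q => (h' q).2 a)
    have h3 : ∀ a, dv I (e a) (fun x => B (u x) (v x)) =
        (fun x => B (dv I (e a) u x) (v x)) + fun x => B (u x) (dv I (e a) v x) := fun a =>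
      funext fun x => dv_bil B (hu.mdifferentiableAt (by simp)) (hv.mdifferentiableAt (by simp))
    have s1 := fun a => smooth_bil B (dv_smooth (he a) hu) hv
    have s2 := fun a => smooth_bil B hu (dv_smooth (he a) hv)
    refine ⟨⟨hz.1, fun a => h3 a ▸ ML.add he (s1 a) (s2 a) (h1 a).1 (h2 a).1⟩, ?_⟩
    have h4 : ∀ a, n2 I e μ k (dv I (e a) fun x => B (u x) (v x)) ≤ 2 * (c * ‖B‖ ^ 2) *
        (A ^ 2 * n2 I e μ (k + 1) v + C ^ 2 * n2 I e μ (k + 1) u +
          (A ^ 2 * n2 I e μ k (dv I (e a) v) + C ^ 2 * n2 I e μ k (dv I (e a) u))) := fun a => by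
      rw [h3 a]
      refine (n2_add_le he k (s1 a) (s2 a) (h1 a).1 (h2 a).1).trans ?_
      have p1 := n2_le_succ (I := I) (e := e) (μ := μ) k u
      have p2 := n2_le_succ (I := I) (e := e) (μ := μ) k v
      have p3 : c * ‖B‖ ^ 2 * (A ^ 2 * n2 I e μ k v + C ^ 2 * n2 I e μ k u) ≤
          c * ‖B‖ ^ 2 * (A ^ 2 * n2 I e μ (k + 1) v + C ^ 2 * n2 I e μ (k + 1) u) := by gcongr
      nlinarith [(h1 a).2, (h2 a).2]
    have h5 := Finset.sum_le_sum fun a (_ : a ∈ Finset.univ) => h4 a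
    rw [← Finset.mul_sum, Finset.sum_add_distrib, Finset.sum_add_distrib (s := Finset.univ)
      (f := fun a => A ^ 2 * n2 I e μ k (dv I (e a) v)), ← Finset.mul_sum, ← Finset.mul_sum,
      Finset.sum_const, Finset.card_univ, nsmul_eq_mul] at h5
    set S := A ^ 2 * n2 I e μ (k + 1) v + C ^ 2 * n2 I e μ (k + 1) u with hS
    have hc : 1 ≤ c := one_le_pow₀ (by have := Nat.cast_nonneg (α := ℝ) (Fintype.card ι); linarith)
    have hS0 : 0 ≤ S := by
      have := n2_nonneg (I := I) (e := e) (μ := μ) (k + 1) u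
      have := n2_nonneg (I := I) (e := e) (μ := μ) (k + 1) v
      positivity
    have q1 : A ^ 2 * ∑ a, n2 I e μ k (dv I (e a) v) + C ^ 2 * ∑ a, n2 I e μ k (dv I (e a) u)
        ≤ S := by
      have := sum_n2_dv_le (I := I) (e := e) (μ := μ) k u
      have := sum_n2_dv_le (I := I) (e := e) (μ := μ) k v
      rw [hS]; gcongr
    have q2 : A ^ 2 * n2 I e μ 0 v + C ^ 2 * n2 I e μ 0 u ≤ S := by
      have := n2_mono (I := I) (e := e) (μ := μ) (Nat.zero_le (k + 1)) u
      have := n2_mono (I := I) (e := e) (μ := μ) (Nat.zero_le (k + 1)) v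
      rw [hS]; gcongr
    rw [n2_succ]
    calc _ ≤ ‖B‖ ^ 2 * S + 2 * (c * ‖B‖ ^ 2) * (Fintype.card ι * S + S) := by
          refine add_le_add (hz.2.trans (by gcongr)) (h5.trans (by gcongr))
      _ ≤ c * (‖B‖ ^ 2 * S) + 2 * (c * ‖B‖ ^ 2) * (Fintype.card ι * S + S) := by
          exact add_le_add (le_mul_of_one_le_left (mul_nonneg (sq_nonneg _) hS0) hc) le_rfl
      _ = _ := by rw [pow_succ]; ring

omit [SecondCountableTopologyEither M X] [OpensMeasurableSpace M] [Fintype ι] in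
theorem ML.clm
    (he : ∀ a, ContMDiff I I.tangent ∞ (fun x => (⟨x, e a x⟩ : TangentBundle I M)))
    (L : V →L[ℝ] W) : ∀ {k : ℕ} {u : M → V}, ContMDiff I 𝓘(ℝ, V) ∞ u → ML I e μ k u →
      ML I e μ k (fun x => L (u x))
  | 0, _, _, h => L.comp_memLp' h
  | k + 1, u, hu, h => ⟨L.comp_memLp' h.1, fun a => by
      have : dv I (e a) (fun x => L (u x)) = fun x => L (dv I (e a) u x) := funext fun x =>
        dv_clm L (hu.mdifferentiableAt (by simp))
      rw [this]
      exact ML.clm he L (dv_smooth (he a) hu) (h.2 a)⟩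

omit [SecondCountableTopologyEither M X] [OpensMeasurableSpace M] in
theorem n2_clm_le
    (he : ∀ a, ContMDiff I I.tangent ∞ (fun x => (⟨x, e a x⟩ : TangentBundle I M)))
    (L : V →L[ℝ] W) (k : ℕ) : ∀ {u : M → V}, ContMDiff I 𝓘(ℝ, V) ∞ u → ML I e μ k u →
      n2 I e μ k (fun x => L (u x)) ≤ ‖L‖ ^ 2 * n2 I e μ k u := by
  have h0 : ∀ {u : M → V}, MemLp u 2 μ →
      n2 I e μ 0 (fun x => L (u x)) ≤ ‖L‖ ^ 2 * n2 I e μ 0 u := fun {u} h => by
    simp only [n2]
    rw [← integral_const_mul]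
    refine integral_mono (int_sq (L.comp_memLp' h)) ((int_sq h).const_mul _) fun x => ?_
    simp only [← mul_pow]
    gcongr
    exact L.le_opNorm _
  induction k with
  | zero => exact fun _ h => h0 h
  | succ k ih =>
    intro u hu h
    rw [n2_succ, n2_succ, mul_add, Finset.mul_sum]
    refine add_le_add (h0 h.1) (Finset.sum_le_sum fun a _ => ?_)
    have : dv I (e a) (fun x => L (u x)) = fun x => L (dv I (e a) u x) := funext fun x =>
      dv_clm L (hu.mdifferentiableAt (by simp))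
    rw [this]
    exact ih (dv_smooth (he a) hu) (h.2 a)

omit [SecondCountableTopologyEither M X] [Fintype ι] in
theorem ML.of_hcs [T2Space M] [IsFiniteMeasureOnCompacts μ]
    (he : ∀ a, ContMDiff I I.tangent ∞ (fun x => (⟨x, e a x⟩ : TangentBundle I M))) :
    ∀ (k : ℕ) {u : M → V}, ContMDiff I 𝓘(ℝ, V) ∞ u → HasCompactSupport u → ML I e μ k u
  | 0, _, hu, hc => hu.continuous.memLp_of_hasCompactSupport hc
  | k + 1, _, hu, hc => ⟨hu.continuous.memLp_of_hasCompactSupport hc, fun a =>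
      ML.of_hcs he k (dv_smooth (he a) hu) (dv_hcs hc)⟩

omit [SecondCountableTopologyEither M X] [OpensMeasurableSpace M] [MeasurableSpace M] [Fintype ι] in
theorem cb.add
    (he : ∀ a, ContMDiff I I.tangent ∞ (fun x => (⟨x, e a x⟩ : TangentBundle I M))) :
    ∀ {i : ℕ} {f g : M → V} {A C : ℝ}, ContMDiff I 𝓘(ℝ, V) ∞ f → ContMDiff I 𝓘(ℝ, V) ∞ g →
      cb I e i f A → cb I e i g C → cb I e i (f + g) (A + C)
  | 0, _, _, _, _, _, _, _, _ => trivial
  | i + 1, f, g, _, _, hf, hg, h, h' => ⟨fun x => (norm_add_le _ _).trans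
      (add_le_add (h.1 x) (h'.1 x)), fun a => by
      have : dv I (e a) (f + g) = dv I (e a) f + dv I (e a) g := funext fun x =>
        dv_add (hf.mdifferentiableAt (by simp)) (hg.mdifferentiableAt (by simp))
      rw [this]
      exact cb.add he (dv_smooth (he a) hf) (dv_smooth (he a) hg) (h.2 a) (h'.2 a)⟩

omit [SecondCountableTopologyEither M X] [OpensMeasurableSpace M] [MeasurableSpace M] [Fintype ι] in
theorem cb.bil
    (he : ∀ a, ContMDiff I I.tangent ∞ (fun x => (⟨x, e a x⟩ : TangentBundle I M)))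
    (B : V →L[ℝ] W →L[ℝ] X) {A C : ℝ} (hA : 0 ≤ A) (hC : 0 ≤ C) :
    ∀ {i : ℕ} {f : M → V} {g : M → W}, ContMDiff I 𝓘(ℝ, V) ∞ f → ContMDiff I 𝓘(ℝ, W) ∞ g →
      cb I e i f A → cb I e i g C → cb I e i (fun x => B (f x) (g x)) (2 ^ i * ‖B‖ * A * C)
  | 0, _, _, _, _, _, _ => trivial
  | i + 1, f, g, hf, hg, h, h' => ⟨fun x => by
      have h1 := h.1 x
      have h2 := h'.1 x
      have h3 : (1 : ℝ) ≤ 2 ^ (i + 1) := one_le_pow₀ (by norm_num)
      calc _ ≤ ‖B‖ * ‖f x‖ * ‖g x‖ := B.le_opNorm₂ _ _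
        _ ≤ 1 * ‖B‖ * A * C := by rw [one_mul]; gcongr
        _ ≤ _ := by gcongr, fun a => by
      have : dv I (e a) (fun x => B (f x) (g x)) =
          (fun x => B (dv I (e a) f x) (g x)) + fun x => B (f x) (dv I (e a) g x) :=
        funext fun x => dv_bil B (hf.mdifferentiableAt (by simp)) (hg.mdifferentiableAt (by simp))
      rw [this]
      refine (cb.add he (smooth_bil B (dv_smooth (he a) hf) hg)
        (smooth_bil B hf (dv_smooth (he a) hg))
        (cb.bil he B hA hC (dv_smooth (he a) hf) hg (h.2 a) h'.pred)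
        (cb.bil he B hA hC hf (dv_smooth (he a) hg) h.pred (h'.2 a))).mono (le_of_eq ?_)
      ring⟩

omit [SecondCountableTopologyEither M X] [OpensMeasurableSpace M] [MeasurableSpace M] [Fintype ι] in
theorem cb.clm
    (he : ∀ a, ContMDiff I I.tangent ∞ (fun x => (⟨x, e a x⟩ : TangentBundle I M)))
    (L : V →L[ℝ] W) {A : ℝ} : ∀ {i : ℕ} {f : M → V}, ContMDiff I 𝓘(ℝ, V) ∞ f →
      cb I e i f A → cb I e i (fun x => L (f x)) (‖L‖ * A)
  | 0, _, _, _ => trivial
  | i + 1, f, hf, h => ⟨fun x => (L.le_opNorm _).trans (by have := h.1 x; gcongr), fun a => by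
      have : dv I (e a) (fun x => L (f x)) = fun x => L (dv I (e a) f x) := funext fun x =>
        dv_clm L (hf.mdifferentiableAt (by simp))
      rw [this]
      exact cb.clm he L (dv_smooth (he a) hf) (h.2 a)⟩

omit [SecondCountableTopologyEither M X] [OpensMeasurableSpace M] [MeasurableSpace M] [Fintype ι]
  [IsManifold I 1 M] in
theorem cb.zero {A : ℝ} (hA : 0 ≤ A) : ∀ i : ℕ, cb I e i (0 : M → V) A
  | 0 => trivial
  | i + 1 => ⟨fun x => by simpa using hA, fun a => by rw [dv_zero]; exact cb.zero hA i⟩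

omit [SecondCountableTopologyEither M X] [OpensMeasurableSpace M] [MeasurableSpace M] [Fintype ι]
  [IsManifold I 1 M] in
theorem cb.const (c : V) : ∀ i : ℕ, cb I e i (fun _ : M => c) ‖c‖
  | 0 => trivial
  | i + 1 => ⟨fun _ => le_rfl, fun a => by rw [dv_const]; exact cb.zero (norm_nonneg c) i⟩

end Crest.Agent.X212.Sob92
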