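import Crest.Agent.X212.An.Defs
import Crest.Agent.X212.Sob92.Nrm

/-! Bridge between `An.Pre.{ip, nrm, CB}` and `n2`, `cb`; estimates for functions. -/

set_option autoImplicit false
set_option linter.unusedSectionVars false
noncomputable section
open scoped Manifold ContDiff Topology InnerProductSpace
open MeasureTheory Set Function Filter

namespace Crest.Agent.X212.Sob92
open An

variable {E : Type} [NormedAddCommGroup E] [NormedSpace ℝ E] [FiniteDimensional ℝ E]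
  [MeasurableSpace E] [BorelSpace E]
  {HM : Type} [TopologicalSpace HM] {I : ModelWithCorners ℝ E HM}
  {M : Type} [TopologicalSpace M] [ChartedSpace HM M] [IsManifold I ∞ M]
  [MeasurableSpace M] {ι : Type} [Fintype ι]
  {N N' N'' : Type} [NormedAddCommGroup N] [NormedSpace ℝ N] [NormedAddCommGroup N']
  [NormedSpace ℝ N'] [NormedAddCommGroup N''] [NormedSpace ℝ N'']
  {U V W : Type} [NormedAddCommGroup U] [InnerProductSpace ℝ U]
  [NormedAddCommGroup V] [InnerProductSpace ℝ V] [NormedAddCommGroup W] [InnerProductSpace ℝ W]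
  {F : Pre I M ι}

/-- squared `L²_k` norm for any normed target -/
abbrev N2 (F : Pre I M ι) (k : ℕ) (u : M → N) : ℝ := n2 I F.e F.μ k u

/-- all derivatives of order `≤ k` are in `L²` -/
abbrev FL (F : Pre I M ι) (k : ℕ) (u : M → N) : Prop := ML I F.e F.μ k u

theorem ip_eq (k : ℕ) (u : M → V) : F.ip k u u = N2 F k u := by
  induction k generalizing u with
  | zero => simp only [Pre.ip, n2, real_inner_self_eq_norm_sq]
  | succ k ih => simp only [Pre.ip, n2, real_inner_self_eq_norm_sq, ih, Pre.D_def]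

theorem nrm_eq (k : ℕ) (u : M → V) : F.nrm k u = √(N2 F k u) := by rw [Pre.nrm, ip_eq]

theorem nrm_nonneg (k : ℕ) (u : M → V) : 0 ≤ F.nrm k u := Real.sqrt_nonneg _

theorem nrm_sq (k : ℕ) (u : M → V) : F.nrm k u ^ 2 = N2 F k u := by
  rw [nrm_eq, Real.sq_sqrt (n2_nonneg k u)]

theorem nrm_le_of_sq {k : ℕ} {u : M → V} {c : ℝ} (hc : 0 ≤ c) (h : N2 F k u ≤ c ^ 2) :
    F.nrm k u ≤ c := by
  rw [nrm_eq]; exact Real.sqrt_le_iff.2 ⟨hc, h⟩

theorem nrm_mono {i j : ℕ} (hij : i ≤ j) (u : M → V) : F.nrm i u ≤ F.nrm j u := by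
  simp only [nrm_eq]; exact Real.sqrt_le_sqrt (n2_mono hij u)

theorem nrm_D_le (k : ℕ) (u : M → V) (a : ι) : F.nrm k (F.D a u) ≤ F.nrm (k + 1) u := by
  simp only [nrm_eq]; exact Real.sqrt_le_sqrt (n2_dv_le k u a)

theorem nrm_succ_sq (k : ℕ) (u : M → V) :
    F.nrm (k + 1) u ^ 2 = F.nrm 0 u ^ 2 + ∑ a, F.nrm k (F.D a u) ^ 2 := by
  simp only [nrm_sq]; rfl

theorem CB_succ {k : ℕ} {f : M → N} {C : ℝ} :
    F.CB (k + 1) f C ↔ (∀ x, ‖f x‖ ≤ C) ∧ ∀ a, F.CB k (F.D a f) C := by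
  refine ⟨fun h => ⟨h [] (by simp), fun a w hw => h (a :: w) (by simpa using hw)⟩, ?_⟩
  rintro ⟨h1, h2⟩ (_ | ⟨a, w⟩) hw
  · exact h1
  · exact h2 a w (by simpa using hw)

theorem CB_zero {f : M → N} {C : ℝ} : F.CB 0 f C ↔ ∀ x, ‖f x‖ ≤ C := by
  refine ⟨fun h => h [] (by simp), fun h w hw => ?_⟩
  obtain rfl : w = [] := List.length_eq_zero_iff.1 (by omega)
  exact h

theorem CB_iff {k : ℕ} {f : M → N} {C : ℝ} : F.CB k f C ↔ cb I F.e (k + 1) f C := by
  induction k generalizing f with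
  | zero => rw [CB_zero]; exact ⟨fun h => ⟨h, fun _ => trivial⟩, fun h => h.1⟩
  | succ k ih => rw [CB_succ]; exact and_congr Iff.rfl (forall_congr' fun a => ih)

section CB

theorem CB_bound {k : ℕ} {f : M → N} {C : ℝ} (h : F.CB k f C) (x : M) : ‖f x‖ ≤ C :=
  h [] (by simp) x

theorem CB_of_le {i j : ℕ} {f : M → N} {C : ℝ} (h : F.CB j f C) (hij : i ≤ j) : F.CB i f C :=
  fun w hw => h w (hw.trans hij)

theorem CB_mono {k : ℕ} {f : M → N} {C C' : ℝ} (h : F.CB k f C) (hC : C ≤ C') : F.CB k f C' :=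
  fun w hw x => (h w hw x).trans hC

theorem CB_abs {k : ℕ} {f : M → N} {C : ℝ} (h : F.CB k f C) : F.CB k f |C| :=
  CB_mono h (le_abs_self C)

theorem CB_D {k : ℕ} {f : M → N} {C : ℝ} (h : F.CB (k + 1) f C) (a : ι) : F.CB k (F.D a f) C :=
  (CB_succ.1 h).2 a

theorem CB_add {k : ℕ} {f g : M → N} {A C : ℝ} (hf : Sm I f) (hg : Sm I g) (h : F.CB k f A)
    (h' : F.CB k g C) : F.CB k (f + g) (A + C) :=
  CB_iff.2 (cb.add F.sm hf hg (CB_iff.1 h) (CB_iff.1 h'))

theorem CB_clm (L : N →L[ℝ] N') {k : ℕ} {f : M → N} {A : ℝ} (hf : Sm I f) (h : F.CB k f A) :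
    F.CB k (fun x => L (f x)) (‖L‖ * A) := CB_iff.2 (cb.clm F.sm L hf (CB_iff.1 h))

theorem CB_bil (B : N →L[ℝ] N' →L[ℝ] N'') {k : ℕ} {f : M → N} {g : M → N'} {A C : ℝ}
    (hf : Sm I f) (hg : Sm I g) (h : F.CB k f A) (h' : F.CB k g C) :
    F.CB k (fun x => B (f x) (g x)) (2 ^ (k + 1) * ‖B‖ * |A| * |C|) :=
  CB_iff.2 (cb.bil F.sm B (abs_nonneg A) (abs_nonneg C) hf hg (CB_iff.1 (CB_abs h))
    (CB_iff.1 (CB_abs h')))

theorem CB_const (k : ℕ) (c : N) : F.CB k (fun _ => c) ‖c‖ := CB_iff.2 (cb.const c _)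

theorem CB_neg {k : ℕ} {f : M → N} {A : ℝ} (hf : Sm I f) (h : F.CB k f A) : F.CB k (-f) |A| :=
  CB_mono (CB_clm (-ContinuousLinearMap.id ℝ N) hf (CB_abs h))
    (mul_le_of_le_one_left (abs_nonneg A) (by simpa using ContinuousLinearMap.norm_id_le))

theorem CB_sum {κ : Type*} (s : Finset κ) {k : ℕ} {f : κ → M → N} {A : κ → ℝ}
    (hf : ∀ i ∈ s, Sm I (f i)) (h : ∀ i ∈ s, F.CB k (f i) (A i)) :
    F.CB k (fun x => ∑ i ∈ s, f i x) (∑ i ∈ s, A i) := by
  classical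
  induction s using Finset.induction_on with
  | empty => simpa using CB_const (F := F) k (0 : N)
  | insert a s ha ih =>
    simp only [Finset.sum_insert ha]
    exact CB_add (hf a (by simp)) (contMDiff_finsetSum fun i hi => hf i (by simp [hi]))
      (h a (by simp)) (ih (fun i hi => hf i (by simp [hi])) fun i hi => h i (by simp [hi]))

theorem Cb_const (c : N) : F.Cb fun _ => c := ⟨fun _ => ‖c‖, contMDiff_const, fun k => CB_const k c⟩

theorem Cb_add {f g : M → N} (hf : F.Cb f) (hg : F.Cb g) : F.Cb (f + g) :=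
  let ⟨_, h⟩ := hf; let ⟨_, h'⟩ := hg
  ⟨_, h.1.add h'.1, fun k => CB_add h.1 h'.1 (h.2 k) (h'.2 k)⟩

theorem Cb_clm (L : N →L[ℝ] N') {f : M → N} (hf : F.Cb f) : F.Cb fun x => L (f x) :=
  let ⟨_, h⟩ := hf
  ⟨_, L.contMDiff.comp h.1, fun k => CB_clm L h.1 (h.2 k)⟩

theorem Cb_bil (B : N →L[ℝ] N' →L[ℝ] N'') {f : M → N} {g : M → N'} (hf : F.Cb f) (hg : F.Cb g) :
    F.Cb fun x => B (f x) (g x) :=
  let ⟨_, h⟩ := hf; let ⟨_, h'⟩ := hg
  ⟨_, smooth_bil B h.1 h'.1, fun k => CB_bil B h.1 h'.1 (h.2 k) (h'.2 k)⟩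

theorem Cb_neg {f : M → N} (hf : F.Cb f) : F.Cb (-f) := Cb_clm (-ContinuousLinearMap.id ℝ N) hf

theorem Cb_sub {f g : M → N} (hf : F.Cb f) (hg : F.Cb g) : F.Cb (f - g) := by
  rw [sub_eq_add_neg]; exact Cb_add hf (Cb_neg hg)

theorem Cb_D {f : M → N} (hf : F.Cb f) (a : ι) : F.Cb (F.D a f) :=
  let ⟨C, h⟩ := hf
  ⟨fun k => C (k + 1), F.sm_D h.1 a, fun k => CB_D (h.2 (k + 1)) a⟩

theorem Cb_sum {κ : Type*} (s : Finset κ) {f : κ → M → N} (hf : ∀ i ∈ s, F.Cb (f i)) :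
    F.Cb fun x => ∑ i ∈ s, f i x := by
  classical
  induction s using Finset.induction_on with
  | empty => simpa using Cb_const (F := F) (0 : N)
  | insert a s ha ih =>
    simp only [Finset.sum_insert ha]
    exact Cb_add (hf a (by simp)) (ih fun i hi => hf i (by simp [hi]))

theorem Cb_comp {f : M → N' →L[ℝ] N''} {g : M → N →L[ℝ] N'} (hf : F.Cb f) (hg : F.Cb g) :
    F.Cb fun x => (f x).comp (g x) := Cb_bil (ContinuousLinearMap.compL ℝ N N' N'') hf hg

theorem Cb_app {f : M → N →L[ℝ] N'} {g : M → N} (hf : F.Cb f) (hg : F.Cb g) :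
    F.Cb fun x => f x (g x) := Cb_bil (ContinuousLinearMap.id ℝ (N →L[ℝ] N')) hf hg

theorem Cb_smul {f : M → ℝ} {g : M → N} (hf : F.Cb f) (hg : F.Cb g) :
    F.Cb fun x => f x • g x := Cb_bil (ContinuousLinearMap.lsmul ℝ ℝ) hf hg

theorem sm_Dw {u : M → N} (hu : Sm I u) (w : List ι) : Sm I (F.Dw w u) := by
  induction w generalizing u with
  | nil => exact hu
  | cons a w ih => exact ih (F.sm_D hu a)

theorem tsupport_Dw (u : M → N) (w : List ι) : tsupport (F.Dw w u) ⊆ tsupport u := by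
  induction w generalizing u with
  | nil => exact Subset.rfl
  | cons a w ih => exact (ih _).trans (F.tsupport_D u a)

theorem hcs_Dw {u : M → N} (hu : HasCompactSupport u) (w : List ι) :
    HasCompactSupport (F.Dw w u) := hu.of_isClosed_subset (isClosed_tsupport _) (tsupport_Dw u w)

end CB

/-- a smooth compactly supported function has all derivatives bounded -/
theorem Cb_of_hcs {u : M → N} (hu : Sm I u) (hc : HasCompactSupport u) : F.Cb u := by
  have h : ∀ (k : ℕ) (u : M → N), Sm I u → HasCompactSupport u → ∃ C, F.CB k u C := by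
    intro k
    induction k with
    | zero =>
      intro u hu hc
      obtain ⟨C, hC⟩ := hu.continuous.bounded_above_of_compact_support hc
      exact ⟨C, CB_zero.2 hC⟩
    | succ k ih =>
      intro u hu hc
      obtain ⟨C, hC⟩ := hu.continuous.bounded_above_of_compact_support hc
      choose A hA using fun a => ih (F.D a u) (F.sm_D hu a) (F.hcs_D hc a)
      refine ⟨|C| + ∑ a, |A a|, CB_succ.2 ⟨fun x => (hC x).trans ?_, fun a => CB_mono (hA a) ?_⟩⟩
      · have : 0 ≤ ∑ a, |A a| := by positivity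
        linarith [le_abs_self C]
      · have := Finset.single_le_sum (f := fun a => |A a|) (fun _ _ => abs_nonneg _)
          (Finset.mem_univ a)
        linarith [le_abs_self (A a), abs_nonneg C]
  choose C hC using fun k => h k u hu hc
  exact ⟨C, hu, hC⟩

theorem Cb_of_compact [CompactSpace M] {u : M → N} (hu : Sm I u) : F.Cb u :=
  Cb_of_hcs hu (HasCompactSupport.of_compactSpace u)

/-- the constant of the Leibniz rule -/
def cK (ι : Type) [Fintype ι] (k : ℕ) : ℝ := √((2 * Fintype.card ι + 3) ^ k)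

theorem cK_nonneg (k : ℕ) : 0 ≤ cK ι k := Real.sqrt_nonneg _

theorem cK_sq (k : ℕ) : cK ι k ^ 2 = (2 * Fintype.card ι + 3) ^ k := Real.sq_sqrt (by positivity)

variable [T2Space M] [BorelSpace M]

theorem FL_of_hcs (k : ℕ) {u : M → N} (hu : Sm I u) (hc : HasCompactSupport u) : FL F k u :=
  ML.of_hcs F.sm k hu hc

omit [T2Space M] [BorelSpace M] in
theorem hcs_bil_right (B : N →L[ℝ] N' →L[ℝ] N'') (f : M → N) {u : M → N'}
    (hc : HasCompactSupport u) : HasCompactSupport fun x => B (f x) (u x) :=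
  hc.mono fun x hx h => hx (by simp [h])

omit [T2Space M] [BorelSpace M] in
theorem hcs_bil_left (B : N →L[ℝ] N' →L[ℝ] N'') {f : M → N} (u : M → N')
    (hc : HasCompactSupport f) : HasCompactSupport fun x => B (f x) (u x) :=
  hc.mono fun x hx h => hx (by simp [h])

variable [SecondCountableTopology M]

omit [T2Space M] in
/-- multiplication by a bounded coefficient -/
theorem N2_mul (B : N →L[ℝ] N' →L[ℝ] N'') {k : ℕ} {f : M → N} {u : M → N'} {C : ℝ}
    (hf : Sm I f) (hu : Sm I u) (hC : F.CB k f C) (hL : FL F k u) :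
    FL F k (fun x => B (f x) (u x)) ∧
      N2 F k (fun x => B (f x) (u x)) ≤ (cK ι k * ‖B‖ * C) ^ 2 * N2 F k u := by
  have := n2_bil (μ := F.μ) F.sm B (A := C) (C := 0) k (k + 1) 0 rfl hf hu (CB_iff.1 hC) trivial
    (fun h => absurd h (by omega)) fun _ => hL
  refine ⟨this.1, this.2.trans (le_of_eq ?_)⟩
  rw [mul_pow, mul_pow, cK_sq]; ring

omit [T2Space M] in
theorem nrm_mul (B : N →L[ℝ] V →L[ℝ] W) {k : ℕ} {f : M → N} {u : M → V} {C : ℝ}
    (hf : Sm I f) (hu : Sm I u) (hC : F.CB k f C) (hL : FL F k u) :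
    F.nrm k (fun x => B (f x) (u x)) ≤ cK ι k * ‖B‖ * |C| * F.nrm k u := by
  refine nrm_le_of_sq (by have := cK_nonneg (ι := ι) k; have := nrm_nonneg (F := F) k u; positivity)
    ((N2_mul B hf hu hC hL).2.trans (le_of_eq ?_))
  simp only [mul_pow, sq_abs, nrm_sq]

omit [T2Space M] in
theorem nrm_app {k : ℕ} {f : M → V →L[ℝ] W} {u : M → V} {C : ℝ}
    (hf : Sm I f) (hu : Sm I u) (hC : F.CB k f C) (hL : FL F k u) :
    F.nrm k (fun x => f x (u x)) ≤ cK ι k * |C| * F.nrm k u := by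
  refine (nrm_mul (ContinuousLinearMap.id ℝ (V →L[ℝ] W)) hf hu hC hL).trans ?_
  have := cK_nonneg (ι := ι) k
  have := nrm_nonneg (F := F) k u
  have := ContinuousLinearMap.norm_id_le (𝕜 := ℝ) (E := V →L[ℝ] W)
  calc _ ≤ cK ι k * 1 * |C| * F.nrm k u := by gcongr
    _ = _ := by ring

omit [T2Space M] in
theorem nrm_smul {k : ℕ} {f : M → ℝ} {u : M → V} {C : ℝ}
    (hf : Sm I f) (hu : Sm I u) (hC : F.CB k f C) (hL : FL F k u) :
    F.nrm k (fun x => f x • u x) ≤ cK ι k * |C| * F.nrm k u := by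
  refine (nrm_mul (ContinuousLinearMap.lsmul ℝ ℝ) hf hu hC hL).trans ?_
  have := cK_nonneg (ι := ι) k
  have := nrm_nonneg (F := F) k u
  have := ContinuousLinearMap.opNorm_lsmul_le (𝕜 := ℝ) (R := ℝ) (E := V)
  calc _ ≤ cK ι k * 1 * |C| * F.nrm k u := by gcongr
    _ = _ := by ring

/-- the scalar Sobolev inequality `L²_4 ⊆ L^∞` with the constant `S` (field `sup` of `Tame`) -/
def Sup (F : Pre I M ι) (S : ℝ) : Prop :=
  ∀ f : M → ℝ, Sm I f → HasCompactSupport f → ∀ x, f x ^ 2 ≤ S * F.ip 4 f f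

omit [T2Space M] [BorelSpace M] [SecondCountableTopology M] in
theorem Sup.of_tame {F : Fr I M ι} {C : ℕ → ℝ} (h : F.Tame C) : Sup F.toPre (C 0) := h.sup

omit [SecondCountableTopology M] in
theorem Sup.sq_le {S : ℝ} (hS : Sup F S) {u : M → N} (hu : Sm I u) (hc : HasCompactSupport u)
    (x : M) : ‖u x‖ ^ 2 ≤ |S| * N2 F 4 u := by
  obtain ⟨L, hL, hx⟩ := exists_dual_vector'' ℝ (u x)
  have h1 := hS (fun y => L (u y)) (L.contMDiff.comp hu) (hc.comp_left (g := L) (map_zero L)) x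
  have h2 := n2_clm_le (μ := F.μ) F.sm L 4 hu (FL_of_hcs 4 hu hc)
  rw [ip_eq] at h1
  have h3 : ‖L‖ ^ 2 ≤ 1 := by have := norm_nonneg L; nlinarith
  have h4 := n2_nonneg (I := I) (e := F.e) (μ := F.μ) 4 u
  have h5 := n2_nonneg (I := I) (e := F.e) (μ := F.μ) 4 fun y => L (u y)
  simp only [hx] at h1
  calc _ ≤ S * N2 F 4 fun y => L (u y) := by simpa using h1
    _ ≤ |S| * N2 F 4 fun y => L (u y) := by gcongr; exact le_abs_self S
    _ ≤ |S| * (‖L‖ ^ 2 * N2 F 4 u) := by gcongr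
    _ ≤ |S| * (1 * N2 F 4 u) := by gcongr
    _ = _ := by ring

omit [SecondCountableTopology M] in
theorem Sup.cb {S : ℝ} (hS : Sup F S) (i : ℕ) : ∀ {u : M → N}, Sm I u → HasCompactSupport u →
    cb I F.e i u √(|S| * N2 F (i + 3) u) := by
  induction i with
  | zero => exact fun _ _ => trivial
  | succ i ih =>
    intro u hu hc
    refine ⟨fun x => Real.le_sqrt_of_sq_le ((hS.sq_le hu hc x).trans ?_), fun a =>
      (ih (F.sm_D hu a) (F.hcs_D hc a)).mono (Real.sqrt_le_sqrt ?_)⟩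
    · gcongr; exact n2_mono (by omega) u
    · gcongr; exact n2_dv_le (i + 3) u a

omit [SecondCountableTopology M] in
theorem Sup.CB {S : ℝ} (hS : Sup F S) (i : ℕ) {u : M → V} (hu : Sm I u)
    (hc : HasCompactSupport u) : F.CB i u (√|S| * F.nrm (i + 4) u) := by
  rw [CB_iff, nrm_eq, ← Real.sqrt_mul (abs_nonneg S)]
  exact hS.cb (i + 1) hu hc

/-- the product estimate `L²_k × L²_j → L²_l` -/
theorem Sup.N2_bil {S : ℝ} (hS : Sup F S) (B : N →L[ℝ] N' →L[ℝ] N'') {k j l : ℕ} (hk : l ≤ k)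
    (hj : l ≤ j) (hl : l + 1 ≤ (k - 3) + (j - 3)) {u : M → N} {v : M → N'} (hu : Sm I u)
    (hc : HasCompactSupport u) (hv : Sm I v) (hc' : HasCompactSupport v) :
    N2 F l (fun x => B (u x) (v x)) ≤ 2 * |S| * (cK ι l * ‖B‖) ^ 2 * N2 F k u * N2 F j v := by
  obtain ⟨i, i', hi, h1, h2⟩ : ∃ i i', i + i' = l + 1 ∧ i ≤ k - 3 ∧ i' ≤ j - 3 :=
    ⟨min (k - 3) (l + 1), l + 1 - min (k - 3) (l + 1), by omega, by omega, by omega⟩
  have c1 : Sob92.cb I F.e i u √(|S| * N2 F k u) := by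
    rcases i with _ | i
    · trivial
    · exact (hS.cb _ hu hc).mono (Real.sqrt_le_sqrt (by gcongr; exact n2_mono (by omega) u))
  have c2 : Sob92.cb I F.e i' v √(|S| * N2 F j v) := by
    rcases i' with _ | i'
    · trivial
    · exact (hS.cb _ hv hc').mono (Real.sqrt_le_sqrt (by gcongr; exact n2_mono (by omega) v))
  have p1 := n2_nonneg (I := I) (e := F.e) (μ := F.μ) k u
  have p2 := n2_nonneg (I := I) (e := F.e) (μ := F.μ) j v
  have := (n2_bil (μ := F.μ) F.sm B l i i' hi hu hv c1 c2 (fun _ => FL_of_hcs l hu hc)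
    fun _ => FL_of_hcs l hv hc').2
  rw [Real.sq_sqrt (by positivity), Real.sq_sqrt (by positivity)] at this
  have q1 := n2_mono (I := I) (e := F.e) (μ := F.μ) hk u
  have q2 := n2_mono (I := I) (e := F.e) (μ := F.μ) hj v
  refine this.trans ?_
  calc _ ≤ (2 * Fintype.card ι + 3) ^ l * ‖B‖ ^ 2 *
        (|S| * N2 F k u * N2 F j v + |S| * N2 F j v * N2 F k u) := by gcongr
    _ = _ := by rw [mul_pow, cK_sq]; ring

end Crest.Agent.X212.Sob92
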