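import Crest.Agent.X212.Sob92.Ev

/-! Local norms; smooth functions of finite norm are elements of `H`; `H 0 = L²`. -/

set_option autoImplicit false
set_option linter.unusedSectionVars false
noncomputable section
open scoped Manifold ContDiff Topology InnerProductSpace
open MeasureTheory Set Function Filter

namespace Crest.Agent.X212.Sob92
open An An.Pre

variable {E : Type} [NormedAddCommGroup E] [NormedSpace ℝ E] [FiniteDimensional ℝ E]
  [MeasurableSpace E] [BorelSpace E]
  {HM : Type} [TopologicalSpace HM] {I : ModelWithCorners ℝ E HM}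
  {M : Type} [TopologicalSpace M] [ChartedSpace HM M] [IsManifold I ∞ M]
  [MeasurableSpace M] [T2Space M] [BorelSpace M] {ι : Type} [Fintype ι]
  {U V W : Type} [NormedAddCommGroup U] [InnerProductSpace ℝ U]
  [NormedAddCommGroup V] [InnerProductSpace ℝ V] [NormedAddCommGroup W] [InnerProductSpace ℝ W]
  {N N' N'' : Type} [NormedAddCommGroup N] [NormedSpace ℝ N] [NormedAddCommGroup N']
  [NormedSpace ℝ N'] [NormedAddCommGroup N''] [NormedSpace ℝ N'']
  {k j l : ℕ} {p : M → V →L[ℝ] V} {q : M → W →L[ℝ] W}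

section loc
variable {F : Pre I M ι} {S T : Set M}

/-- squared `L²_k` norm over the set `S` -/
abbrev NS (F : Pre I M ι) (S : Set M) (k : ℕ) (u : M → N) : ℝ := n2 I F.e (F.μ.restrict S) k u

/-- all derivatives of order `≤ k` are in `L²(S)` -/
abbrev FS (F : Pre I M ι) (S : Set M) (k : ℕ) (u : M → N) : Prop := ML I F.e (F.μ.restrict S) k u

theorem NS_univ (u : M → N) : NS F univ k u = N2 F k u := by rw [NS, Measure.restrict_univ]

theorem ML_mono_measure {μ ν : Measure M} (h : ν ≤ μ) (k : ℕ) : ∀ {u : M → N},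
    ML I F.e μ k u → ML I F.e ν k u := by
  induction k with
  | zero => exact fun hu => MemLp.mono_measure h hu
  | succ k ih => exact fun hu => ⟨hu.1.mono_measure h, fun a => ih (hu.2 a)⟩

theorem n2_mono_measure {μ ν : Measure M} (h : ν ≤ μ) (k : ℕ) : ∀ {u : M → N},
    ML I F.e μ k u → n2 I F.e ν k u ≤ n2 I F.e μ k u := by
  have h0 : ∀ {u : M → N}, MemLp u 2 μ → n2 I F.e ν 0 u ≤ n2 I F.e μ 0 u := fun hu =>
    integral_mono_measure h (Eventually.of_forall fun _ => by positivity) (int_sq hu)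
  induction k with
  | zero => exact h0
  | succ k ih => exact fun hu => add_le_add (h0 hu.1) (Finset.sum_le_sum fun a _ => ih (hu.2 a))

theorem FL_FS {u : M → N} (hu : FL F k u) (S : Set M) : FS F S k u :=
  ML_mono_measure Measure.restrict_le_self k hu

theorem NS_le {u : M → N} (hu : FL F k u) (S : Set M) : NS F S k u ≤ N2 F k u :=
  n2_mono_measure Measure.restrict_le_self k hu

theorem NS_mono {u : M → N} (hu : FS F T k u) (h : S ⊆ T) : NS F S k u ≤ NS F T k u :=
  n2_mono_measure (Measure.restrict_mono h le_rfl) k hu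

theorem NS_of_tsupport (k : ℕ) : ∀ {u : M → N}, tsupport u ⊆ S → NS F S k u = N2 F k u := by
  have h0 : ∀ {u : M → N}, tsupport u ⊆ S → NS F S 0 u = N2 F 0 u := fun {u} h =>
    setIntegral_eq_integral_of_forall_compl_eq_zero fun x hx => by
      simp [image_eq_zero_of_notMem_tsupport fun h' => hx (h h')]
  induction k with
  | zero => exact h0
  | succ k ih =>
    exact fun h => congrArg₂ (· + ·) (h0 h)
      (Finset.sum_congr rfl fun a _ => ih ((tsupport_dv _).trans h))

theorem FL_of_FS (hS : MeasurableSet S) (k : ℕ) : ∀ {u : M → N}, tsupport u ⊆ S → FS F S k u →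
    FL F k u := by
  have h0 : ∀ {u : M → N}, tsupport u ⊆ S → MemLp u 2 (F.μ.restrict S) → MemLp u 2 F.μ :=
    fun {u} h hu => by
    rw [← indicator_eq_self.2 ((subset_tsupport u).trans h)]
    exact (memLp_indicator_iff_restrict hS).2 hu
  induction k with
  | zero => exact h0
  | succ k ih => exact fun h hu => ⟨h0 h hu.1, fun a => ih ((tsupport_dv _).trans h) (hu.2 a)⟩

theorem NS_congr (hS : MeasurableSet S) (k : ℕ) : ∀ {u v : M → N}, (∀ x ∈ S, u =ᶠ[𝓝 x] v) →
    NS F S k u = NS F S k v := by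
  have h0 : ∀ {u v : M → N}, (∀ x ∈ S, u =ᶠ[𝓝 x] v) → NS F S 0 u = NS F S 0 v := fun h =>
    setIntegral_congr_fun hS fun x hx => by simp only [(h x hx).self_of_nhds]
  induction k with
  | zero => exact h0
  | succ k ih => exact fun h => congrArg₂ (· + ·) (h0 h) (Finset.sum_congr rfl fun a _ =>
      ih fun x hx => (h x hx).eventuallyEq_nhds.mono fun y hy => dv_congr hy)

theorem FS_congr (hS : MeasurableSet S) (k : ℕ) : ∀ {u v : M → N}, (∀ x ∈ S, u =ᶠ[𝓝 x] v) →
    FS F S k u → FS F S k v := by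
  have h0 : ∀ {u v : M → N}, (∀ x ∈ S, u =ᶠ[𝓝 x] v) → MemLp u 2 (F.μ.restrict S) →
      MemLp v 2 (F.μ.restrict S) := fun h hu =>
    hu.ae_eq ((ae_restrict_mem hS).mono fun x hx => (h x hx).self_of_nhds)
  induction k with
  | zero => exact h0
  | succ k ih => exact fun h hu => ⟨h0 h hu.1, fun a =>
      ih (fun x hx => (h x hx).eventuallyEq_nhds.mono fun y hy => dv_congr hy) (hu.2 a)⟩

theorem n2_add_measure {μ ν : Measure M} (k : ℕ) : ∀ {u : M → N}, ML I F.e μ k u →
    ML I F.e ν k u → n2 I F.e (μ + ν) k u = n2 I F.e μ k u + n2 I F.e ν k u := by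
  have h0 : ∀ {u : M → N}, MemLp u 2 μ → MemLp u 2 ν →
      n2 I F.e (μ + ν) 0 u = n2 I F.e μ 0 u + n2 I F.e ν 0 u := fun h h' =>
    integral_add_measure (int_sq h) (int_sq h')
  induction k with
  | zero => exact h0
  | succ k ih =>
    intro u h h'
    simp only [n2_succ, h0 h.1 h'.1, fun a => ih (h.2 a) (h'.2 a), Finset.sum_add_distrib]
    ring

theorem NS_add_compl (hS : MeasurableSet S) {u : M → N} (hu : FL F k u) :
    NS F S k u + NS F Sᶜ k u = N2 F k u := by
  rw [← n2_add_measure k (FL_FS hu S) (FL_FS hu Sᶜ), Measure.restrict_add_restrict_compl hS]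

theorem NS_union_le {u : M → N} (hS : FS F S k u) (hT : FS F T k u) :
    FS F (S ∪ T) k u ∧ NS F (S ∪ T) k u ≤ NS F S k u + NS F T k u := by
  have m : ∀ {u : M → N}, MemLp u 2 (F.μ.restrict S) → MemLp u 2 (F.μ.restrict T) →
      MemLp u 2 (F.μ.restrict S + F.μ.restrict T) := fun h h' =>
    (memLp_two_iff_integrable_sq_norm (h.1.add_measure h'.1)).2
      ((int_sq h).add_measure (int_sq h'))
  have h : ∀ (k : ℕ) {u : M → N}, FS F S k u → FS F T k u →
      ML I F.e (F.μ.restrict S + F.μ.restrict T) k u := by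
    intro k
    induction k with
    | zero => exact m
    | succ k ih => exact fun h h' => ⟨m h.1 h'.1, fun a => ih (h.2 a) (h'.2 a)⟩
  exact ⟨ML_mono_measure (Measure.restrict_union_le S T) k (h k hS hT),
    (n2_mono_measure (Measure.restrict_union_le S T) k (h k hS hT)).trans_eq
      (n2_add_measure k hS hT)⟩

theorem NS_tendsto {S : ℕ → Set M} (hm : ∀ n, MeasurableSet (S n)) (ha : Antitone S)
    (h : ⋂ n, S n = ∅) (k : ℕ) : ∀ {u : M → N}, FL F k u →
      Tendsto (fun n => NS F (S n) k u) atTop (𝓝 0) := by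
  have h0 : ∀ {u : M → N}, MemLp u 2 F.μ → Tendsto (fun n => NS F (S n) 0 u) atTop (𝓝 0) :=
    fun hu => by
    simpa [h, n2] using tendsto_setIntegral_of_antitone hm ha ⟨0, (int_sq hu).integrableOn⟩
  induction k with
  | zero => exact h0
  | succ k ih =>
    intro u hu
    have := (h0 hu.1).add (tendsto_finsetSum Finset.univ fun a _ => ih (hu.2 a))
    rw [Finset.sum_const_zero, add_zero] at this
    exact this

theorem NS_mul [SecondCountableTopology M] (B : N →L[ℝ] N' →L[ℝ] N'') {f : M → N} {u : M → N'}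
    {C : ℝ} (hf : Sm I f) (hu : Sm I u) (hC : F.CB k f C) (hL : FS F S k u) :
    FS F S k (fun x => B (f x) (u x)) ∧
      NS F S k (fun x => B (f x) (u x)) ≤ (cK ι k * ‖B‖ * C) ^ 2 * NS F S k u := by
  have := n2_bil (μ := F.μ.restrict S) F.sm B (A := C) (C := 0) k (k + 1) 0 rfl hf hu
    (CB_iff.1 hC) trivial (fun h => absurd h (by omega)) fun _ => hL
  refine ⟨this.1, this.2.trans (le_of_eq ?_)⟩
  rw [mul_pow, mul_pow, cK_sq]; ring

theorem NS_smul [SecondCountableTopology M] {f : M → ℝ} {u : M → N} {C : ℝ} (hf : Sm I f)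
    (hu : Sm I u) (hC : F.CB k f C) (hL : FS F S k u) : FS F S k (fun x => f x • u x) ∧
      NS F S k (fun x => f x • u x) ≤ (cK ι k * C) ^ 2 * NS F S k u := by
  have := NS_mul (ContinuousLinearMap.lsmul ℝ ℝ) hf hu hC hL
  refine ⟨this.1, this.2.trans (mul_le_mul_of_nonneg_right ?_ (n2_nonneg k u))⟩
  rw [mul_pow, mul_pow, mul_pow]
  refine mul_le_mul_of_nonneg_right (mul_le_of_le_one_right (sq_nonneg _) ?_) (sq_nonneg C)
  exact pow_le_one₀ (ContinuousLinearMap.opNorm_nonneg _) ContinuousLinearMap.opNorm_lsmul_le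

end loc

/-- cut-off functions with uniform bounds (field `exh` of `Tame`) -/
def Exh (F : Pre I M ι) (C : ℕ → ℝ) : Prop :=
  ∀ K : Set M, IsCompact K → ∃ χ : M → ℝ, F.CBs χ C ∧ HasCompactSupport χ ∧
    (∀ x, 0 ≤ χ x ∧ χ x ≤ 1) ∧ ∀ x ∈ K, χ x = 1

theorem Exh.of_tame {F : Fr I M ι} {C : ℕ → ℝ} (h : F.Tame C) : Exh F.toPre C := h.exh

variable [SecondCountableTopology M]

include I in
theorem lcs : LocallyCompactSpace M :=
  have := I.locallyCompactSpace
  ChartedSpace.locallyCompactSpace HM M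

include I in
theorem scs : SigmaCompactSpace M :=
  have := lcs (I := I) (M := M)
  inferInstance

/-- an exhausting sequence of cut-offs; `χ n = 1` off the closed sets `S n ↓ ∅` -/
theorem Exh.seq {F : Pre I M ι} {C : ℕ → ℝ} (h : Exh F C) : ∃ (χ : ℕ → M → ℝ) (S : ℕ → Set M),
    (∀ n, F.CBs (χ n) C ∧ HasCompactSupport (χ n) ∧ (∀ x, 0 ≤ χ n x ∧ χ n x ≤ 1) ∧
      IsClosed (S n) ∧ ∀ x ∉ S n, χ n x = 1) ∧ Antitone S ∧ ⋂ n, S n = ∅ := by
  have := lcs (I := I) (M := M)
  have := scs (I := I) (M := M)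
  let K := CompactExhaustion.choice M
  choose χ hχ using fun n => h (K n) (K.isCompact n)
  refine ⟨χ, fun n => (interior (K n))ᶜ, fun n => ⟨(hχ n).1, (hχ n).2.1, (hχ n).2.2.1,
    isOpen_interior.isClosed_compl, fun x hx => (hχ n).2.2.2 x (interior_subset (not_not.1 hx))⟩,
    fun m n hmn => compl_subset_compl.2 (interior_mono (K.subset hmn)), ?_⟩
  refine eq_empty_of_forall_notMem fun x hx => ?_
  obtain ⟨n, hn⟩ := K.exists_mem x
  exact mem_iInter.1 hx (n + 1) (K.subset_interior_succ n hn)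

variable [CompleteSpace V]

/-- the element `h` of `H` is the function `u` -/
def Is (F : Pre I M ι) (k : ℕ) (p : M → V →L[ℝ] V) (h : F.H k p) (u : M → V) : Prop :=
  F.toL2 k p h =ᵐ[F.μ] u

section Is
variable {F : Pre I M ι} {h h' : F.H k p} {u v : M → V}

theorem Is.toH (u : Sec I p) : Is F k p (F.toH k p u) u.1 := toL2_toH u

theorem Is.val {S : ℝ} (hS : Sup F S) (hk : 4 ≤ k) (h : F.H k p) : Is F k p h (F.val k p h) :=
  val_ae hS hk h

theorem Is.memLp (H : Is F k p h u) : MemLp u 2 F.μ := (Lp.memLp _).ae_eq H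

theorem Is.incl (H : Is F k p h u) (hj : j ≤ k) : Is F j p (F.incl k j p h) u := by
  rwa [Is, toL2_incl hj]

theorem Is.of_incl (hj : j ≤ k) (H : Is F j p (F.incl k j p h) u) : Is F k p h u := by
  rwa [Is, toL2_incl hj] at H

theorem Is.fg (H : Is F k p h u) : Is F k _ (fg F k p h) u := by rwa [Is, toL2_fg]

theorem Is.add (H : Is F k p h u) (H' : Is F k p h' v) : Is F k p (h + h') (u + v) := by
  rw [Is, map_add]; exact (Lp.coeFn_add _ _).trans (EventuallyEq.add H H')

theorem Is.sub (H : Is F k p h u) (H' : Is F k p h' v) : Is F k p (h - h') (u - v) := by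
  rw [Is, map_sub]; exact (Lp.coeFn_sub _ _).trans (EventuallyEq.sub H H')

theorem Is.smul (c : ℝ) (H : Is F k p h u) : Is F k p (c • h) (c • u) := by
  rw [Is, map_smul]; exact (Lp.coeFn_smul _ _).trans (EventuallyEq.const_smul H c)

theorem Is.zero : Is F k p 0 0 := by rw [Is, map_zero]; exact Lp.coeFn_zero _ _ _

theorem Is.congr (H : Is F k p h u) (e : u =ᵐ[F.μ] v) : Is F k p h v := EventuallyEq.trans H e

theorem Is.mulH [CompleteSpace W] {f : M → V →L[ℝ] W} (hf : F.Cb f) (hm : Maps p q f)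
    (H : Is F k p h u) : Is F k q (F.mulH k p q f h) fun x => f x (u x) :=
  (toL2_mulH hf hm h).trans (Eventually.mono H fun x hx => by simp only [hx])

theorem Is.smulH {f : M → ℝ} (hf : F.Cb f) (H : Is F k p h u) :
    Is F k p (smulH F k p f h) fun x => f x • u x :=
  (toL2_smulH hf h).trans (Eventually.mono H fun x hx => by simp only [hx])

theorem Is.bilH [CompleteSpace W] [CompleteSpace U] {r : M → U →L[ℝ] U} {S : ℝ}
    {β : M → V →L[ℝ] W →L[ℝ] U} (hS : Sup F S) (hl : Lev k j l) (hβ : F.Cb β)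
    (hm : Maps₂ p q r β) (H : Is F k p h u) {g : F.H j q} {w : M → W} (G : Is F j q g w) :
    Is F l r (F.bilH k j p q r l β h g) fun x => β x (u x) (w x) := by
  filter_upwards [toL2_bilH hS hl hβ hm h g, H, G] with x h1 h2 h3
  rw [h1, h2, h3]

theorem Is.unique {F : Fr I M ι} {h h' : F.H k p} (H : Is F.toPre k p h u)
    (H' : Is F.toPre k p h' u) : h = h' := toL2_injective (Lp.ext (H.trans H'.symm))

theorem Is.norm_zero (H : Is F k p h u) : ‖F.incl k 0 p h‖ = F.nrm 0 u := by
  rw [← norm_toL2, ← norm_toLp_eq H.memLp]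
  congr 1
  exact Lp.ext (H.trans H.memLp.coeFn_toLp.symm)

theorem Is.inner_toH (H : Is F k p h u) (φ : Sec I p) :
    ⟪F.incl k 0 p h, F.toH 0 p φ⟫_ℝ = F.ip 0 u φ.1 := by
  rw [← inner_toL2, L2.inner_def, toL2_incl (Nat.zero_le k), ip]
  refine integral_congr_ae ?_
  filter_upwards [H, toL2_toH (F := F) (k := 0) φ] with x h1 h2
  rw [h1, h2]

theorem openPos (F : Pre I M ι) [I.Boundaryless] : F.μ.IsOpenPosMeasure := by
  refine ⟨fun U hU ⟨x, hx⟩ h0 => ?_⟩
  obtain ⟨O, ρ, ⟨hO, hxO, hs, hμ⟩, hρ, hpos⟩ := F.dens x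
  have hc : ContinuousOn (extChartAt I x) O := (continuousOn_extChartAt x).mono hs
  have hop : ∀ {A : Set M}, IsOpen A → A ⊆ (extChartAt I x).source →
      IsOpen (extChartAt I x '' A) := fun {A} hA hA' => by
    rw [(extChartAt I x).image_eq_target_inter_inv_preimage hA']
    exact (continuousOn_extChartAt_symm x).isOpen_inter_preimage (isOpen_extChartAt_target x) hA
  have hT := hop (hU.inter hO) (inter_subset_right.trans hs)
  have h1 := congrArg (fun m : Measure E => m (extChartAt I x '' (U ∩ O))) hμ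
  rw [Measure.map_apply_of_aemeasurable (hc.aemeasurable hO.measurableSet) hT.measurableSet,
    Measure.restrict_apply' hO.measurableSet, withDensity_apply _ hT.measurableSet,
    Measure.restrict_restrict hT.measurableSet,
    inter_eq_left.2 (image_mono inter_subset_right)] at h1
  have h2 : F.μ (extChartAt I x ⁻¹' (extChartAt I x '' (U ∩ O)) ∩ O) = 0 := by
    refine measure_mono_null ?_ h0
    rintro y ⟨⟨z, hz, e⟩, hy⟩
    exact (extChartAt I x).injOn (hs hz.2) (hs hy) e ▸ hz.1
  rw [h2, eq_comm, lintegral_eq_zero_iff' ((hρ.continuousOn.mono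
    (image_mono inter_subset_right)).aemeasurable hT.measurableSet).ennreal_ofReal] at h1
  have h3 : ∀ᵐ y ∂(leb E).restrict (extChartAt I x '' (U ∩ O)), False := by
    filter_upwards [h1, ae_restrict_mem hT.measurableSet] with y hy hy'
    exact absurd (ENNReal.ofReal_eq_zero.1 hy) (not_le.2 (hpos y (image_mono inter_subset_right hy')))
  rw [eventually_false_iff_eq_bot, ae_eq_bot, Measure.restrict_eq_zero] at h3
  have : (leb E).IsOpenPosMeasure := by unfold leb; infer_instance
  exact hT.measure_ne_zero _ ⟨_, x, ⟨hx, hxO⟩, rfl⟩ h3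

theorem Is.val_eq [I.Boundaryless] {S : ℝ} (hS : Sup F S) (hk : 4 ≤ k) (H : Is F k p h u)
    (hu : Continuous u) : F.val k p h = u :=
  have := openPos F
  Continuous.ae_eq_iff_eq F.μ (continuous_val hS hk h) hu |>.1 ((val_ae hS hk h).symm.trans H)

end Is

/-- smooth functions of finite norm are limits of their cut-offs -/
theorem exists_Is {F : Pre I M ι} {C : ℕ → ℝ} (hE : Exh F C) {u : M → V} (hu : Sm I u)
    (hL : FL F k u) (hp : ∀ x, p x (u x) = u x) : ∃ h : F.H k p, Is F k p h u := by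
  obtain ⟨χ, S, hχ, ha, hS⟩ := hE.seq
  let v : ℕ → Sec I p := fun n => ⟨fun x => χ n x • u x, (hχ n).1.1.smul hu,
    hcs_bil_left (ContinuousLinearMap.lsmul ℝ ℝ) u (hχ n).2.1,
    fun x => (map_smul (p x) _ _).trans (by rw [hp x])⟩
  have hc : CauchySeq fun n => F.toH k p (v n) := by
    refine cauchySeq_of_le_tendsto_0 (fun n => √((cK ι k * (C k + |C k|)) ^ 2 * NS F (S n) k u))
      (fun n m N hn hm => ?_) ?_
    · rw [dist_eq_norm, ← map_sub, norm_toH, nrm_eq]
      refine Real.sqrt_le_sqrt ?_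
      have e : (v n - v m).1 = fun x => (χ n + -χ m) x • u x := funext fun x => by
        simp [v, sub_eq_add_neg, add_smul]
      have ht : tsupport (v n - v m).1 ⊆ S N := closure_minimal (fun x hx => by
        by_contra h
        refine hx ?_
        simp [e, (hχ n).2.2.2.2 x fun h' => h (ha hn h'), (hχ m).2.2.2.2 x fun h' => h (ha hm h')])
        (hχ N).2.2.2.1
      rw [← NS_of_tsupport k ht, e]
      exact (NS_smul ((hχ n).1.1.add (hχ m).1.1.neg) hu (CB_add (hχ n).1.1 (hχ m).1.1.neg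
        ((hχ n).1.2 k) (CB_neg (hχ m).1.1 ((hχ m).1.2 k))) (FL_FS hL _)).2
    · simpa using ((NS_tendsto (fun n => (hχ n).2.2.2.1.measurableSet) ha hS k hL).const_mul
        ((cK ι k * (C k + |C k|)) ^ 2)).sqrt
  obtain ⟨h, hh⟩ := cauchySeq_tendsto_of_complete hc
  refine ⟨h, ae_eq_of_tendsto (((F.toL2 k p).continuous.tendsto h).comp hh) ?_⟩
  filter_upwards [ae_all_iff.2 fun n => toL2_toH (F := F) (k := k) (v n)] with x hx
  simp only [comp_apply, hx]
  obtain ⟨N, hN⟩ : ∃ N, x ∉ S N := by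
    by_contra h
    exact (hS ▸ mem_iInter.2 fun n => by_contra fun h' => h ⟨n, h'⟩ : x ∈ (∅ : Set M))
  refine tendsto_const_nhds.congr' ((eventually_ge_atTop N).mono fun n hn => ?_)
  simp [v, (hχ n).2.2.2.2 x fun h' => hN (ha hn h')]

/-- the fundamental lemma -/
theorem ae_eq_of_ip {F : Pre I M ι} {f g : M → V} (hf : LocallyIntegrable f F.μ)
    (hg : LocallyIntegrable g F.μ)
    (h : ∀ φ : Sec I (triv M V), F.ip 0 f φ.1 = F.ip 0 g φ.1) : f =ᵐ[F.μ] g := by
  have := scs (I := I) (M := M)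
  refine ae_eq_of_integral_contMDiff_smul_eq I hf hg fun χ hχ hc => ?_
  refine ext_inner_right ℝ fun v => ?_
  have i : ∀ {f : M → V}, LocallyIntegrable f F.μ →
      ⟪∫ x, χ x • f x ∂F.μ, v⟫_ℝ = F.ip 0 f fun x => χ x • v := fun hf => by
    rw [real_inner_comm, ← integral_inner (hf.integrable_smul_left_of_hasCompactSupport
      hχ.continuous hc), ip]
    simp only [real_inner_smul_right, real_inner_comm v]
  rw [i hf, i hg]
  exact h ⟨_, mem_triv (hχ.smul contMDiff_const)
    (hcs_bil_left (ContinuousLinearMap.lsmul ℝ ℝ) (fun _ => v) hc)⟩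

include I in
theorem lfm (F : Pre I M ι) : IsLocallyFiniteMeasure F.μ :=
  have := lcs (I := I) (M := M)
  inferInstance

section Fr
variable {F : Fr I M ι}

theorem Is.DH {h : F.H (k + 1) p} {u : M → V} (H : Is F.toPre (k + 1) p h u) (hu : Sm I u)
    (a : ι) : Is F.toPre k _ (DH F.toPre k p a h) (F.D a u) := by
  have := lfm F.toPre
  refine ae_eq_of_ip ((Lp.memLp _).locallyIntegrable (by norm_num))
    (F.sm_D hu a).continuous.locallyIntegrable fun φ => ?_
  rw [← Is.inner_toH (h := Sob92.DH F.toPre k p a h) (EventuallyEq.refl _ _) φ, inner_DH,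
    ip_D a hu φ.2.1 φ.2.2.1]
  have := (H.incl (Nat.zero_le _)).fg.inner_toH (Dt F a φ)
  rw [incl_self] at this
  exact congrArg Neg.neg this

/-- a smooth function which is an element of `H k` has finite norm, the norm of the element -/
theorem Is.FL_norm (k : ℕ) : ∀ {p : M → V →L[ℝ] V} {h : F.H k p} {u : M → V},
    Is F.toPre k p h u → Sm I u → FL F.toPre k u ∧ ‖h‖ = F.nrm k u := by
  induction k with
  | zero => exact fun H _ => ⟨H.memLp, by rw [← H.norm_zero, incl_self]⟩
  | succ k ih =>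
    intro p h u H hu
    have h1 := fun a => ih (H.DH hu a) (F.sm_D hu a)
    refine ⟨⟨H.memLp, fun a => (h1 a).1⟩, ?_⟩
    rw [← sq_eq_sq₀ (norm_nonneg _) (nrm_nonneg _ _), norm_succ_sq, nrm_succ_sq, H.norm_zero]
    simp only [fun a => (h1 a).2]

theorem Is.norm {h : F.H k p} {u : M → V} (H : Is F.toPre k p h u) (hu : Sm I u) :
    ‖h‖ = F.nrm k u := (Is.FL_norm k H hu).2

theorem Is.FL {h : F.H k p} {u : M → V} (H : Is F.toPre k p h u) (hu : Sm I u) :
    FL F.toPre k u := (Is.FL_norm k H hu).1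

theorem Is.opH [CompleteSpace W] {σ : ι → M → V →L[ℝ] W} {B : M → V →L[ℝ] W}
    (hσ : ∀ a, F.Cb (σ a)) (hB : F.Cb B) (hq : ∀ a x v, q x (σ a x v) = σ a x v) (hm : Maps p q B)
    {h : F.H (k + 1) p} {u : M → V} (H : Is F.toPre (k + 1) p h u) (hu : Sm I u) :
    Is F.toPre k q (F.opH k p q σ B h) (F.op σ B u) := by
  have e := (RepT_add (RepT_sum Finset.univ fun a _ =>
    RepT_comp (rep_mulH (k := k) (hσ a) (Maps.of_left (hq a))) (rep_DH (p := p) a))
    (RepT_comp (rep_mulH hB hm) (rep_incl k.le_succ))).unique (rep_opH hσ hB hq hm)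
  rw [← e]
  refine Is.add (v := fun x => B x (u x)) ?_ ((H.incl k.le_succ).mulH hB hm)
  change Is F.toPre k q ((∑ i, F.mulH k (triv M V) q (σ i) ∘L Sob92.DH F.toPre k p i) h) _
  rw [sum_apply]
  induction (Finset.univ : Finset ι) using Finset.cons_induction with
  | empty => exact Is.zero
  | cons a s ha ih =>
    simp only [Finset.sum_cons]
    exact ((H.DH hu a).mulH (hσ a) (Maps.of_left (hq a))).add ih

/-- lifting to a higher level: a smooth element of `H j` with finite `k`-norm comes from `H k` -/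
theorem Is.lift {C : ℕ → ℝ} (hE : Exh F.toPre C) {h : F.H j p} {u : M → V}
    (H : Is F.toPre j p h u) (hu : Sm I u) (hp : ∀ x, p x (u x) = u x) (hj : j ≤ k)
    (hL : Sob92.FL F.toPre k u) : ∃ g : F.H k p, F.incl k j p g = h ∧ Is F.toPre k p g u :=
  let ⟨g, hg⟩ := exists_Is hE hu hL hp
  ⟨g, (hg.incl hj).unique H, hg⟩

end Fr

/-- `H 0` of the trivial bundle is `L²` -/
theorem toL2_surjective {F : Pre I M ι} : Surjective (F.toL2 0 (triv M V)) := by
  have := lfm F
  let L := LinearIsometry.mk (F.toL2 0 (triv M V)).toLinearMap norm_toL2_zero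
  have hc : IsClosed ((LinearMap.range L.toLinearMap : Submodule ℝ (Lp V 2 F.μ)) :
    Set (Lp V 2 F.μ)) := L.isometry.isClosedEmbedding.isClosed_range
  have := hc.completeSpace_coe
  have h : (LinearMap.range L.toLinearMap)ᗮ = ⊥ := by
    refine eq_bot_iff.2 fun f hf => Lp.ext (EventuallyEq.trans ?_ (Lp.coeFn_zero _ _ _).symm)
    refine ae_eq_of_ip ((Lp.memLp f).locallyIntegrable (by norm_num))
      locallyIntegrable_zero fun φ => ?_
    have h1 := (Submodule.mem_orthogonal' _ _).1 hf _ ⟨F.toH 0 _ φ, rfl⟩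
    rw [L2.inner_def] at h1
    simp only [ip, Pi.zero_apply, inner_zero_left, integral_zero]
    rw [← h1]
    refine integral_congr_ae ?_
    filter_upwards [toL2_toH (F := F) (k := 0) φ] with x hx
    exact congrArg _ hx.symm
  exact LinearMap.range_eq_top.1 (Submodule.orthogonal_eq_bot_iff.1 h)

/-- an `L²` section of `p` is an element of `H 0 p` -/
theorem exists_Is_zero {F : Pre I M ι} (hp : F.Cb p) (hi : ∀ x v, p x (p x v) = p x v) {f : M → V}
    (hf : MemLp f 2 F.μ) (h : ∀ᵐ x ∂F.μ, p x (f x) = f x) : ∃ g : F.H 0 p, Is F 0 p g f := by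
  obtain ⟨g, hg⟩ := toL2_surjective (F := F) (hf.toLp f)
  have H : Is F 0 _ g f := by rw [Is, hg]; exact hf.coeFn_toLp
  exact ⟨_, (H.mulH hp (Maps.of_left hi)).congr h⟩

end Crest.Agent.X212.Sob92
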