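import Crest.Agent.X212.Sob92.Ops

/-! Cut and paste along an `Iso`: `pull` commutes with `D`, preserves all norms. -/

set_option autoImplicit false
set_option linter.unusedSectionVars false
noncomputable section
open scoped Manifold ContDiff Topology InnerProductSpace
open MeasureTheory Set Function Filter

namespace Crest.Agent.X212.Sob92
open An An.Pre

variable {E : Type} [NormedAddCommGroup E] [NormedSpace ℝ E] [FiniteDimensional ℝ E]
  [MeasurableSpace E] [BorelSpace E]
  {HM : Type} [TopologicalSpace HM] {I : ModelWithCorners ℝ E HM}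
  {M : Type} [TopologicalSpace M] [ChartedSpace HM M] [IsManifold I ∞ M]
  [MeasurableSpace M] [T2Space M] [BorelSpace M] {ι : Type} [Fintype ι]
  {U V W : Type} [NormedAddCommGroup U] [InnerProductSpace ℝ U]
  [NormedAddCommGroup V] [InnerProductSpace ℝ V] [NormedAddCommGroup W] [InnerProductSpace ℝ W]
  {E' : Type} [NormedAddCommGroup E'] [NormedSpace ℝ E'] [FiniteDimensional ℝ E']
  [MeasurableSpace E'] [BorelSpace E']
  {HM' : Type} [TopologicalSpace HM'] {I' : ModelWithCorners ℝ E' HM'}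
  {M' : Type} [TopologicalSpace M'] [ChartedSpace HM' M'] [IsManifold I' ∞ M']
  [MeasurableSpace M'] [T2Space M'] [BorelSpace M']
  {N : Type} [NormedAddCommGroup N] [NormedSpace ℝ N]
  {F : Pre I M ι} {F' : Pre I' M' ι} {φ : OpenPartialHomeomorph M M'} {k : ℕ}

theorem pull_of_mem {x : M} (hx : x ∈ φ.source) (u : M' → N) : pull φ u x = u (φ x) :=
  indicator_of_mem hx _

theorem pull_of_notMem {x : M} (hx : x ∉ φ.source) (u : M' → N) : pull φ u x = 0 :=
  indicator_of_notMem hx _

theorem pull_add (u v : M' → N) : pull φ (u + v) = pull φ u + pull φ v := by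
  funext x; by_cases hx : x ∈ φ.source <;> simp [pull_of_mem, pull_of_notMem, hx]

theorem pull_smul (c : ℝ) (u : M' → N) : pull φ (c • u) = c • pull φ u := by
  funext x; by_cases hx : x ∈ φ.source <;> simp [pull_of_mem, pull_of_notMem, hx]

theorem pull_eventuallyEq {x : M} (hx : x ∈ φ.source) (u : M' → N) :
    pull φ u =ᶠ[𝓝 x] u ∘ φ := by
  filter_upwards [φ.open_source.mem_nhds hx] with y hy using pull_of_mem hy u

theorem iso_smAt (h : Iso F F' φ) {x : M} (hx : x ∈ φ.source) : ContMDiffAt I I' ∞ φ x :=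
  h.sm.contMDiffAt (φ.open_source.mem_nhds hx)

theorem iso_D_comp (h : Iso F F' φ) {x : M} (hx : x ∈ φ.source) {u : M' → N}
    (hu : MDifferentiableAt I' 𝓘(ℝ, N) u (φ x)) (a : ι) : F.D a (u ∘ φ) x = F'.D a u (φ x) := by
  have h1 := mfderiv_comp_apply x hu ((iso_smAt h hx).mdifferentiableAt (by simp)) (F.e a x)
  rw [h.e a x hx] at h1
  exact h1

/-- functions that correspond near a point have corresponding derivatives -/
theorem iso_Dw (h : Iso F F' φ) (w : List ι) : ∀ {g : M → N} {u : M' → N} {x : M}, x ∈ φ.source →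
    ContMDiffAt I' 𝓘(ℝ, N) ∞ u (φ x) → (∀ᶠ y in 𝓝 (φ x), ContMDiffAt I' 𝓘(ℝ, N) ∞ u y) →
    g =ᶠ[𝓝 x] u ∘ φ → F.Dw w g x = F'.Dw w u (φ x) := by
  induction w with
  | nil => exact fun _ _ _ hg => hg.self_of_nhds
  | cons a w ih =>
    intro g u x hx hu hu' hg
    refine ih hx (dv_smoothAt (F'.sm a _) hu) (hu'.mono fun y hy => dv_smoothAt (F'.sm a _) hy) ?_
    filter_upwards [hg.eventuallyEq_nhds, φ.open_source.mem_nhds hx,
      (φ.continuousAt hx).eventually hu'] with y hy hy' hy''
    exact (dv_congr hy).trans (iso_D_comp h hy' (hy''.mdifferentiableAt (by simp)) a)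

theorem iso_Dw' (h : Iso F F' φ) (w : List ι) {g : M → N} {u : M' → N} (hu : Sm I' u)
    (hg : ∀ x ∈ φ.source, g x = u (φ x)) {x : M} (hx : x ∈ φ.source) :
    F.Dw w g x = F'.Dw w u (φ x) :=
  iso_Dw h w hx (hu _) (Eventually.of_forall hu) <| by
    filter_upwards [φ.open_source.mem_nhds hx] with y hy using hg y hy

theorem iso_D' (h : Iso F F' φ) (a : ι) {g : M → N} {u : M' → N} (hu : Sm I' u)
    (hg : ∀ x ∈ φ.source, g x = u (φ x)) {x : M} (hx : x ∈ φ.source) :
    F.D a g x = F'.D a u (φ x) := iso_Dw' h [a] hu hg hx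

theorem iso_symm (h : Iso F F' φ) : Iso F' F φ.symm where
  sm := h.sm'
  sm' := h.sm
  e a y hy := by
    have hx := φ.map_target hy
    have h1 := (iso_smAt h hx).mdifferentiableAt (by simp)
    have h2 := (h.sm'.contMDiffAt (φ.open_target.mem_nhds hy)).mdifferentiableAt (by simp)
    have h3 : φ.symm ∘ φ =ᶠ[𝓝 (φ.symm y)] id := φ.eventually_left_inverse hx
    have h4 := mfderiv_comp_apply_of_eq (φ.symm y) h2 h1 (φ.right_inv hy) (F.e a (φ.symm y))
    rw [h3.mfderiv_eq, mfderiv_id, h.e a _ hx] at h4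
    have h5 : ∀ z, z = y → mfderiv I' I φ.symm y (F'.e a z) = mfderiv I' I φ.symm y (F'.e a y) := by
      rintro _ rfl; rfl
    exact (h5 _ (φ.right_inv hy)).symm.trans h4.symm
  μ := by
    have m1 : AEMeasurable φ (F.μ.restrict φ.source) :=
      φ.continuousOn.aemeasurable φ.open_source.measurableSet
    have m2 : AEMeasurable φ.symm (F'.μ.restrict φ.target) :=
      φ.continuousOn_symm.aemeasurable φ.open_target.measurableSet
    rw [φ.symm_source, φ.symm_target, ← h.μ, AEMeasurable.map_map_of_aemeasurable (h.μ ▸ m2) m1]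
    conv_rhs => rw [← Measure.map_id (μ := F.μ.restrict φ.source)]
    refine Measure.map_congr ?_
    filter_upwards [ae_restrict_mem φ.open_source.measurableSet] with x hx using φ.left_inv hx

/-- closed sets of `M'` whose preimage does not touch the edge of the source -/
def Adm (φ : OpenPartialHomeomorph M M') (K : Set M') : Prop :=
  K ⊆ φ.target ∧ IsClosed (φ.source ∩ φ ⁻¹' K)

theorem Adm.of_isCompact {K : Set M'} (hK : IsCompact K) (h : K ⊆ φ.target) : Adm φ K := by
  refine ⟨h, ?_⟩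
  rw [← φ.symm_image_eq_source_inter_preimage h]
  exact (hK.image_of_continuousOn (φ.continuousOn_symm.mono h)).isClosed

theorem Adm.mono {K K' : Set M'} (h : Adm φ K) (hK : IsClosed K') (h' : K' ⊆ K) : Adm φ K' := by
  refine ⟨h'.trans h.1, ?_⟩
  have := (φ.continuousOn.mono inter_subset_left).preimage_isClosed_of_isClosed h.2 hK
  convert this using 1
  ext x; exact ⟨fun hx => ⟨⟨hx.1, h' hx.2⟩, hx.2⟩, fun hx => ⟨hx.1.1, hx.2⟩⟩

theorem Adm.D {u : M' → N} (h : Adm φ (tsupport u)) (a : ι) : Adm φ (tsupport (F'.D a u)) :=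
  h.mono (isClosed_tsupport _) (F'.tsupport_D u a)

theorem Adm.tsupport_pull {u : M' → N} (h : Adm φ (tsupport u)) :
    tsupport (pull φ u) ⊆ φ.source ∩ φ ⁻¹' tsupport u := by
  refine closure_minimal (fun x hx => ?_) h.2
  by_cases hs : x ∈ φ.source
  · exact ⟨hs, subset_tsupport u (by rwa [mem_support, pull_of_mem hs] at hx)⟩
  · exact absurd (pull_of_notMem hs u) hx

theorem hcs_pull {u : M' → N} (hc : HasCompactSupport u) (h : tsupport u ⊆ φ.target) :
    HasCompactSupport (pull φ u) := by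
  refine (hc.isCompact.image_of_continuousOn (φ.continuousOn_symm.mono h)).of_isClosed_subset
    (isClosed_tsupport _) ?_
  rw [φ.symm_image_eq_source_inter_preimage h]
  exact (Adm.of_isCompact hc h).tsupport_pull

theorem sm_pull (h : Iso F F' φ) {u : M' → N} (hu : Sm I' u) (ha : Adm φ (tsupport u)) :
    Sm I (pull φ u) := fun x => by
  by_cases hx : x ∈ φ.source
  · exact ((hu _).comp x (iso_smAt h hx)).congr_of_eventuallyEq (pull_eventuallyEq hx u)
  · exact contMDiffAt_const.congr_of_eventuallyEq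
      (notMem_tsupport_iff_eventuallyEq.1 fun h' => hx (ha.tsupport_pull h').1)

theorem D_pull (h : Iso F F' φ) {u : M' → N} (hu : Sm I' u) (ha : Adm φ (tsupport u)) (a : ι) :
    F.D a (pull φ u) = pull φ (F'.D a u) := funext fun x => by
  by_cases hx : x ∈ φ.source
  · rw [pull_of_mem hx]; exact iso_D' h a hu (fun y hy => pull_of_mem hy u) hx
  · rw [pull_of_notMem hx]; exact dv_eq_zero_of_notMem fun h' => hx (ha.tsupport_pull h').1

theorem CB_pull (h : Iso F F' φ) {C : ℝ} (k : ℕ) : ∀ {u : M' → N}, Sm I' u → Adm φ (tsupport u) →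
    F'.CB k u C → F.CB k (pull φ u) |C| := by
  have h0 : ∀ {u : M' → N}, (∀ y, ‖u y‖ ≤ C) → ∀ x, ‖pull φ u x‖ ≤ |C| := fun {u} hu x => by
    by_cases hx : x ∈ φ.source
    · rw [pull_of_mem hx]; exact (hu _).trans (le_abs_self C)
    · rw [pull_of_notMem hx, norm_zero]; exact abs_nonneg C
  induction k with
  | zero => exact fun _ _ hC => CB_zero.2 (h0 (CB_bound hC))
  | succ k ih =>
    intro u hu ha hC
    refine CB_succ.2 ⟨h0 (CB_bound hC), fun a => ?_⟩
    rw [D_pull h hu ha]
    exact ih (F'.sm_D hu a) (ha.D a) (CB_D hC a)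

theorem integral_pull (h : Iso F F' φ) {g : M' → ℝ} (hg : Continuous g)
    (hs : support g ⊆ φ.target) : ∫ x, pull φ g x ∂F.μ = ∫ y, g y ∂F'.μ := by
  rw [pull, integral_indicator φ.open_source.measurableSet,
    ← setIntegral_eq_integral_of_forall_compl_eq_zero (s := φ.target) (μ := F'.μ)
      fun y hy => by_contra fun h' => hy (hs h'), ← h.μ,
    integral_map (φ.continuousOn.aemeasurable φ.open_source.measurableSet)
      hg.aestronglyMeasurable]
  rfl

theorem memLp_pull (h : Iso F F' φ) {u : M' → N} (hu : MemLp u 2 F'.μ) :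
    MemLp (pull φ u) 2 F.μ := by
  rw [pull, memLp_indicator_iff_restrict φ.open_source.measurableSet]
  exact MemLp.comp_of_map (h.μ ▸ hu.restrict _)
    (φ.continuousOn.aemeasurable φ.open_source.measurableSet)

theorem FL_pull (h : Iso F F' φ) (k : ℕ) : ∀ {u : M' → N}, Sm I' u → Adm φ (tsupport u) →
    FL F' k u → FL F k (pull φ u) := by
  induction k with
  | zero => exact fun _ _ hL => memLp_pull h hL
  | succ k ih =>
    intro u hu ha hL
    refine ⟨memLp_pull h hL.1, fun a => ?_⟩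
    rw [← D_def, D_pull h hu ha]
    exact ih (F'.sm_D hu a) (ha.D a) (hL.2 a)

theorem N2_pull (h : Iso F F' φ) (k : ℕ) : ∀ {u : M' → N}, Sm I' u → Adm φ (tsupport u) →
    N2 F k (pull φ u) = N2 F' k u := by
  have h0 : ∀ {u : M' → N}, Sm I' u → Adm φ (tsupport u) → N2 F 0 (pull φ u) = N2 F' 0 u :=
    fun {u} hu ha => by
    simp only [n2]
    rw [← integral_pull h (g := fun y => ‖u y‖ ^ 2) (hu.continuous.norm.pow 2) fun y hy =>
      ha.1 (subset_tsupport u fun h' => hy (by simp [h']))]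
    congr 1; funext x
    by_cases hx : x ∈ φ.source <;> simp [pull_of_mem, pull_of_notMem, hx]
  induction k with
  | zero => exact h0
  | succ k ih =>
    intro u hu ha
    refine congrArg₂ (· + ·) (h0 hu ha) (Finset.sum_congr rfl fun a _ => ?_)
    rw [← D_def, D_pull h hu ha]; exact ih (F'.sm_D hu a) (ha.D a)

theorem nrm_pull (h : Iso F F' φ) (k : ℕ) {u : M' → V} (hu : Sm I' u) (ha : Adm φ (tsupport u)) :
    F.nrm k (pull φ u) = F'.nrm k u := by rw [nrm_eq, nrm_eq, N2_pull h k hu ha]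

theorem ip_pull (h : Iso F F' φ) (k : ℕ) : ∀ {u v : M' → V}, Sm I' u → Adm φ (tsupport u) →
    Sm I' v → Adm φ (tsupport v) → F.ip k (pull φ u) (pull φ v) = F'.ip k u v := by
  have h0 : ∀ {u v : M' → V}, Sm I' u → Adm φ (tsupport u) → Sm I' v →
      F.ip 0 (pull φ u) (pull φ v) = F'.ip 0 u v := fun {u v} hu ha hv => by
    simp only [ip]
    rw [← integral_pull h (hu.continuous.inner hv.continuous) fun y hy =>
      ha.1 (subset_tsupport u fun h' => hy (by simp [h']))]
    congr 1; funext x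
    by_cases hx : x ∈ φ.source <;> simp [pull_of_mem, pull_of_notMem, hx]
  induction k with
  | zero => exact fun hu ha hv _ => h0 hu ha hv
  | succ k ih =>
    intro u v hu ha hv hb
    have := h0 hu ha hv
    simp only [ip] at this ⊢
    rw [this]
    exact congrArg _ (Finset.sum_congr rfl fun a _ => by
      rw [D_pull h hu ha, D_pull h hv hb]
      exact ih (F'.sm_D hu a) (ha.D a) (F'.sm_D hv a) (hb.D a))

theorem pull_mem {p : M → V →L[ℝ] V} {p' : M' → V →L[ℝ] V} (h : Iso F F' φ)
    (hp : ∀ x ∈ φ.source, p x = p' (φ x)) {u : M' → V} (hu : u ∈ Sec I' p')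
    (hs : tsupport u ⊆ φ.target) : pull φ u ∈ Sec I p :=
  ⟨sm_pull h hu.1 (Adm.of_isCompact hu.2.1 hs), hcs_pull hu.2.1 hs, fun x => by
    by_cases hx : x ∈ φ.source
    · rw [pull_of_mem hx, hp x hx, hu.2.2]
    · rw [pull_of_notMem hx, map_zero]⟩

variable (F F' φ k) in
/-- multiply by the coefficient field `f` on `M'` (supported in the target) and transport -/
def trH (p' : M' → V →L[ℝ] V) (q : M → W →L[ℝ] W) (f : M' → V →L[ℝ] W) :
    F'.H k p' →L[ℝ] F.H k q := F'.liftT k k p' F q fun u => pull φ fun y => f y (u y)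

theorem rep_trH [SecondCountableTopology M'] {p' : M' → V →L[ℝ] V} {q : M → W →L[ℝ] W}
    {f : M' → V →L[ℝ] W} {C : ℝ} (h : Iso F F' φ) (hf : Sm I' f) (hC : F'.CB k f C)
    (hs : tsupport f ⊆ φ.target)
    (hm : ∀ x ∈ φ.source, ∀ v, p' (φ x) v = v → q x (f (φ x) v) = f (φ x) v) :
    F'.RepT F (trH F F' φ k p' q f) (fun u => pull φ fun y => f y (u y)) ∧
      ‖trH F F' φ k p' q f‖ ≤ cK ι k * |C| := by
  have h1 : ∀ u : M' → V, tsupport (fun y => f y (u y)) ⊆ φ.target := fun u =>
    (closure_mono (show support (fun y => f y (u y)) ⊆ support f from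
      fun y hy h' => hy (by simp [h']))).trans hs
  have h2 : ∀ u ∈ Sec I' p', HasCompactSupport fun y => f y (u y) := fun u hu =>
    hu.2.1.mono fun y hy h' => hy (by simp [h'])
  refine rep_liftT (fun u hu => ⟨sm_pull h (hf.clm_apply hu.1) (Adm.of_isCompact (h2 u hu) (h1 u)),
    hcs_pull (h2 u hu) (h1 u), fun x => ?_⟩) (fun u _ v _ => ?_) (fun c u _ => ?_)
    (mul_nonneg (cK_nonneg k) (abs_nonneg C)) fun u hu => ?_
  · by_cases hx : x ∈ φ.source
    · rw [pull_of_mem hx]; exact hm x hx _ (hu.2.2 _)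
    · rw [pull_of_notMem hx, map_zero]
  · rw [← pull_add]; congr 1; funext y; simp
  · rw [← pull_smul]; congr 1; funext y; simp
  · rw [nrm_pull h k (hf.clm_apply hu.1) (Adm.of_isCompact (h2 u hu) (h1 u))]
    exact nrm_app hf hu.1 hC (FL_of_hcs k hu.1 hu.2.1)

end Crest.Agent.X212.Sob92
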