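import Crest.Agent.X212.Sob92.Rep

/-! The operators `incl`, `DH`, `mulH`, `smulH`, `opH`, `bilH`: representation, norms, identities. -/

set_option autoImplicit false
set_option linter.unusedSectionVars false
noncomputable section
open scoped Manifold ContDiff Topology InnerProductSpace
open MeasureTheory Set Function Filter

namespace Crest.Agent.X212.Sob92
open An An.Pre

variable {E : Type} [NormedAddCommGroup E] [NormedSpace ℝ E] [FiniteDimensional ℝ E]
  [MeasurableSpace E] [BorelSpace E]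
  {HM : Type} [TopologicalSpace HM] {I : ModelWithCorners ℝ E HM}
  {M : Type} [TopologicalSpace M] [ChartedSpace HM M] [IsManifold I ∞ M]
  [MeasurableSpace M] [T2Space M] [BorelSpace M] {ι : Type} [Fintype ι]
  {U V W : Type} [NormedAddCommGroup U] [InnerProductSpace ℝ U]
  [NormedAddCommGroup V] [InnerProductSpace ℝ V] [NormedAddCommGroup W] [InnerProductSpace ℝ W]
  {F : Pre I M ι} {k j l : ℕ}
  {p : M → V →L[ℝ] V} {q : M → W →L[ℝ] W} {r : M → U →L[ℝ] U}

/-! ### inclusions -/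

theorem rep_incl' (h : j ≤ k) : F.Rep (F.incl k j p) id ∧ ‖F.incl k j p‖ ≤ 1 :=
  rep_liftT (fun _ hu => hu) (fun _ _ _ _ => rfl) (fun _ _ _ => rfl) zero_le_one
    fun u _ => by simpa using nrm_mono h u

theorem rep_incl (h : j ≤ k) : F.Rep (F.incl k j p) id := (rep_incl' h).1

theorem norm_incl_le (h : j ≤ k) (x : F.H k p) : ‖F.incl k j p x‖ ≤ ‖x‖ := by
  simpa using (F.incl k j p).le_of_opNorm_le (rep_incl' h).2 x

theorem incl_toH (h : j ≤ k) (u : Sec I p) : F.incl k j p (F.toH k p u) = F.toH j p u :=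
  RepT_toH (rep_incl h) u

theorem incl_self (x : F.H k p) : F.incl k k p x = x := by
  rw [(rep_incl le_rfl).unique Rep_id]; rfl

theorem incl_incl (h : j ≤ k) (h' : l ≤ j) (x : F.H k p) :
    F.incl j l p (F.incl k j p x) = F.incl k l p x := by
  induction x using H_ind with
  | hP => exact isClosed_eq (by fun_prop) (by fun_prop)
  | h u => rw [incl_toH h, incl_toH h', incl_toH (h'.trans h)]

theorem denseRange_incl (h : j ≤ k) : DenseRange (F.incl k j p) :=
  (F.dense_toH j p).mono <| by rintro _ ⟨u, rfl⟩; exact ⟨_, incl_toH h u⟩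

/-- an operator acting on two levels commutes with the inclusions -/
theorem Rep_incl {k' j' : ℕ} {A : F.H k p →L[ℝ] F.H j q} {A' : F.H k' p →L[ℝ] F.H j' q}
    {T : (M → V) → M → W} (hA : F.Rep A T) (hA' : F.Rep A' T) (h : k' ≤ k) (h' : j' ≤ j)
    (x : F.H k p) : F.incl j j' q (A x) = A' (F.incl k k' p x) :=
  DFunLike.congr_fun (RepT_eq (RepT_comp (rep_incl h') hA) (RepT_comp hA' (rep_incl h))
    fun _ => rfl) x

variable (F k p) in
/-- forget the bundle -/
def fg : F.H k p →L[ℝ] F.H k (triv M V) := F.lift k k p (triv M V) id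

theorem rep_fg : F.Rep (fg F k p) id :=
  (rep_liftT (fun _ hu => mem_triv hu.1 hu.2.1) (fun _ _ _ _ => rfl) (fun _ _ _ => rfl) zero_le_one
    fun u _ => by simp).1

theorem norm_fg (x : F.H k p) : ‖fg F k p x‖ = ‖x‖ :=
  H_eq (f := fun x => ‖fg F k p x‖) (by fun_prop) (by fun_prop)
    (fun u => by rw [RepT_toH rep_fg, norm_toH, norm_toH]; rfl) x

theorem fg_injective : Injective (fg F k p) := (injective_iff_map_eq_zero _).2 fun x hx => by
  rw [← norm_eq_zero, ← norm_fg, hx, norm_zero]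

/-! ### derivatives -/

variable (F k p) in
/-- the derivative along `e a` -/
def DH (a : ι) : F.H (k + 1) p →L[ℝ] F.H k (triv M V) := F.lift (k + 1) k p (triv M V) (F.D a)

theorem rep_DH' (a : ι) : F.Rep (DH F k p a) (F.D a) ∧ ‖DH F k p a‖ ≤ 1 :=
  rep_liftT (fun _ hu => mem_triv (F.sm_D hu.1 a) (F.hcs_D hu.2.1 a))
    (fun _ hu _ hv => F.D_add hu.1 hv.1 a) (fun c _ hu => F.D_smul hu.1 c a) zero_le_one
    fun u _ => by simpa using nrm_D_le k u a

theorem rep_DH (a : ι) : F.Rep (DH F k p a) (F.D a) := (rep_DH' a).1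

theorem norm_DH_le (a : ι) (x : F.H (k + 1) p) : ‖DH F k p a x‖ ≤ ‖x‖ := by
  simpa using (DH F k p a).le_of_opNorm_le (rep_DH' a).2 x

theorem norm_succ_sq (x : F.H (k + 1) p) :
    ‖x‖ ^ 2 = ‖F.incl (k + 1) 0 p x‖ ^ 2 + ∑ a, ‖DH F k p a x‖ ^ 2 := by
  induction x using H_ind with
  | hP => exact isClosed_eq (by fun_prop) (by fun_prop)
  | h u => simp only [incl_toH (Nat.zero_le _), RepT_toH (rep_DH _), norm_toH, nrm_succ_sq]

theorem inner_succ (x y : F.H (k + 1) p) : ⟪x, y⟫_ℝ =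
    ⟪F.incl (k + 1) 0 p x, F.incl (k + 1) 0 p y⟫_ℝ + ∑ a, ⟪DH F k p a x, DH F k p a y⟫_ℝ := by
  induction x, y using H_ind₂ with
  | hP => exact isClosed_eq (by fun_prop) (by fun_prop)
  | h u v => simp only [incl_toH (Nat.zero_le _), RepT_toH (rep_DH _), inner_toH, ip]

theorem incl_DH (h : j ≤ k) (a : ι) (x : F.H (k + 1) p) :
    F.incl k j _ (DH F k p a x) = DH F j p a (F.incl (k + 1) (j + 1) p x) :=
  Rep_incl (rep_DH a) (rep_DH a) (by omega) h x

variable [SecondCountableTopology M]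

/-! ### coefficient fields -/

/-- `f` maps the bundle `p` to the bundle `q` -/
def Maps (p : M → V →L[ℝ] V) (q : M → W →L[ℝ] W) (f : M → V →L[ℝ] W) : Prop :=
  ∀ x v, p x v = v → q x (f x v) = f x v

omit [SecondCountableTopology M] in
theorem Maps.triv (f : M → V →L[ℝ] W) : Maps p (triv M W) f := fun _ _ _ => rfl

omit [SecondCountableTopology M] in
theorem Maps.of_left {f : M → V →L[ℝ] W} (h : ∀ x v, q x (f x v) = f x v) : Maps p q f :=
  fun x v _ => h x v

theorem rep_mulH' {f : M → V →L[ℝ] W} {C : ℝ} (hf : Sm I f) (hC : F.CB k f C) (hm : Maps p q f) :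
    F.Rep (F.mulH k p q f) (fun u x => f x (u x)) ∧ ‖F.mulH k p q f‖ ≤ cK ι k * |C| :=
  rep_liftT (fun _ hu => ⟨hf.clm_apply hu.1, hu.2.1.mono fun x hx h => hx (by simp [h]),
      fun x => hm x _ (hu.2.2 x)⟩)
    (fun _ _ _ _ => funext fun x => by simp) (fun _ _ _ => funext fun x => by simp)
    (mul_nonneg (cK_nonneg k) (abs_nonneg C))
    fun _ hu => nrm_app hf hu.1 hC (FL_of_hcs k hu.1 hu.2.1)

theorem rep_mulH {f : M → V →L[ℝ] W} (hf : F.Cb f) (hm : Maps p q f) :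
    F.Rep (F.mulH k p q f) fun u x => f x (u x) :=
  let ⟨_, h⟩ := hf; (rep_mulH' h.1 (h.2 k) hm).1

theorem norm_mulH_le {f : M → V →L[ℝ] W} {C : ℝ} (hf : Sm I f) (hC : F.CB k f C) (hm : Maps p q f) :
    ‖F.mulH k p q f‖ ≤ cK ι k * |C| := (rep_mulH' hf hC hm).2

theorem incl_mulH {f : M → V →L[ℝ] W} (hf : F.Cb f) (hm : Maps p q f) (h : j ≤ k) (x : F.H k p) :
    F.incl k j q (F.mulH k p q f x) = F.mulH j p q f (F.incl k j p x) :=
  Rep_incl (rep_mulH hf hm) (rep_mulH hf hm) h h x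

theorem mulH_mulH {f : M → V →L[ℝ] W} {g : M → W →L[ℝ] U} (hf : F.Cb f) (hm : Maps p q f)
    (hg : F.Cb g) (hm' : Maps q r g) (x : F.H k p) :
    F.mulH k q r g (F.mulH k p q f x) = F.mulH k p r (fun y => (g y).comp (f y)) x :=
  DFunLike.congr_fun ((RepT_comp (rep_mulH hg hm') (rep_mulH hf hm)).unique
    (rep_mulH (Cb_comp hg hf) fun y v h => hm' y _ (hm y v h))) x

theorem mulH_add {f g : M → V →L[ℝ] W} (hf : F.Cb f) (hm : Maps p q f) (hg : F.Cb g)
    (hm' : Maps p q g) : F.mulH k p q (f + g) = F.mulH k p q f + F.mulH k p q g :=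
  RepT_eq (rep_mulH (Cb_add hf hg) fun y v h => by simp [hm y v h, hm' y v h])
    (RepT_add (rep_mulH hf hm) (rep_mulH hg hm')) fun _ => rfl

theorem mulH_smul {f : M → V →L[ℝ] W} (c : ℝ) (hf : F.Cb f) (hm : Maps p q f) :
    F.mulH k p q (c • f) = c • F.mulH k p q f :=
  RepT_eq (rep_mulH (Cb_smul (Cb_const c) hf) fun y v h => by simp [hm y v h])
    (RepT_smul c (rep_mulH hf hm)) fun _ => rfl

theorem mulH_congr {f g : M → V →L[ℝ] W} (h : ∀ x v, p x v = v → f x v = g x v) :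
    F.mulH k p q f = F.mulH k p q g := liftT_congr fun u => funext fun x => h x _ (u.2.2.2 x)

theorem mulH_id {f : M → V →L[ℝ] V} (h : ∀ x v, p x v = v → f x v = v) (y : F.H k p) :
    F.mulH k p p f y = y := by
  have : F.Rep (ContinuousLinearMap.id ℝ (F.H k p)) fun u x => f x (u x) :=
    RepT_congr Rep_id fun u => funext fun x => (h x _ (u.2.2.2 x)).symm
  rw [mulH, lift, this.liftT_eq]; rfl

/-- Leibniz rule on `H` -/
theorem DH_mulH {f : M → V →L[ℝ] W} (hf : F.Cb f) (hm : Maps p q f) (a : ι) (x : F.H (k + 1) p) :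
    DH F k q a (F.mulH (k + 1) p q f x) =
      F.mulH k p (triv M W) (F.D a f) (F.incl (k + 1) k p x) +
        F.mulH k (triv M V) (triv M W) f (DH F k p a x) :=
  DFunLike.congr_fun (RepT_eq (RepT_comp (rep_DH a) (rep_mulH hf hm))
    (RepT_add (RepT_comp (rep_mulH (Cb_D hf a) (Maps.triv _)) (rep_incl k.le_succ))
      (RepT_comp (rep_mulH hf (Maps.triv _)) (rep_DH a))) fun u => funext fun _ =>
    dv_app (hf.choose_spec.1.mdifferentiableAt (by simp)) (u.2.1.mdifferentiableAt (by simp))) x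

/-- the projection onto `p` is a left inverse of `fg` -/
theorem proj_fg (hp : F.Cb p) (hi : ∀ x v, p x (p x v) = p x v) (x : F.H k p) :
    F.mulH k (triv M V) p p (fg F k p x) = x :=
  DFunLike.congr_fun (RepT_eq (RepT_comp (rep_mulH hp (Maps.of_left hi)) rep_fg) Rep_id
    fun u => funext u.2.2.2) x

theorem fg_mulH {f : M → V →L[ℝ] W} (hf : F.Cb f) (hm : Maps p q f) (x : F.H k p) :
    fg F k q (F.mulH k p q f x) = F.mulH k p (triv M W) f x :=
  DFunLike.congr_fun ((RepT_comp rep_fg (rep_mulH hf hm)).unique (rep_mulH hf (Maps.triv _))) x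

theorem mulH_fg {f : M → V →L[ℝ] W} (hf : F.Cb f) (hm : Maps (triv M V) q f) (x : F.H k p) :
    F.mulH k (triv M V) q f (fg F k p x) = F.mulH k p q f x :=
  DFunLike.congr_fun ((RepT_comp (rep_mulH hf hm) rep_fg).unique
    (rep_mulH hf fun y v _ => hm y v rfl)) x

variable (F k p) in
/-- multiplication by a scalar function -/
def smulH (f : M → ℝ) : F.H k p →L[ℝ] F.H k p := F.lift k k p p fun u x => f x • u x

theorem rep_smulH' {f : M → ℝ} {C : ℝ} (hf : Sm I f) (hC : F.CB k f C) :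
    F.Rep (smulH F k p f) (fun u x => f x • u x) ∧ ‖smulH F k p f‖ ≤ cK ι k * |C| :=
  rep_liftT (fun _ hu => ⟨hf.smul hu.1, hu.2.1.mono fun x hx h => hx (by simp [h]),
      fun x => (map_smul (p x) _ _).trans (by rw [hu.2.2 x]; rfl)⟩)
    (fun _ _ _ _ => funext fun x => by simp)
    (fun _ _ _ => funext fun x => by simp [smul_comm (f x)])
    (mul_nonneg (cK_nonneg k) (abs_nonneg C))
    fun _ hu => nrm_smul hf hu.1 hC (FL_of_hcs k hu.1 hu.2.1)

theorem rep_smulH {f : M → ℝ} (hf : F.Cb f) : F.Rep (smulH F k p f) fun u x => f x • u x :=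
  let ⟨_, h⟩ := hf; (rep_smulH' h.1 (h.2 k)).1

omit [SecondCountableTopology M] in
theorem smulH_eq (f : M → ℝ) :
    smulH F k p f = F.mulH k p p fun x => f x • ContinuousLinearMap.id ℝ V := rfl

/-! ### first order operators -/

omit [SecondCountableTopology M] [T2Space M] [BorelSpace M] in
theorem sm_op {σ : ι → M → V →L[ℝ] W} {B : M → V →L[ℝ] W} (hσ : ∀ a, Sm I (σ a)) (hB : Sm I B)
    {u : M → V} (hu : Sm I u) : Sm I (F.op σ B u) :=
  (contMDiff_finsetSum fun a _ => (hσ a).clm_apply (F.sm_D hu a)).add (hB.clm_apply hu)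

omit [SecondCountableTopology M] [T2Space M] [BorelSpace M] in
theorem tsupport_op (σ : ι → M → V →L[ℝ] W) (B : M → V →L[ℝ] W) (u : M → V) :
    tsupport (F.op σ B u) ⊆ tsupport u := by
  refine closure_minimal (fun x hx => ?_) (isClosed_tsupport u)
  by_contra h
  refine hx ?_
  simp [Pre.op, D_def, dv_eq_zero_of_notMem h, image_eq_zero_of_notMem_tsupport h]

theorem rep_op_sum {σ : ι → M → V →L[ℝ] W} {B : M → V →L[ℝ] W} {C : ℝ} (hσ : ∀ a, Sm I (σ a))
    (hB : Sm I B) (hσC : ∀ a, F.CB k (σ a) C) (hBC : F.CB k B C)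
    (hq : ∀ a x v, q x (σ a x v) = σ a x v) (hm : Maps p q B) :
    F.Rep (∑ a, F.mulH k (triv M V) q (σ a) ∘L DH F k p a + F.mulH k p q B ∘L F.incl (k + 1) k p)
      (F.op σ B) :=
  RepT_add (RepT_sum Finset.univ fun a _ =>
    RepT_comp (rep_mulH' (hσ a) (hσC a) (Maps.of_left (hq a))).1 (rep_DH a))
    (RepT_comp (rep_mulH' hB hBC hm).1 (rep_incl k.le_succ))

theorem opH_eq {σ : ι → M → V →L[ℝ] W} {B : M → V →L[ℝ] W} {C : ℝ} (hσ : ∀ a, Sm I (σ a))
    (hB : Sm I B) (hσC : ∀ a, F.CB k (σ a) C) (hBC : F.CB k B C)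
    (hq : ∀ a x v, q x (σ a x v) = σ a x v) (hm : Maps p q B) : F.opH k p q σ B =
      ∑ a, F.mulH k (triv M V) q (σ a) ∘L DH F k p a + F.mulH k p q B ∘L F.incl (k + 1) k p :=
  (rep_op_sum hσ hB hσC hBC hq hm).liftT_eq

theorem rep_opH' {σ : ι → M → V →L[ℝ] W} {B : M → V →L[ℝ] W} {C : ℝ} (hσ : ∀ a, Sm I (σ a))
    (hB : Sm I B) (hσC : ∀ a, F.CB k (σ a) C) (hBC : F.CB k B C)
    (hq : ∀ a x v, q x (σ a x v) = σ a x v) (hm : Maps p q B) :
    F.Rep (F.opH k p q σ B) (F.op σ B) ∧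
      ‖F.opH k p q σ B‖ ≤ (Fintype.card ι + 1) * (cK ι k * |C|) := by
  rw [opH_eq hσ hB hσC hBC hq hm]
  refine ⟨rep_op_sum hσ hB hσC hBC hq hm, (norm_add_le _ _).trans ?_⟩
  have h0 : 0 ≤ cK ι k * |C| := mul_nonneg (cK_nonneg k) (abs_nonneg C)
  have h1 : ∀ a, ‖F.mulH k (triv M V) q (σ a) ∘L DH F k p a‖ ≤ cK ι k * |C| := fun a =>
    (ContinuousLinearMap.opNorm_comp_le _ _).trans <| by
      simpa using mul_le_mul (norm_mulH_le (hσ a) (hσC a) (Maps.of_left (p := triv M V) (hq a)))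
        (rep_DH' (F := F) (k := k) (p := p) a).2 (norm_nonneg _) h0
  have h2 : ‖F.mulH k p q B ∘L F.incl (k + 1) k p‖ ≤ cK ι k * |C| :=
    (ContinuousLinearMap.opNorm_comp_le _ _).trans <| by
      simpa using mul_le_mul (norm_mulH_le hB hBC hm)
        (rep_incl' (F := F) (p := p) k.le_succ).2 (norm_nonneg _) h0
  have h3 := (norm_sum_le Finset.univ _).trans (Finset.sum_le_sum fun a _ => h1 a)
  rw [Finset.sum_const, Finset.card_univ, nsmul_eq_mul] at h3
  linarith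

theorem rep_opH {σ : ι → M → V →L[ℝ] W} {B : M → V →L[ℝ] W} (hσ : ∀ a, F.Cb (σ a)) (hB : F.Cb B)
    (hq : ∀ a x v, q x (σ a x v) = σ a x v) (hm : Maps p q B) :
    F.Rep (F.opH k p q σ B) (F.op σ B) := by
  have h := RepT_add (RepT_sum Finset.univ fun a _ =>
    RepT_comp (rep_mulH (k := k) (hσ a) (Maps.of_left (hq a))) (rep_DH (p := p) a))
    (RepT_comp (rep_mulH hB hm) (rep_incl k.le_succ))
  have h' : F.Rep _ (F.op σ B) := h
  rw [opH, lift, h'.liftT_eq]; exact h'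

theorem rep_OpH {F : Fr I M ι} {A : Op M ι V W} {C : ℕ → ℝ} (hA : A.Good F C) (k : ℕ) :
    F.Rep (A.H F k) (A.app F) ∧ ‖A.H F k‖ ≤ (Fintype.card ι + 1) * (cK ι k * |C k|) :=
  rep_opH' (fun a => (hA.σ a).1) hA.B.1 (fun a => (hA.σ a).2 k) (hA.B.2 k) hA.qσ
    (Maps.of_left hA.qB)

theorem incl_OpH {F : Fr I M ι} {A : Op M ι V W} {C : ℕ → ℝ} (hA : A.Good F C) (h : j ≤ k)
    (x : F.H (k + 1) A.p) :
    F.incl k j A.q (A.H F k x) = A.H F j (F.incl (k + 1) (j + 1) A.p x) :=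
  Rep_incl (rep_OpH hA k).1 (rep_OpH hA j).1 (by omega) h x

end Crest.Agent.X212.Sob92
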