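import Crest.Agent.X212.Sob92.Bil

/-! Composition with smooth maps: estimates for functions, with explicit constants. -/

set_option autoImplicit false
set_option linter.unusedSectionVars false
noncomputable section
open scoped Manifold ContDiff Topology InnerProductSpace
open MeasureTheory Set Function Filter

namespace Crest.Agent.X212.Sob92
open An An.Pre

variable {E : Type} [NormedAddCommGroup E] [NormedSpace ℝ E] [FiniteDimensional ℝ E]
  [MeasurableSpace E] [BorelSpace E]
  {HM : Type} [TopologicalSpace HM] {I : ModelWithCorners ℝ E HM}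
  {M : Type} [TopologicalSpace M] [ChartedSpace HM M] [IsManifold I ∞ M]
  [MeasurableSpace M] [T2Space M] [BorelSpace M] {ι : Type} [Fintype ι]
  {U V W : Type} [NormedAddCommGroup U] [InnerProductSpace ℝ U]
  [NormedAddCommGroup V] [InnerProductSpace ℝ V] [NormedAddCommGroup W] [InnerProductSpace ℝ W]
  {X : Type} [NormedAddCommGroup X] [NormedSpace ℝ X]
  {N N' : Type} [NormedAddCommGroup N] [NormedSpace ℝ N] [NormedAddCommGroup N'] [NormedSpace ℝ N']
  {F : Pre I M ι}

/-- the derivatives of order `< i` of `g` are bounded by `G` on the ball of radius `R` -/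
def GB (R G : ℝ) : ℕ → ∀ {N : Type} [NormedAddCommGroup N] [NormedSpace ℝ N], (X → N) → Prop
  | 0, _, _, _, _ => True
  | i + 1, _, _, _, g => (∀ x, ‖x‖ ≤ R → ‖g x‖ ≤ G) ∧ GB R G i (fderiv ℝ g)

theorem GB.mono {R R' G G' : ℝ} (hR : R' ≤ R) (hG : G ≤ G') (i : ℕ) : ∀ {N : Type}
    [NormedAddCommGroup N] [NormedSpace ℝ N] {g : X → N}, GB R G i g → GB R' G' i g := by
  induction i with
  | zero => exact fun _ => trivial
  | succ i ih => exact fun h => ⟨fun x hx => (h.1 x (hx.trans hR)).trans hG, ih h.2⟩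

theorem GB.pred {R G : ℝ} (i : ℕ) : ∀ {N : Type} [NormedAddCommGroup N] [NormedSpace ℝ N]
    {g : X → N}, GB R G (i + 1) g → GB R G i g := by
  induction i with
  | zero => exact fun _ => trivial
  | succ i ih => exact fun h => ⟨h.1, ih h.2⟩

theorem GB.of_le {R G : ℝ} {i j : ℕ} {g : X → N} (h : GB R G j g) (hij : i ≤ j) : GB R G i g := by
  induction hij with
  | refl => exact h
  | step _ ih => exact ih (GB.pred _ h)

theorem sm_fderiv {g : X → N} (hg : ContDiff ℝ ∞ g) : ContDiff ℝ ∞ (fderiv ℝ g) :=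
  hg.fderiv_right (m := ∞) (by simp)

theorem exists_GB [FiniteDimensional ℝ X] (R : ℝ) (i : ℕ) : ∀ {N : Type} [NormedAddCommGroup N]
    [NormedSpace ℝ N] {g : X → N}, ContDiff ℝ ∞ g → ∃ G, 0 ≤ G ∧ GB R G i g := by
  have := FiniteDimensional.proper_real X
  induction i with
  | zero => exact fun _ => ⟨0, le_rfl, trivial⟩
  | succ i ih =>
    intro N _ _ g hg
    obtain ⟨G, hG, h⟩ := ih (sm_fderiv hg)
    obtain ⟨C, hC⟩ := (isCompact_closedBall (0 : X) R).exists_bound_of_continuousOn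
      hg.continuous.continuousOn
    exact ⟨max G C, le_max_of_le_left hG, fun x hx =>
      (hC x (mem_closedBall_zero_iff.2 hx)).trans (le_max_right _ _),
      GB.mono le_rfl (le_max_left _ _) i h⟩

theorem GB.clm {R G : ℝ} (i : ℕ) : ∀ {N N' : Type} [NormedAddCommGroup N] [NormedSpace ℝ N]
    [NormedAddCommGroup N'] [NormedSpace ℝ N'] (L : N →L[ℝ] N') {c : ℝ} {g : X → N}, ‖L‖ ≤ c →
    ContDiff ℝ ∞ g → GB R G i g → GB R (c * G) i fun x => L (g x) := by
  induction i with
  | zero => exact fun _ _ _ _ _ _ => trivial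
  | succ i ih =>
    intro N N' _ _ _ _ L c g hc hg h
    refine ⟨fun x hx => (L.le_opNorm _).trans
      (mul_le_mul hc (h.1 x hx) (norm_nonneg _) ((norm_nonneg L).trans hc)), ?_⟩
    have : fderiv ℝ (fun x => L (g x)) = fun x => ContinuousLinearMap.compL ℝ X N N' L
        (fderiv ℝ g x) := funext fun x =>
      (L.hasFDerivAt.comp x (hg.differentiable (by simp) x).hasFDerivAt).fderiv
    rw [this]
    exact ih _ (ContinuousLinearMap.opNorm_le_bound _ ((norm_nonneg L).trans hc) fun T =>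
      (L.opNorm_comp_le T).trans (by gcongr)) (sm_fderiv hg) h.2

theorem GB.add {R G G' : ℝ} (i : ℕ) : ∀ {N : Type} [NormedAddCommGroup N] [NormedSpace ℝ N]
    {g g' : X → N}, ContDiff ℝ ∞ g → ContDiff ℝ ∞ g' → GB R G i g → GB R G' i g' →
    GB R (G + G') i fun x => g x + g' x := by
  induction i with
  | zero => exact fun _ _ _ _ => trivial
  | succ i ih =>
    intro N _ _ g g' hg hg' h h'
    refine ⟨fun x hx => (norm_add_le _ _).trans (add_le_add (h.1 x hx) (h'.1 x hx)), ?_⟩
    have : fderiv ℝ (fun x => g x + g' x) = fun x => fderiv ℝ g x + fderiv ℝ g' x :=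
      funext fun x => fderiv_fun_add (hg.differentiable (by simp) x) (hg'.differentiable (by simp) x)
    rw [this]
    exact ih (sm_fderiv hg) (sm_fderiv hg') h.2 h'.2

theorem D_comp {g : X → N} (hg : ContDiff ℝ ∞ g) {f : M → X} (hf : Sm I f) (a : ι) :
    F.D a (fun x => g (f x)) = fun x => fderiv ℝ g (f x) (F.D a f x) := funext fun x =>
  dv_comp (hf.mdifferentiableAt (by simp)) (hg.differentiable (by simp) _).hasFDerivAt

theorem sm_comp {g : X → N} (hg : ContDiff ℝ ∞ g) {f : M → X} (hf : Sm I f) :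
    Sm I fun x => g (f x) := hg.contMDiff.comp hf

/-- the constant of the chain rule -/
def cC (R : ℝ) : ℕ → ℝ
  | 0 => 1
  | i + 1 => 1 + 2 ^ i * cC R i * |R|

theorem cC_nonneg (R : ℝ) : ∀ i, 0 ≤ cC R i
  | 0 => zero_le_one
  | i + 1 => by have := cC_nonneg R i; unfold cC; positivity

theorem cb_comp {R G : ℝ} (hG : 0 ≤ G) {f : M → X} (hf : Sm I f) (i : ℕ) : ∀ {N : Type}
    [NormedAddCommGroup N] [NormedSpace ℝ N] {g : X → N}, ContDiff ℝ ∞ g → GB R G i g →
    cb I F.e i f R → cb I F.e i (fun x => g (f x)) (cC R i * G) := by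
  induction i with
  | zero => exact fun _ _ _ => trivial
  | succ i ih =>
    intro N _ _ g hg h hR
    have hc := cC_nonneg R i
    refine ⟨fun x => (h.1 _ (hR.1 x)).trans (le_mul_of_one_le_left hG
      (le_add_of_nonneg_right (by positivity))), fun a => ?_⟩
    rw [← D_def, D_comp hg hf]
    refine (cb.bil F.sm (ContinuousLinearMap.id ℝ (X →L[ℝ] N)) (mul_nonneg hc hG) (abs_nonneg R)
      (sm_comp (sm_fderiv hg) hf) (F.sm_D hf a) (ih (sm_fderiv hg) h.2 hR.pred)
      ((hR.2 a).mono (le_abs_self R))).mono ?_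
    have := ContinuousLinearMap.norm_id_le (𝕜 := ℝ) (E := X →L[ℝ] N)
    calc _ ≤ 2 ^ i * 1 * (cC R i * G) * |R| := by gcongr
      _ = 2 ^ i * cC R i * |R| * G := by ring
      _ ≤ _ := mul_le_mul_of_nonneg_right (le_add_of_nonneg_left zero_le_one) hG

theorem CB_comp {R G : ℝ} (hG : 0 ≤ G) {f : M → X} (hf : Sm I f) {i : ℕ} {g : X → N}
    (hg : ContDiff ℝ ∞ g) (h : GB R G (i + 1) g) (hR : F.CB i f R) :
    F.CB i (fun x => g (f x)) (cC R (i + 1) * G) := CB_iff.2 (cb_comp hG hf _ hg h (CB_iff.1 hR))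

theorem Cb_nem [FiniteDimensional ℝ X] {g : X → N} (hg : ContDiff ℝ ∞ g) {f : M → X}
    (hf : F.Cb f) : F.Cb fun x => g (f x) := by
  obtain ⟨C, hf, hC⟩ := hf
  choose G hG using fun k => exists_GB (C k) (k + 1) hg
  exact ⟨_, sm_comp hg hf, fun k => CB_comp (hG k).1 hf hg (hG k).2 (hC k)⟩

/-- the constant of the Moser estimate -/
def cM (ι : Type) [Fintype ι] (S R : ℝ) : ℕ → ℝ
  | 0 => 1
  | l + 1 => 1 + Fintype.card ι * ((4 * (cK ι l * R) ^ 2 + 8 * |S| * cK ι l ^ 2 * R ^ 2) * cM ι S R l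
      + 2 * (cK ι l * cC R (l + 1)) ^ 2)

theorem cM_nonneg (S R : ℝ) : ∀ l, 0 ≤ cM ι S R l
  | 0 => zero_le_one
  | l + 1 => by have := cM_nonneg S R l; unfold cM; positivity

theorem hcs_nem (g : X → N) (f : M → X) {u : M → X} (hc : HasCompactSupport u) :
    HasCompactSupport fun x => g (f x + u x) - g (f x) :=
  hc.mono fun x hx h => hx (by simp [h])

/-- Moser estimate -/
theorem Sup.N2_nem [SecondCountableTopology M] {S R G : ℝ} (hS : Sup F S) {K : ℕ} (hK : 8 ≤ K)
    (hR : 0 ≤ R) (hG : 0 ≤ G) {f u : M → X} (hf : Sm I f) (hu : Sm I u) (hc : HasCompactSupport u)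
    (hfR : F.CB K f R) (huR : N2 F K u ≤ R ^ 2) (l : ℕ) : ∀ {N : Type} [NormedAddCommGroup N]
    [NormedSpace ℝ N] {g : X → N}, l ≤ K → ContDiff ℝ ∞ g → GB (R + √|S| * R) G (l + 2) g →
    N2 F l (fun x => g (f x + u x) - g (f x)) ≤ cM ι S R l * G ^ 2 * N2 F K u := by
  have hR' : R ≤ R + √|S| * R := le_add_of_nonneg_right (by positivity)
  have p0 := n2_nonneg (I := I) (e := F.e) (μ := F.μ) K u
  have h0 : ∀ {N : Type} [NormedAddCommGroup N] [NormedSpace ℝ N] {g : X → N}, ContDiff ℝ ∞ g →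
      GB (R + √|S| * R) G 2 g → N2 F 0 (fun x => g (f x + u x) - g (f x)) ≤ G ^ 2 * N2 F K u := by
    intro N _ _ g hg h
    refine le_trans ?_ (mul_le_mul_of_nonneg_left (n2_mono (Nat.zero_le K) u) (sq_nonneg G))
    simp only [n2]
    rw [← integral_const_mul]
    refine integral_mono (int_sq (FL_of_hcs (F := F) 0 ((sm_comp hg (hf.add hu)).sub
      (sm_comp hg hf)) (hcs_nem g f hc))) ((int_sq (FL_of_hcs (F := F) 0 hu hc)).const_mul _)
      fun x => ?_
    have h1 : ‖u x‖ ≤ √|S| * R := by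
      refine (sq_le_sq₀ (norm_nonneg _) (by positivity)).1 ((hS.sq_le hu hc x).trans ?_)
      rw [mul_pow, Real.sq_sqrt (abs_nonneg S)]
      exact mul_le_mul_of_nonneg_left ((n2_mono (by omega) u).trans huR) (abs_nonneg S)
    have h2 := (convex_closedBall (0 : X) (R + √|S| * R)).norm_image_sub_le_of_norm_fderiv_le
      (f := g) (C := G) (x := f x) (y := f x + u x) (fun y _ => hg.differentiable (by simp) y)
      (fun y hy => h.2.1 y (mem_closedBall_zero_iff.1 hy))
      (mem_closedBall_zero_iff.2 ((CB_bound hfR x).trans hR'))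
      (mem_closedBall_zero_iff.2 ((norm_add_le _ _).trans (add_le_add (CB_bound hfR x) h1)))
    rw [add_sub_cancel_left] at h2
    simp only [← mul_pow]
    gcongr
  induction l with
  | zero => exact fun _ hg h => by simpa [cM] using h0 hg h
  | succ l ih =>
    intro N _ _ g hl hg h
    obtain ⟨K, rfl⟩ : ∃ K', K = K' + 1 := ⟨K - 1, by omega⟩
    have hg' := sm_fderiv hg
    have i1 := ih (by omega) hg' h.2
    set Δ : M → X →L[ℝ] N := fun x => fderiv ℝ g (f x + u x) - fderiv ℝ g (f x) with hΔ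
    have sΔ : Sm I Δ := (sm_comp hg' (hf.add hu)).sub (sm_comp hg' hf)
    have cΔ : HasCompactSupport Δ := hcs_nem _ f hc
    have pΔ := n2_nonneg (I := I) (e := F.e) (μ := F.μ) l Δ
    have key : ∀ a, N2 F l (F.D a fun x => g (f x + u x) - g (f x)) ≤
        ((4 * (cK ι l * R) ^ 2 + 8 * |S| * cK ι l ^ 2 * R ^ 2) * cM ι S R l
          + 2 * (cK ι l * cC R (l + 1)) ^ 2) * G ^ 2 * N2 F (K + 1) u := fun a => by
      have e : (F.D a fun x => g (f x + u x) - g (f x)) = ((fun x => Δ x (F.D a f x)) +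
          fun x => Δ x (F.D a u x)) + fun x => fderiv ℝ g (f x) (F.D a u x) := by
        funext x
        have e1 := congrFun (D_comp (F := F) hg (hf.add hu) a) x
        have e2 := congrFun (D_comp (F := F) hg hf a) x
        have e3 := dv_sub (e := F.e a) ((sm_comp hg (hf.add hu)).mdifferentiableAt (x := x)
          (by simp)) ((sm_comp hg hf).mdifferentiableAt (by simp))
        rw [F.D_add hf hu] at e1
        refine e3.trans ((congrArg₂ (· - ·) e1 e2).trans ?_)
        simp only [hΔ, Pi.add_apply, map_add, sub_apply]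
        abel
      have s1 : Sm I fun x => Δ x (F.D a f x) := sΔ.clm_apply (F.sm_D hf a)
      have s2 : Sm I fun x => Δ x (F.D a u x) := sΔ.clm_apply (F.sm_D hu a)
      have s3 : Sm I fun x => fderiv ℝ g (f x) (F.D a u x) :=
        (sm_comp hg' hf).clm_apply (F.sm_D hu a)
      have c1 : HasCompactSupport fun x => Δ x (F.D a f x) :=
        cΔ.mono fun x hx h => hx (by simp [h])
      have c2 : HasCompactSupport fun x => Δ x (F.D a u x) :=
        cΔ.mono fun x hx h => hx (by simp [h])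
      have c3 : HasCompactSupport fun x => fderiv ℝ g (f x) (F.D a u x) :=
        (F.hcs_D hc a).mono fun x hx h => hx (by simp [h])
      have t1 : N2 F l (fun x => Δ x (F.D a f x)) ≤ (cK ι l * R) ^ 2 * N2 F l Δ := by
        refine (N2_mul (ContinuousLinearMap.apply ℝ N) (F.sm_D hf a) sΔ
          (CB_of_le (CB_D hfR a) (by omega)) (FL_of_hcs l sΔ cΔ)).2.trans
          (mul_le_mul_of_nonneg_right ?_ pΔ)
        rw [mul_pow, mul_pow, mul_pow]
        refine mul_le_mul_of_nonneg_right (mul_le_of_le_one_right (sq_nonneg _)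
          (pow_le_one₀ (ContinuousLinearMap.opNorm_nonneg _) ?_)) (sq_nonneg R)
        exact ContinuousLinearMap.opNorm_le_bound₂ _ zero_le_one fun v T => by
          simpa [mul_comm] using T.le_opNorm v
      have d1 := n2_dv_le (I := I) (e := F.e) (μ := F.μ) K u a
      have t2 : N2 F l (fun x => Δ x (F.D a u x)) ≤ 2 * |S| * cK ι l ^ 2 * N2 F l Δ * R ^ 2 :=
        (hS.N2_app (Lev.right (k := K) (by omega) (by omega)) sΔ cΔ (F.sm_D hu a)
          (F.hcs_D hc a)).trans (mul_le_mul_of_nonneg_left (d1.trans huR) (by positivity))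
      have t3 : N2 F l (fun x => fderiv ℝ g (f x) (F.D a u x)) ≤
          (cK ι l * (cC R (l + 1) * G)) ^ 2 * N2 F (K + 1) u := by
        have := Sob92.N2_app (sm_comp hg' hf) (F.sm_D hu a) (CB_comp hG hf hg'
          (GB.mono hR' le_rfl _ (GB.pred _ h.2)) (CB_of_le hfR (by omega)))
          (FL_of_hcs l (F.sm_D hu a) (F.hcs_D hc a))
        rw [mul_pow, sq_abs, ← mul_pow] at this
        exact this.trans (mul_le_mul_of_nonneg_left ((n2_mono (by omega) _).trans d1) (sq_nonneg _))
      have a1 := n2_add_le (μ := F.μ) F.sm l s1 s2 (FL_of_hcs l s1 c1) (FL_of_hcs l s2 c2)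
      have a2 := n2_add_le (μ := F.μ) F.sm l (s1.add s2) s3 (FL_of_hcs l (s1.add s2) (c1.add c2))
        (FL_of_hcs l s3 c3)
      have m1 : (4 * (cK ι l * R) ^ 2 + 8 * |S| * cK ι l ^ 2 * R ^ 2) * N2 F l Δ ≤
          (4 * (cK ι l * R) ^ 2 + 8 * |S| * cK ι l ^ 2 * R ^ 2) *
            (cM ι S R l * G ^ 2 * N2 F (K + 1) u) := mul_le_mul_of_nonneg_left i1 (by positivity)
      rw [e]
      refine a2.trans ?_
      nlinarith
    have h5 := Finset.sum_le_sum fun a (_ : a ∈ Finset.univ) => key a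
    rw [Finset.sum_const, Finset.card_univ, nsmul_eq_mul] at h5
    refine (add_le_add (h0 hg (h.of_le (by omega))) h5).trans (le_of_eq ?_)
    simp only [cM]; ring

end Crest.Agent.X212.Sob92
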