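import Mathlib

/-! Weak limits in Hilbert spaces; a differentiability criterion through norming functionals. -/

open scoped Topology InnerProductSpace
open Set Filter Function

noncomputable section
namespace Crest.Agent.X212.Sob92

section weak
variable {H : Type*} [NormedAddCommGroup H] [InnerProductSpace ℝ H] [CompleteSpace H] {κ : Type*}

/-- bounded families have weak limits along ultrafilters -/
theorem exists_weak_ultra (U : Ultrafilter κ) {y : κ → H} {C : ℝ} (hy : ∀ᶠ n in (U : Filter κ), ‖y n‖ ≤ C) :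
    ∃ z : H, ‖z‖ ≤ C ∧ ∀ φ, Tendsto (fun n => ⟪φ, y n⟫_ℝ) U (𝓝 ⟪φ, z⟫_ℝ) := by
  have hC : 0 ≤ C := by obtain ⟨n, hn⟩ := hy.exists; exact (norm_nonneg _).trans hn
  have h1 : ∀ φ : H, ∃ a, |a| ≤ C * ‖φ‖ ∧ Tendsto (fun n => ⟪φ, y n⟫_ℝ) U (𝓝 a) := fun φ => by
    have : Icc (-(C * ‖φ‖)) (C * ‖φ‖) ∈ U.map fun n => ⟪φ, y n⟫_ℝ := by
      refine Ultrafilter.mem_map.2 (hy.mono fun n hn => ?_)
      refine abs_le.1 ((abs_real_inner_le_norm _ _).trans ?_)
      rw [mul_comm]; gcongr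
    obtain ⟨a, ha, h⟩ := isCompact_Icc.ultrafilter_le_nhds' _ this
    exact ⟨a, abs_le.2 ha, h⟩
  choose a ha using h1
  let L : H →ₗ[ℝ] ℝ :=
    { toFun := a
      map_add' := fun φ ψ => tendsto_nhds_unique (ha _).2
        (by simpa only [inner_add_left] using (ha φ).2.add (ha ψ).2)
      map_smul' := fun c φ => tendsto_nhds_unique (ha _).2
        (by simp only [real_inner_smul_left]; exact (ha φ).2.const_mul c) }
  let L' : H →L[ℝ] ℝ := L.mkContinuous C fun φ => (ha φ).1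
  refine ⟨(InnerProductSpace.toDual ℝ H).symm L', ?_, fun φ => ?_⟩
  · rw [LinearIsometryEquiv.norm_map]; exact L.mkContinuous_norm_le hC _
  · rw [real_inner_comm, InnerProductSpace.toDual_symm_apply]; exact (ha φ).2

/-- a weak limit point identifies all strong limits of continuous linear images -/
theorem exists_weak_lim {l : Filter κ} [l.NeBot] {y : κ → H} {C : ℝ} (hy : ∀ᶠ n in l, ‖y n‖ ≤ C) :
    ∃ z : H, ‖z‖ ≤ C ∧ ∀ {Z : Type} [NormedAddCommGroup Z] [NormedSpace ℝ Z] (L : H →L[ℝ] Z) (a : Z),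
      Tendsto (fun n => L (y n)) l (𝓝 a) → L z = a := by
  obtain ⟨z, hz, h⟩ := exists_weak_ultra (Ultrafilter.of l) ((Ultrafilter.of_le l) hy)
  refine ⟨z, hz, fun L a ha => (SeparatingDual.eq_iff_forall_dual_eq (R := ℝ)).2 fun ℓ => ?_⟩
  have h1 := h ((InnerProductSpace.toDual ℝ H).symm (ℓ.comp L))
  simp only [InnerProductSpace.toDual_symm_apply, ContinuousLinearMap.comp_apply] at h1
  exact tendsto_nhds_unique h1 ((ℓ.continuous.tendsto a).comp (ha.mono_left (Ultrafilter.of_le l)))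

end weak

section crit
variable {X Y : Type*} [NormedAddCommGroup X] [NormedSpace ℝ X] [NormedAddCommGroup Y]
  [NormedSpace ℝ Y]

/-- a set of functionals that computes the norm -/
def Norming (Λ : Set (Y →L[ℝ] ℝ)) : Prop :=
  ∀ y C, 0 ≤ C → (∀ ℓ ∈ Λ, |ℓ y| ≤ ‖ℓ‖ * C) → ‖y‖ ≤ C

variable {Λ : Set (Y →L[ℝ] ℝ)} {N : X → Y} {A : X → X →L[ℝ] Y}

theorem Norming.mvt (hΛ : Norming Λ) {x v : X} (L : X →L[ℝ] Y) {C : ℝ} (hC : 0 ≤ C)
    (h : ∀ ℓ ∈ Λ, ∀ s ∈ Icc (0 : ℝ) 1,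
      HasDerivAt (fun t : ℝ => ℓ (N (x + s • v + t • v))) (ℓ (A (x + s • v) v)) 0)
    (hb : ∀ s ∈ Icc (0 : ℝ) 1, ‖A (x + s • v) - L‖ ≤ C) :
    ‖N (x + v) - N x - L v‖ ≤ C * ‖v‖ := by
  refine hΛ _ _ (by positivity) fun ℓ hℓ => ?_
  have h1 : ∀ s ∈ Icc (0 : ℝ) 1, HasDerivWithinAt (fun t : ℝ => ℓ (N (x + t • v)) - t * ℓ (L v))
      (ℓ ((A (x + s • v) - L) v)) (Icc 0 1) s := fun s hs => by
    have h2 : HasDerivAt (fun t : ℝ => ℓ (N (x + t • v))) (ℓ (A (x + s • v) v)) s := by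
      have h3 := h ℓ hℓ s hs
      rw [← sub_self s] at h3
      have h4 := h3.comp_sub_const s s
      have e : ∀ t : ℝ, x + s • v + (t - s) • v = x + t • v := fun t => by module
      simpa only [e] using h4
    have h5 := (h2.fun_sub ((hasDerivAt_id' s).mul_const (ℓ (L v)))).hasDerivWithinAt (s := Icc 0 1)
    rw [one_mul, ← map_sub] at h5
    exact h5
  have := norm_image_sub_le_of_norm_deriv_le_segment_01' (C := ‖ℓ‖ * (C * ‖v‖)) h1 fun s hs =>
    (ℓ.le_opNorm _).trans (mul_le_mul_of_nonneg_left (((A _ - L).le_opNorm v).trans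
      (mul_le_mul_of_nonneg_right (hb s (Ico_subset_Icc_self hs)) (norm_nonneg v))) (norm_nonneg ℓ))
  rw [one_smul, zero_smul, add_zero, one_mul, zero_mul, sub_zero, Real.norm_eq_abs] at this
  rw [map_sub, map_sub, sub_right_comm]
  exact this

/-- weakly differentiable with a bounded candidate: Lipschitz -/
theorem Norming.lip (hΛ : Norming Λ) {s : Set X} (hs : Convex ℝ s) {C : ℝ} (hC : 0 ≤ C)
    (h : ∀ ℓ ∈ Λ, ∀ x ∈ s, ∀ v, HasDerivAt (fun t : ℝ => ℓ (N (x + t • v))) (ℓ (A x v)) 0)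
    (hb : ∀ x ∈ s, ‖A x‖ ≤ C) {x y : X} (hx : x ∈ s) (hy : y ∈ s) :
    ‖N y - N x‖ ≤ C * ‖y - x‖ := by
  have hm : ∀ t ∈ Icc (0 : ℝ) 1, x + t • (y - x) ∈ s := fun t ht => hs.add_smul_sub_mem hx hy ht
  simpa using hΛ.mvt (N := N) (A := A) (x := x) (v := y - x) 0 hC
    (fun ℓ hℓ t ht => h ℓ hℓ _ (hm t ht) _) fun t ht => by simpa using hb _ (hm t ht)

/-- weakly differentiable with a continuous candidate: differentiable -/
theorem Norming.hasFDerivAt (hΛ : Norming Λ)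
    (h : ∀ ℓ ∈ Λ, ∀ x v, HasDerivAt (fun t : ℝ => ℓ (N (x + t • v))) (ℓ (A x v)) 0) {x : X}
    (hA : ContinuousAt A x) : HasFDerivAt N (A x) x := by
  rw [hasFDerivAt_iff_isLittleO_nhds_zero, Asymptotics.isLittleO_iff]
  intro ε hε
  obtain ⟨r, hr, hb⟩ := Metric.eventually_nhds_iff_ball.1 (Metric.tendsto_nhds.1 hA ε hε)
  filter_upwards [Metric.ball_mem_nhds (0 : X) hr] with v hv
  refine hΛ.mvt (A x) hε.le (fun ℓ hℓ s _ => h ℓ hℓ _ _) fun s hs => ?_
  rw [← dist_eq_norm]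
  refine (hb _ ?_).le
  rw [mem_ball_iff_norm, add_sub_cancel_left, norm_smul, Real.norm_of_nonneg hs.1]
  exact (mul_le_of_le_one_left (norm_nonneg v) hs.2).trans_lt (mem_ball_zero_iff.1 hv)

theorem Norming.continuous (hΛ : Norming Λ)
    (h : ∀ ℓ ∈ Λ, ∀ x v, HasDerivAt (fun t : ℝ => ℓ (N (x + t • v))) (ℓ (A x v)) 0)
    (hb : ∀ R, ∃ C, ∀ x, ‖x‖ ≤ R → ‖A x‖ ≤ C) : Continuous N := by
  refine continuous_iff_continuousAt.2 fun x => ?_
  obtain ⟨C, hC⟩ := hb (‖x‖ + 1)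
  have h0 : 0 ≤ C := (norm_nonneg _).trans (hC x (by linarith))
  have : LipschitzOnWith ⟨C, h0⟩ N (Metric.closedBall 0 (‖x‖ + 1)) :=
    LipschitzOnWith.of_dist_le_mul fun a ha b hb => by
      rw [dist_eq_norm, dist_eq_norm]
      exact hΛ.lip (convex_closedBall _ _) h0 (fun ℓ hℓ x _ => h ℓ hℓ x)
        (fun z hz => hC z (mem_closedBall_zero_iff.1 hz)) hb ha
  exact this.continuousOn.continuousAt (Metric.closedBall_mem_nhds_of_mem (by simp))

/-- in a Hilbert space the span of a separating set of functionals is norming -/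
theorem norming_of_sep {H : Type*} [NormedAddCommGroup H] [InnerProductSpace ℝ H] [CompleteSpace H]
    (Λ : Submodule ℝ (H →L[ℝ] ℝ)) (h : ∀ y, (∀ ℓ ∈ Λ, ℓ y = 0) → y = 0) :
    Norming (Λ : Set (H →L[ℝ] ℝ)) := by
  intro y C hC hy
  let S : Submodule ℝ H := Λ.comap (InnerProductSpace.toDual ℝ H).toLinearEquiv.toLinearMap
  have hd : Dense (S : Set H) := by
    rw [Submodule.dense_iff_topologicalClosure_eq_top, Submodule.topologicalClosure_eq_top_iff]
    refine eq_bot_iff.2 fun z hz => h z fun ℓ hℓ => ?_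
    have := (Submodule.mem_orthogonal S z).1 hz ((InnerProductSpace.toDual ℝ H).symm ℓ)
      (by simpa [S] using hℓ)
    rwa [InnerProductSpace.toDual_symm_apply] at this
  have h1 : |⟪y, y⟫_ℝ| ≤ ‖y‖ * C := hd.induction (P := fun φ => |⟪φ, y⟫_ℝ| ≤ ‖φ‖ * C)
    (fun φ hφ => by simpa using hy _ hφ) (isClosed_le (by fun_prop) (by fun_prop)) y
  rw [real_inner_self_eq_norm_sq, abs_sq] at h1
  nlinarith [norm_nonneg y]

end crit

end Crest.Agent.X212.Sob92
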