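import Crest.Agent.X212.Sob92.NemF
import Crest.Agent.X212.Sob92.Ev
import Crest.Agent.X212.Sob92.Wk
import Crest.Agent.X212.Prm93.H

/-! Nemytskii operators on `B F k` and on `H k`. -/

set_option autoImplicit false
set_option linter.unusedSectionVars false
noncomputable section
open scoped Manifold ContDiff Topology InnerProductSpace
open MeasureTheory Set Function Filter

namespace Crest.Agent.X212.Sob92
open An An.Pre Prm93

variable {E : Type} [NormedAddCommGroup E] [NormedSpace ℝ E] [FiniteDimensional ℝ E]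
  [MeasurableSpace E] [BorelSpace E]
  {HM : Type} [TopologicalSpace HM] {I : ModelWithCorners ℝ E HM}
  {M : Type} [TopologicalSpace M] [ChartedSpace HM M] [IsManifold I ∞ M]
  [MeasurableSpace M] [T2Space M] [BorelSpace M] {ι : Type} [Fintype ι]
  {U V W : Type} [NormedAddCommGroup U] [InnerProductSpace ℝ U]
  [NormedAddCommGroup V] [InnerProductSpace ℝ V] [NormedAddCommGroup W] [InnerProductSpace ℝ W]
  {X : Type} [NormedAddCommGroup X] [NormedSpace ℝ X] [FiniteDimensional ℝ X]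
  {N : Type} [NormedAddCommGroup N] [NormedSpace ℝ N] {k : ℕ}

section B
variable {F : Pre I M ι}

/-- composition with `g` on bounded functions -/
def nemB (F : Pre I M ι) (k : ℕ) (g : X → N) (f : B F k X) : B F k N := toB F k fun x => g (B.fn f x)

theorem fn_nemB {g : X → N} (hg : ContDiff ℝ ∞ g) (f : B F k X) :
    B.fn (nemB F k g f) = fun x => g (B.fn f x) := fn_toB (Cb_nem hg f.cb)

theorem norm_nemB_le {g : X → N} (hg : ContDiff ℝ ∞ g) {R G : ℝ} (hG : 0 ≤ G)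
    (h : GB R G (k + 1) g) {f : B F k X} (hf : ‖f‖ ≤ R) : ‖nemB F k g f‖ ≤ cC R (k + 1) * G :=
  (B.norm_le (mul_nonneg (cC_nonneg R _) hG)).2 <| by
    rw [fn_nemB hg]; exact CB_comp hG f.sm hg h (CB_mono f.CB hf)

/-- evaluation of a derivative -/
def evw (w : Wd ι k) (x : M) : B F k N →L[ℝ] N :=
  LinearMap.mkContinuous
    { toFun := fun f => B.jet f w x
      map_add' := fun f g => by simp
      map_smul' := fun c f => by simp } 1
    fun f => by simpa [B.jet_apply] using f.CB w.1 w.2 x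

theorem norming_B : Norming {ℓ : B F k N →L[ℝ] ℝ | ∃ w x, ∃ φ : N →L[ℝ] ℝ, ‖φ‖ ≤ 1 ∧
    ℓ = φ ∘L evw w x} := by
  intro y C hC h
  refine (B.norm_le hC).2 fun w hw x => ?_
  obtain ⟨φ, hφ, e⟩ := exists_dual_vector'' ℝ (F.Dw w (B.fn y) x)
  have h1 := h _ ⟨⟨w, hw⟩, x, φ, hφ, rfl⟩
  have h2 : ‖φ ∘L evw (F := F) (N := N) ⟨w, hw⟩ x‖ ≤ 1 :=
    (φ.opNorm_comp_le _).trans (mul_le_one₀ hφ (norm_nonneg _)
      (LinearMap.mkContinuous_norm_le _ zero_le_one _))
  have h3 : (φ ∘L evw (F := F) ⟨w, hw⟩ x) y = ‖F.Dw w (B.fn y) x‖ := e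
  rw [h3, abs_norm] at h1
  exact h1.trans (mul_le_of_le_one_left hC h2)

variable [I.Boundaryless]

theorem nemB_weak {g : X → N} (hg : ContDiff ℝ ∞ g) (w : Wd ι k) (x : M) (f δ : B F k X) :
    HasDerivAt (fun t : ℝ => evw w x (nemB F k g (f + t • δ)))
      (evw w x (B.bil (ContinuousLinearMap.id ℝ (X →L[ℝ] N)) (nemB F k (fderiv ℝ g) f) δ)) 0 := by
  have js : JS I univ fun (t : ℝ) y => g (B.fn f y + t • B.fn δ y) := fun t _ y =>
    hg.contMDiff.contMDiffAt.comp (t, y) ((JAt.of_fixed (f.sm y)).add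
      (contMDiffAt_fst.smul (JAt.of_fixed (δ.sm y))))
  have h1 := (JS.Dw (F := F) w.1 js 0 trivial x).hasFDerivAt
  rw [JS.pd_Dw w.1 (mem_univ _) js] at h1
  have h2 := congrFun (Dw_clm (F := F) (ContinuousLinearMap.apply ℝ N (1 : ℝ)) w.1
    (js.pd.sm (t := 0) (mem_univ _))) x
  have h3 : (fun y => ContinuousLinearMap.apply ℝ N (1 : ℝ)
      (pd (fun (t : ℝ) y => g (B.fn f y + t • B.fn δ y)) 0 y)) =
      fun y => fderiv ℝ g (B.fn f y) (B.fn δ y) := funext fun y => by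
    have a1 : HasDerivAt (fun t : ℝ => B.fn f y + t • B.fn δ y) (B.fn δ y) 0 := by
      simpa using ((hasDerivAt_id' (0 : ℝ)).smul_const (B.fn δ y)).const_add (B.fn f y)
    have a2 := (hg.differentiable (by simp) _).hasFDerivAt.comp_hasDerivAt_of_eq 0 a1
      (y := B.fn f y) (by simp)
    exact a2.deriv
  rw [h3] at h2
  have h4 := h1.hasDerivAt
  rw [← ContinuousLinearMap.apply_apply (𝕜 := ℝ) (1 : ℝ), ← h2] at h4
  convert h4 using 1
  · funext t
    change F.Dw w.1 (B.fn _) x = _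
    rw [fn_nemB hg]; rfl
  · change F.Dw w.1 (B.fn _) x = _
    rw [B.fn_bil, fn_nemB (sm_fderiv hg)]; rfl

theorem nemB_weak' {g : X → N} (hg : ContDiff ℝ ∞ g) : ∀ ℓ ∈ {ℓ : B F k N →L[ℝ] ℝ | ∃ w x,
    ∃ φ : N →L[ℝ] ℝ, ‖φ‖ ≤ 1 ∧ ℓ = φ ∘L evw w x}, ∀ f δ : B F k X,
    HasDerivAt (fun t : ℝ => ℓ (nemB F k g (f + t • δ)))
      (ℓ (B.bil (ContinuousLinearMap.id ℝ (X →L[ℝ] N)) (nemB F k (fderiv ℝ g) f) δ)) 0 := by
  rintro _ ⟨w, x, φ, -, rfl⟩ f δ
  exact φ.hasFDerivAt.comp_hasDerivAt 0 (nemB_weak hg w x f δ)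

theorem continuous_nemB {g : X → N} (hg : ContDiff ℝ ∞ g) : Continuous (nemB F k g) :=
  norming_B.continuous (A := fun f => B.bil (ContinuousLinearMap.id ℝ (X →L[ℝ] N))
    (nemB F k (fderiv ℝ g) f)) (nemB_weak' hg) fun R => by
    obtain ⟨G, hG, h⟩ := exists_GB R (k + 1) (sm_fderiv hg)
    exact ⟨_, fun f hf => ContinuousLinearMap.le_opNorm_of_le _
      (norm_nemB_le (sm_fderiv hg) hG h hf)⟩

theorem hasFDerivAt_nemB {g : X → N} (hg : ContDiff ℝ ∞ g) (f : B F k X) :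
    HasFDerivAt (nemB F k g) (B.bil (ContinuousLinearMap.id ℝ (X →L[ℝ] N))
      (nemB F k (fderiv ℝ g) f)) f :=
  norming_B.hasFDerivAt (A := fun f => B.bil (ContinuousLinearMap.id ℝ (X →L[ℝ] N))
    (nemB F k (fderiv ℝ g) f)) (nemB_weak' hg)
    ((B.bil _).continuous.comp (continuous_nemB (sm_fderiv hg))).continuousAt

theorem contDiff_nemB {g : X → N} (hg : ContDiff ℝ ∞ g) : ContDiff ℝ ∞ (nemB F k g) := by
  have h : ∀ (n : ℕ) {N : Type} [NormedAddCommGroup N] [NormedSpace ℝ N] {g : X → N},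
      ContDiff ℝ ∞ g → ContDiff ℝ n (nemB F k g) := by
    intro n
    induction n with
    | zero => exact fun hg => contDiff_zero.2 (continuous_nemB hg)
    | succ n ih =>
      intro N _ _ g hg
      exact contDiff_succ_iff_hasFDerivAt.2 ⟨_, (B.bil _).contDiff.comp (ih (sm_fderiv hg)),
        hasFDerivAt_nemB hg⟩
  exact contDiff_infty.2 fun n => h n hg

theorem SB_nem {T : Type} [NormedAddCommGroup T] [NormedSpace ℝ T] {O : Set T} {g : X → N}
    (hg : ContDiff ℝ ∞ g) {f : T → M → X} (h : SB F O f) : SB F O fun t x => g (f t x) :=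
  SB.of_map (fun k t => nemB F k g (toB F k (f t)))
    (fun k => (contDiff_nemB hg).comp_contDiffOn (h.sm k)) fun _ t ht => by
      rw [fn_nemB hg, fn_toB (h.cb t ht)]

end B

section H
variable [SecondCountableTopology M] [CompleteSpace V] [CompleteSpace W] {F : Fr I M ι} {S : ℝ}
  {p : M → V →L[ℝ] V} {L : V →L[ℝ] X} {g : X → W}

open Classical in
/-- `(f, h) ↦ g (f + L h) - g f` -/
def nem (F : Fr I M ι) (k : ℕ) (p : M → V →L[ℝ] V) (L : V →L[ℝ] X) (g : X → W)
    (z : B F.toPre k X × F.H k p) : F.H k (triv M W) :=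
  if h : ∃ y : F.H k (triv M W), ∀ x, F.val k _ y x =
    g (B.fn z.1 x + L (F.val k p z.2 x)) - g (B.fn z.1 x) then h.choose else 0

theorem nem_spec (hS : Sup F.toPre S) (hk : 8 ≤ k) (hg : ContDiff ℝ ∞ g) {R G : ℝ} (hG : 0 ≤ G)
    (h : GB (R + √|S| * R) G (k + 2) g) (z : B F.toPre k X × F.H k p) (h1 : ‖z.1‖ ≤ R)
    (h2 : ‖L‖ * ‖z.2‖ < R) :
    (∀ x, F.val k _ (nem F k p L g z) x = g (B.fn z.1 x + L (F.val k p z.2 x)) - g (B.fn z.1 x)) ∧
      ‖nem F k p L g z‖ ≤ √(cM ι S R k) * G * (‖L‖ * ‖z.2‖) := by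
  obtain ⟨f, h₀⟩ := z
  have hR : 0 ≤ R := (norm_nonneg _).trans h1
  obtain ⟨u, hu⟩ := exists_seq h₀
  have su : ∀ n, Sm I fun x => L ((u n).1 x) := fun n => L.contMDiff.comp (u n).2.1
  have cu : ∀ n, HasCompactSupport fun x => L ((u n).1 x) := fun n =>
    (u n).2.2.1.comp_left (g := L) (map_zero L)
  let y : ℕ → F.H k (triv M W) := fun n => F.toH k _ ⟨fun x => g (B.fn f x + L ((u n).1 x)) -
    g (B.fn f x), mem_triv ((sm_comp hg (f.sm.add (su n))).sub (sm_comp hg f.sm))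
      (hcs_nem g _ (cu n))⟩
  have hl : Tendsto (fun n => ‖L‖ * ‖F.toH k p (u n)‖) atTop (𝓝 (‖L‖ * ‖h₀‖)) := hu.norm.const_mul _
  have hy : ∀ᶠ n in atTop, ‖y n‖ ≤ √(cM ι S R k) * G * (‖L‖ * ‖F.toH k p (u n)‖) := by
    filter_upwards [hl.eventually (gt_mem_nhds h2)] with n hn
    have a1 : N2 F.toPre k (fun x => L ((u n).1 x)) ≤ (‖L‖ * ‖F.toH k p (u n)‖) ^ 2 := by
      rw [mul_pow, norm_toH, nrm_sq]; exact n2_clm_le F.sm L k (u n).2.1 (FL_sec k (u n))
    have a2 := hS.N2_nem hk hR hG f.sm (su n) (cu n) (CB_mono f.CB h1)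
      (a1.trans (pow_le_pow_left₀ (by positivity) hn.le 2)) k le_rfl hg h
    rw [norm_toH]
    refine nrm_le_of_sq (by positivity) (a2.trans ?_)
    rw [mul_pow, mul_pow, Real.sq_sqrt (cM_nonneg S R k)]
    exact mul_le_mul_of_nonneg_left a1 (mul_nonneg (cM_nonneg S R k) (sq_nonneg G))
  have key : ∀ ε > 0, ∃ y : F.H k (triv M W), ‖y‖ ≤ √(cM ι S R k) * G * (‖L‖ * ‖h₀‖) + ε ∧
      ∀ x, F.val k _ y x = g (B.fn f x + L (F.val k p h₀ x)) - g (B.fn f x) := fun ε hε => by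
    obtain ⟨y₀, b, hy₀⟩ := exists_weak_lim (l := atTop) (y := y)
      (C := √(cM ι S R k) * G * (‖L‖ * ‖h₀‖) + ε) (by
        filter_upwards [hy, (hl.const_mul (√(cM ι S R k) * G)).eventually
          (gt_mem_nhds (lt_add_of_pos_right _ hε))] with n a b using a.trans b.le)
    refine ⟨y₀, b, fun x => hy₀ (F.ev k _ x) _ ?_⟩
    have a1 := (tendstoUniformly_val hS (by omega) hu).tendsto_at x
    have a2 : Continuous fun v => g (B.fn f x + L v) - g (B.fn f x) := by
      have := hg.continuous; fun_prop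
    refine ((a2.tendsto _).comp a1).congr fun n => ?_
    rw [comp_apply, val_toH hS (by omega)]
    simp only [y]
    rw [(ev_spec hS (by omega) x).1]
  have he : ∃ y : F.H k (triv M W), ∀ x, F.val k _ y x =
      g (B.fn f x + L (F.val k p h₀ x)) - g (B.fn f x) := let ⟨y, _, h⟩ := key 1 one_pos; ⟨y, h⟩
  have hs : ∀ x, F.val k _ (nem F k p L g (f, h₀)) x =
      g (B.fn f x + L (F.val k p h₀ x)) - g (B.fn f x) := by
    rw [nem, dif_pos he]; exact he.choose_spec
  refine ⟨hs, le_of_forall_pos_le_add fun ε hε => ?_⟩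
  obtain ⟨y, b, h⟩ := key ε hε
  rwa [val_injective hS (by omega) (funext fun x => (hs x).trans (h x).symm)]

theorem val_nem (hS : Sup F.toPre S) (hk : 8 ≤ k) (hg : ContDiff ℝ ∞ g)
    (z : B F.toPre k X × F.H k p) (x : M) :
    F.val k _ (nem F k p L g z) x = g (B.fn z.1 x + L (F.val k p z.2 x)) - g (B.fn z.1 x) := by
  set R := ‖z.1‖ + ‖L‖ * ‖z.2‖ + 1
  obtain ⟨G, hG, h⟩ := exists_GB (R + √|S| * R) (k + 2) hg
  have := norm_nonneg z.1
  have : 0 ≤ ‖L‖ * ‖z.2‖ := by positivity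
  exact (nem_spec hS hk hg hG h z (by simp only [R]; linarith) (by simp only [R]; linarith)).1 x

section
variable (A C Y : Type) [NormedAddCommGroup A] [NormedSpace ℝ A] [NormedAddCommGroup C]
  [NormedSpace ℝ C] [NormedAddCommGroup Y] [NormedSpace ℝ Y]

/-- precomposition with `fst` -/
def pre1 : (A →L[ℝ] Y) →L[ℝ] (A × C →L[ℝ] Y) :=
  (ContinuousLinearMap.compL ℝ (A × C) A Y).flip (ContinuousLinearMap.fst ℝ A C)

/-- precomposition with `snd` -/
def pre2 : (C →L[ℝ] Y) →L[ℝ] (A × C →L[ℝ] Y) :=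
  (ContinuousLinearMap.compL ℝ (A × C) C Y).flip (ContinuousLinearMap.snd ℝ A C)

variable {A C Y}
theorem pre1_apply (T : A →L[ℝ] Y) (v : A × C) : pre1 A C Y T v = T v.1 := rfl
theorem pre2_apply (T : C →L[ℝ] Y) (v : A × C) : pre2 A C Y T v = T v.2 := rfl
end

/-- coordinates of `X` -/
def crd (X : Type) [NormedAddCommGroup X] [NormedSpace ℝ X] [FiniteDimensional ℝ X]
    (i : Fin (Module.finrank ℝ X)) : X →L[ℝ] ℝ :=
  LinearMap.toContinuousLinearMap ((Module.finBasis ℝ X).coord i)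

/-- partial derivatives -/
def pdg (g : X → N) (i : Fin (Module.finrank ℝ X)) (x : X) : N :=
  ContinuousLinearMap.apply ℝ N (Module.finBasis ℝ X i) (fderiv ℝ g x)

theorem sm_pdg {g : X → N} (hg : ContDiff ℝ ∞ g) (i : Fin (Module.finrank ℝ X)) :
    ContDiff ℝ ∞ (pdg g i) :=
  (ContinuousLinearMap.apply ℝ N (Module.finBasis ℝ X i)).contDiff.comp (sm_fderiv hg)

theorem sum_crd (T : X →L[ℝ] N) (v : X) : ∑ i, crd X i v • T (Module.finBasis ℝ X i) = T v := by
  conv_rhs => rw [← (Module.finBasis ℝ X).sum_repr v, map_sum]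
  simp [crd]

variable (W) in
/-- first part of the derivative of `nem` -/
def nT (F : Fr I M ι) (k : ℕ) (p : M → V →L[ℝ] V) (L : V →L[ℝ] X) (i : Fin (Module.finrank ℝ X)) :
    F.H k (triv M W) →L[ℝ] (B F.toPre k X × F.H k p) →L[ℝ] F.H k (triv M W) :=
  pre1 (B F.toPre k X) (F.H k p) (F.H k (triv M W)) ∘L
    (mulB F.toPre k (triv M W) ∘L B.clm (ContinuousLinearMap.lsmul ℝ ℝ ∘L crd X i)).flip +
  pre2 (B F.toPre k X) (F.H k p) (F.H k (triv M W)) ∘L
    F.bilH k k (triv M W) p (triv M W) k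
      fun _ => ContinuousLinearMap.smulRightL ℝ V W (crd X i ∘L L)

variable (W) in
/-- second part of the derivative of `nem` -/
def nU (F : Fr I M ι) (k : ℕ) (p : M → V →L[ℝ] V) (L : V →L[ℝ] X) :
    B F.toPre k (X →L[ℝ] W) →L[ℝ] (B F.toPre k X × F.H k p) →L[ℝ] F.H k (triv M W) :=
  pre2 (B F.toPre k X) (F.H k p) (F.H k (triv M W)) ∘L
    mulB F.toPre k p ∘L B.clm ((ContinuousLinearMap.compL ℝ V X W).flip L)

/-- the derivative of `nem` -/
def nemD (F : Fr I M ι) (k : ℕ) (p : M → V →L[ℝ] V) (L : V →L[ℝ] X) (g : X → W)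
    (z : B F.toPre k X × F.H k p) : (B F.toPre k X × F.H k p) →L[ℝ] F.H k (triv M W) :=
  ∑ i, nT W F k p L i (nem F k p L (pdg g i) z) + nU W F k p L (nemB F.toPre k (fderiv ℝ g) z.1)

theorem val_nemD (hS : Sup F.toPre S) (hk : 8 ≤ k) (hg : ContDiff ℝ ∞ g)
    (z v : B F.toPre k X × F.H k p) (x : M) : F.val k _ (nemD F k p L g z v) x =
      fderiv ℝ g (B.fn z.1 x + L (F.val k p z.2 x)) (B.fn v.1 x + L (F.val k p v.2 x)) -
        fderiv ℝ g (B.fn z.1 x) (B.fn v.1 x) := by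
  have h4 : 4 ≤ k := by omega
  have a1 : ∀ i y, F.val k _ (nT W F k p L i y v) x =
      crd X i (B.fn v.1 x + L (F.val k p v.2 x)) • F.val k _ y x := fun i y => by
    rw [nT, add_apply, add_apply, ContinuousLinearMap.comp_apply, ContinuousLinearMap.comp_apply,
      pre1_apply, pre2_apply, ContinuousLinearMap.flip_apply, ContinuousLinearMap.comp_apply,
      mulB_apply, val_add, Pi.add_apply, val_mulH hS h4 (B.cb _) (Maps.triv _),
      val_bilH hS (Lev.self (by omega)) h4 (Cb_const _) (Maps₂.triv _), map_add, add_smul]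
    rfl
  have a2 : F.val k _ (nU W F k p L (nemB F.toPre k (fderiv ℝ g) z.1) v) x =
      fderiv ℝ g (B.fn z.1 x) (L (F.val k p v.2 x)) := by
    rw [nU, ContinuousLinearMap.comp_apply, ContinuousLinearMap.comp_apply, pre2_apply, mulB_apply,
      val_mulH hS h4 (B.cb _) (Maps.triv _), B.fn_clm, fn_nemB (sm_fderiv hg)]
    rfl
  rw [nemD, add_apply, val_add, Pi.add_apply, sum_apply, val_sum, a2]
  simp only [a1, val_nem hS hk (sm_pdg hg _), pdg, ContinuousLinearMap.apply_apply,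
    smul_sub, Finset.sum_sub_distrib, sum_crd]
  rw [map_add (fderiv ℝ g (B.fn z.1 x))]
  abel

theorem nem_norming (hS : Sup F.toPre S) (hk : 8 ≤ k) (hg : ContDiff ℝ ∞ g) :
    ∃ Λ : Set (F.H k (triv M W) →L[ℝ] ℝ), Norming Λ ∧ ∀ ℓ ∈ Λ, ∀ z v, HasDerivAt
      (fun t : ℝ => ℓ (nem F k p L g (z + t • v))) (ℓ (nemD F k p L g z v)) 0 := by
  let Λ : Submodule ℝ (F.H k (triv M W) →L[ℝ] ℝ) :=
    { carrier := {ℓ | ∀ z v, HasDerivAt (fun t : ℝ => ℓ (nem F k p L g (z + t • v)))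
        (ℓ (nemD F k p L g z v)) 0}
      add_mem' := fun h h' z v => (h z v).add (h' z v)
      zero_mem' := fun _ _ => hasDerivAt_const _ _
      smul_mem' := fun c _ h z v => (h z v).const_smul c }
  refine ⟨Λ, norming_of_sep Λ fun y hy => val_injective hS (by omega) (funext fun x => ?_),
    fun ℓ h => h⟩
  rw [val_zero]
  refine inner_self_eq_zero (𝕜 := ℝ).1 (hy (innerSL ℝ (F.val k _ y x) ∘L F.ev k _ x) fun z v => ?_)
  refine (innerSL ℝ (F.val k _ y x)).hasFDerivAt.comp_hasDerivAt 0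
    (f := fun t : ℝ => F.val k _ (nem F k p L g (z + t • v)) x)
    (f' := F.val k _ (nemD F k p L g z v) x) ?_
  simp only [val_nem hS hk hg, val_nemD hS hk hg]
  have d : ∀ a b : X, HasDerivAt (fun t : ℝ => g (a + t • b)) (fderiv ℝ g a b) 0 := fun a b =>
    (hg.differentiable (by simp) a).hasFDerivAt.comp_hasDerivAt_of_eq 0
      (by simpa using ((hasDerivAt_id' (0 : ℝ)).smul_const b).const_add a) (by simp)
  convert (d _ _).fun_sub (d _ _) using 3 with t
  · simp only [Prod.fst_add, Prod.smul_fst, Prod.snd_add, Prod.smul_snd, map_add, map_smul, val_add,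
      val_smul, Pi.add_apply, Pi.smul_apply, smul_add]
    abel_nf
  · simp

theorem norm_nem_le (hS : Sup F.toPre S) (hk : 8 ≤ k) (hg : ContDiff ℝ ∞ g) (R : ℝ) :
    ∃ C, ∀ z : B F.toPre k X × F.H k p, ‖z‖ ≤ R → ‖nem F k p L g z‖ ≤ C := by
  set R' := |R| + ‖L‖ * |R| + 1
  obtain ⟨G, hG, h⟩ := exists_GB (R' + √|S| * R') (k + 2) hg
  refine ⟨√(cM ι S R' k) * G * (‖L‖ * |R|), fun z hz => ?_⟩
  have a1 := (norm_fst_le z).trans (hz.trans (le_abs_self R))
  have a2 : ‖L‖ * ‖z.2‖ ≤ ‖L‖ * |R| :=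
    mul_le_mul_of_nonneg_left ((norm_snd_le z).trans (hz.trans (le_abs_self R))) (norm_nonneg L)
  have : 0 ≤ ‖L‖ * |R| := by positivity
  have := abs_nonneg R
  exact (nem_spec hS hk hg hG h z (by simp only [R']; linarith)
    (by simp only [R']; linarith)).2.trans (by gcongr)

theorem continuous_nem (hS : Sup F.toPre S) (hk : 8 ≤ k) (hg : ContDiff ℝ ∞ g) :
    Continuous (nem F k p L g) := by
  obtain ⟨Λ, hΛ, h⟩ := nem_norming (p := p) (L := L) hS hk hg
  refine hΛ.continuous h fun R => ?_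
  choose C hC using fun i => norm_nem_le (p := p) (L := L) hS hk (sm_pdg hg i) R
  obtain ⟨G, hG, h'⟩ := exists_GB R (k + 1) (sm_fderiv hg)
  refine ⟨_, fun z hz => (norm_add_le _ _).trans (add_le_add ((norm_sum_le _ _).trans
    (Finset.sum_le_sum fun i _ => ContinuousLinearMap.le_opNorm_of_le _ (hC i z hz)))
    (ContinuousLinearMap.le_opNorm_of_le _
      (norm_nemB_le (sm_fderiv hg) hG h' ((norm_fst_le z).trans hz))))⟩

variable [I.Boundaryless]

theorem hasFDerivAt_nem (hS : Sup F.toPre S) (hk : 8 ≤ k) (hg : ContDiff ℝ ∞ g)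
    (z : B F.toPre k X × F.H k p) : HasFDerivAt (nem F k p L g) (nemD F k p L g z) z := by
  obtain ⟨Λ, hΛ, h⟩ := nem_norming (p := p) (L := L) hS hk hg
  refine hΛ.hasFDerivAt h (Continuous.continuousAt ?_)
  exact (continuous_finsetSum _ fun i _ => (nT W F k p L i).continuous.comp
    (continuous_nem hS hk (sm_pdg hg i))).add ((nU W F k p L).continuous.comp
      ((continuous_nemB (sm_fderiv hg)).comp continuous_fst))

/-- **NEM** -/
theorem contDiff_nem (hS : Sup F.toPre S) (hk : 8 ≤ k) (hg : ContDiff ℝ ∞ g) :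
    ContDiff ℝ ∞ (nem F k p L g) := by
  have h : ∀ (n : ℕ) {g : X → W}, ContDiff ℝ ∞ g → ContDiff ℝ n (nem F k p L g) := by
    intro n
    induction n with
    | zero => exact fun hg => contDiff_zero.2 (continuous_nem hS hk hg)
    | succ n ih =>
      intro g hg
      have hn : (n : WithTop ℕ∞) ≤ ∞ := by exact_mod_cast le_top
      refine contDiff_succ_iff_hasFDerivAt.2 ⟨nemD F k p L g, ?_, hasFDerivAt_nem hS hk hg⟩
      have a1 := ((contDiff_nemB (F := F.toPre) (k := k) (sm_fderiv hg)).of_le hn).comp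
        (contDiff_fst (E := B F.toPre k X) (F := F.H k p))
      have a2 : ContDiff ℝ n (nU W F k p L) := ContinuousLinearMap.contDiff
        (F := B F.toPre k X × F.H k p →L[ℝ] F.H k (triv M W)) _
      have a3 : ∀ i, ContDiff ℝ n (nT W F k p L i) := fun i => ContinuousLinearMap.contDiff
        (F := B F.toPre k X × F.H k p →L[ℝ] F.H k (triv M W)) _
      exact (ContDiff.sum fun i _ => (a3 i).comp (ih (sm_pdg hg i))).add (a2.comp a1)
  exact contDiff_infty.2 fun n => h n hg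

omit [I.Boundaryless] in
/-- on smooth sections `nem` is given by the formula -/
theorem nem_toH (hS : Sup F.toPre S) (hk : 8 ≤ k) (hg : ContDiff ℝ ∞ g) (f : B F.toPre k X)
    (u : Sec I p) (v : Sec I (triv M W))
    (hv : ∀ x, v.1 x = g (B.fn f x + L (u.1 x)) - g (B.fn f x)) :
    nem F k p L g (f, F.toH k p u) = F.toH k _ v :=
  val_injective hS (by omega) (funext fun x => by
    rw [val_nem hS hk hg, val_toH hS (by omega), val_toH hS (by omega), hv])

omit [I.Boundaryless] in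
theorem incl_nem (hS : Sup F.toPre S) {j : ℕ} (hj : 8 ≤ j) (hk : j ≤ k) (hg : ContDiff ℝ ∞ g)
    (z : B F.toPre k X × F.H k p) :
    F.incl k j _ (nem F k p L g z) = nem F j p L g (B.incl hk z.1, F.incl k j p z.2) :=
  val_injective hS (by omega) (funext fun x => by
    rw [val_incl hS (by omega) hk, val_nem hS (hj.trans hk) hg, val_nem hS hj hg,
      val_incl hS (by omega) hk, B.fn_incl])

/-- with a smooth family of base functions -/
theorem contDiffOn_nem {T : Type} [NormedAddCommGroup T] [NormedSpace ℝ T] {O : Set T}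
    (hS : Sup F.toPre S) (hk : 8 ≤ k) (hg : ContDiff ℝ ∞ g) {f : T → M → X} (hf : SB F.toPre O f)
    {h : T → F.H k p} (hh : ContDiffOn ℝ ∞ h O) :
    ContDiffOn ℝ ∞ (fun t => nem F k p L g (toB F.toPre k (f t), h t)) O :=
  (contDiff_nem hS hk hg).comp_contDiffOn ((hf.sm k).prodMk hh)

end H

end Crest.Agent.X212.Sob92
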