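import Crest.Agent.X212.Sob92.Bas

/-! Calculus of representations `RepT`, `Rep₂`. -/

set_option autoImplicit false
set_option linter.unusedSectionVars false
noncomputable section
open scoped Manifold ContDiff Topology InnerProductSpace
open MeasureTheory Set Function Filter

namespace Crest.Agent.X212.Sob92
open An An.Pre

variable {E : Type} [NormedAddCommGroup E] [NormedSpace ℝ E] [FiniteDimensional ℝ E]
  [MeasurableSpace E] [BorelSpace E]
  {HM : Type} [TopologicalSpace HM] {I : ModelWithCorners ℝ E HM}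
  {M : Type} [TopologicalSpace M] [ChartedSpace HM M] [IsManifold I ∞ M]
  [MeasurableSpace M] [T2Space M] [BorelSpace M] {ι : Type} [Fintype ι]
  {E' : Type} [NormedAddCommGroup E'] [NormedSpace ℝ E'] [FiniteDimensional ℝ E']
  [MeasurableSpace E'] [BorelSpace E']
  {HM' : Type} [TopologicalSpace HM'] {I' : ModelWithCorners ℝ E' HM'}
  {M' : Type} [TopologicalSpace M'] [ChartedSpace HM' M'] [IsManifold I' ∞ M']
  [MeasurableSpace M'] [T2Space M'] [BorelSpace M'] {ι' : Type} [Fintype ι']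
  {E'' : Type} [NormedAddCommGroup E''] [NormedSpace ℝ E''] [FiniteDimensional ℝ E'']
  [MeasurableSpace E''] [BorelSpace E'']
  {HM'' : Type} [TopologicalSpace HM''] {I'' : ModelWithCorners ℝ E'' HM''}
  {M'' : Type} [TopologicalSpace M''] [ChartedSpace HM'' M''] [IsManifold I'' ∞ M'']
  [MeasurableSpace M''] [T2Space M''] [BorelSpace M''] {ι'' : Type} [Fintype ι'']
  {U V W : Type} [NormedAddCommGroup U] [InnerProductSpace ℝ U]
  [NormedAddCommGroup V] [InnerProductSpace ℝ V] [NormedAddCommGroup W] [InnerProductSpace ℝ W]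
  {F : Pre I M ι} {F' : Pre I' M' ι'} {F'' : Pre I'' M'' ι''} {k j l : ℕ}
  {p : M → V →L[ℝ] V} {q : M → W →L[ℝ] W} {r : M → U →L[ℝ] U}
  {q' : M' → W →L[ℝ] W} {r'' : M'' → U →L[ℝ] U}

theorem mem_Sec {u : M → V} :
    u ∈ Sec I p ↔ Sm I u ∧ HasCompactSupport u ∧ ∀ x, p x (u x) = u x := Iff.rfl

theorem mem_triv {u : M → V} (hu : Sm I u) (hc : HasCompactSupport u) :
    u ∈ Sec I (triv M V) := ⟨hu, hc, fun _ => rfl⟩

theorem FL_sec (k : ℕ) (u : Sec I p) : FL F k u.1 := FL_of_hcs k u.2.1 u.2.2.1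

/-- triangle inequality for smooth compactly supported functions -/
theorem nrm_add_le (k : ℕ) {u v : M → V} (hu : Sm I u) (hc : HasCompactSupport u) (hv : Sm I v)
    (hc' : HasCompactSupport v) : F.nrm k (u + v) ≤ F.nrm k u + F.nrm k v := by
  have := norm_add_le (F.toH k (triv M V) ⟨u, mem_triv hu hc⟩) (F.toH k (triv M V) ⟨v, mem_triv hv hc'⟩)
  rwa [← map_add, norm_toH, norm_toH, norm_toH] at this

theorem nrm_const_smul (k : ℕ) (c : ℝ) {u : M → V} (hu : Sm I u) :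
    F.nrm k (c • u) = |c| * F.nrm k u := by
  rw [Pre.nrm, F.ip_smul k hu, F.ip_comm, F.ip_smul k hu, ← mul_assoc,
    Real.sqrt_mul (mul_self_nonneg c), Real.sqrt_mul_self_eq_abs, Pre.nrm]

theorem nrm_sum_le {κ : Type*} (s : Finset κ) (k : ℕ) {u : κ → M → V} (hu : ∀ i ∈ s, Sm I (u i))
    (hc : ∀ i ∈ s, HasCompactSupport (u i)) :
    F.nrm k (fun x => ∑ i ∈ s, u i x) ≤ ∑ i ∈ s, F.nrm k (u i) := by
  classical
  let v : κ → Sec I (triv M V) := fun i => if h : i ∈ s then ⟨u i, mem_triv (hu i h) (hc i h)⟩ else 0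
  have hv : ∀ i ∈ s, (v i).1 = u i := fun i h => by simp [v, h]
  have := norm_sum_le s fun i => F.toH k (triv M V) (v i)
  rw [← map_sum, norm_toH] at this
  convert this using 2 with i hi
  · funext x
    rw [Submodule.coe_sum, Finset.sum_apply]
    exact Finset.sum_congr rfl fun i h => by rw [hv i h]
  · rw [norm_toH, hv i hi]

/-- induction over `H`: closed properties that hold on smooth sections -/
@[elab_as_elim]
theorem H_ind {P : F.H k p → Prop} (x : F.H k p) (hP : IsClosed {h | P h})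
    (h : ∀ u, P (F.toH k p u)) : P x := (F.dense_toH k p).induction_on x hP h

@[elab_as_elim]
theorem H_ind₂ {P : F.H k p → F'.H j q' → Prop} (x : F.H k p) (y : F'.H j q')
    (hP : IsClosed {z : F.H k p × F'.H j q' | P z.1 z.2})
    (h : ∀ u v, P (F.toH k p u) (F'.toH j q' v)) : P x y :=
  ((F.dense_toH k p).prodMap (F'.dense_toH j q')).induction_on
    (p := fun z => P z.1 z.2) (x, y) hP fun z => h z.1 z.2

theorem H_eq {Y : Type*} [TopologicalSpace Y] [T2Space Y] {f g : F.H k p → Y} (hf : Continuous f)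
    (hg : Continuous g) (h : ∀ u, f (F.toH k p u) = g (F.toH k p u)) (x : F.H k p) : f x = g x :=
  H_ind (P := fun x => f x = g x) x (isClosed_eq hf hg) h

theorem H_le {f g : F.H k p → ℝ} (hf : Continuous f) (hg : Continuous g)
    (h : ∀ u, f (F.toH k p u) ≤ g (F.toH k p u)) (x : F.H k p) : f x ≤ g x :=
  H_ind (P := fun x => f x ≤ g x) x (isClosed_le hf hg) h

theorem H_eq₂ {Y : Type*} [TopologicalSpace Y] [T2Space Y] {f g : F.H k p → F'.H j q' → Y}
    (hf : Continuous fun z : F.H k p × F'.H j q' => f z.1 z.2)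
    (hg : Continuous fun z : F.H k p × F'.H j q' => g z.1 z.2)
    (h : ∀ u v, f (F.toH k p u) (F'.toH j q' v) = g (F.toH k p u) (F'.toH j q' v))
    (x : F.H k p) (y : F'.H j q') : f x y = g x y :=
  ((F.dense_toH k p).prodMap (F'.dense_toH j q')).induction_on
    (p := fun z => f z.1 z.2 = g z.1 z.2) (x, y) (isClosed_eq hf hg) fun z => h z.1 z.2

theorem exists_seq (x : F.H k p) : ∃ u : ℕ → Sec I p, Tendsto (fun n => F.toH k p (u n)) atTop (𝓝 x) := by
  obtain ⟨y, hy, h⟩ := mem_closure_iff_seq_limit.1 (F.dense_toH k p x)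
  choose u hu using hy
  exact ⟨u, by simpa only [hu] using h⟩

section RepT
variable {A B : F.H k p →L[ℝ] F'.H j q'} {T S : (M → V) → M' → W}

theorem RepT_mem (hA : F.RepT F' A T) (u : Sec I p) : T u.1 ∈ Sec I' q' := by
  obtain ⟨v, hv, -⟩ := hA u
  exact hv ▸ v.2

theorem RepT_toH (hA : F.RepT F' A T) (u : Sec I p) :
    A (F.toH k p u) = F'.toH j q' ⟨T u.1, RepT_mem hA u⟩ := by
  obtain ⟨v, hv, h⟩ := hA u
  rw [h]; congr 1; exact Subtype.ext hv

theorem RepT_toH' (hA : F.RepT F' A T) (u : Sec I p) (v : Sec I' q') (h : T u.1 = v.1) :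
    A (F.toH k p u) = F'.toH j q' v := by
  rw [RepT_toH hA]; congr 1; exact Subtype.ext h

theorem RepT_congr (hA : F.RepT F' A T) (h : ∀ u : Sec I p, T u.1 = S u.1) : F.RepT F' A S :=
  fun u => h u ▸ hA u

theorem RepT_eq (hA : F.RepT F' A T) (hB : F.RepT F' B S) (h : ∀ u : Sec I p, T u.1 = S u.1) :
    A = B := (RepT_congr hA h).unique hB

theorem RepT_comp {A' : F'.H j q' →L[ℝ] F''.H l r''} {T' : (M' → W) → M'' → U}
    (hA' : F'.RepT F'' A' T') (hA : F.RepT F' A T) :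
    F.RepT F'' (A' ∘L A) fun u => T' (T u) := fun u => by
  obtain ⟨v, hv, h⟩ := hA u
  obtain ⟨w, hw, h'⟩ := hA' v
  exact ⟨w, by rw [hw, hv], by rw [ContinuousLinearMap.comp_apply, h, h']⟩

theorem RepT_add (hA : F.RepT F' A T) (hB : F.RepT F' B S) :
    F.RepT F' (A + B) fun u => T u + S u := fun u => by
  obtain ⟨v, hv, h⟩ := hA u
  obtain ⟨w, hw, h'⟩ := hB u
  exact ⟨v + w, by simp [hv, hw], by simp [h, h']⟩

theorem RepT_smul (c : ℝ) (hA : F.RepT F' A T) : F.RepT F' (c • A) fun u => c • T u := fun u => by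
  obtain ⟨v, hv, h⟩ := hA u
  exact ⟨c • v, by simp [hv], by simp [h]⟩

theorem RepT_neg (hA : F.RepT F' A T) : F.RepT F' (-A) fun u => -T u := fun u => by
  obtain ⟨v, hv, h⟩ := hA u
  exact ⟨-v, by simp [hv], by simp [h]⟩

theorem RepT_sub (hA : F.RepT F' A T) (hB : F.RepT F' B S) :
    F.RepT F' (A - B) fun u => T u - S u := by
  simpa only [sub_eq_add_neg] using RepT_add hA (RepT_neg hB)

theorem RepT_zero : F.RepT F' (0 : F.H k p →L[ℝ] F'.H j q') fun _ => 0 :=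
  fun _ => ⟨0, rfl, by simp⟩

theorem RepT_sum {κ : Type*} (s : Finset κ) {A : κ → F.H k p →L[ℝ] F'.H j q'}
    {T : κ → (M → V) → M' → W} (h : ∀ i ∈ s, F.RepT F' (A i) (T i)) :
    F.RepT F' (∑ i ∈ s, A i) fun u x => ∑ i ∈ s, T i u x := by
  classical
  induction s using Finset.induction_on with
  | empty => simp only [Finset.sum_empty]; exact RepT_zero
  | insert a s ha ih =>
    simp only [Finset.sum_insert ha]
    exact RepT_add (h a (by simp)) (ih fun i hi => h i (by simp [hi]))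

theorem Rep_id : F.Rep (ContinuousLinearMap.id ℝ (F.H k p)) id := fun u => ⟨u, rfl, rfl⟩

theorem RepT_norm_le (hA : F.RepT F' A T) {C : ℝ}
    (hb : ∀ u : Sec I p, F'.nrm j (T u.1) ≤ C * F.nrm k u.1) (x : F.H k p) : ‖A x‖ ≤ C * ‖x‖ :=
  H_le (f := fun x => ‖A x‖) (g := fun x => C * ‖x‖) (by fun_prop) (by fun_prop)
    (fun u => by rw [RepT_toH hA, norm_toH, norm_toH]; exact hb u) x

/-- the usual way to prove `RepT` for `liftT` -/
theorem rep_liftT (hm : ∀ u ∈ Sec I p, T u ∈ Sec I' q')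
    (ha : ∀ u ∈ Sec I p, ∀ v ∈ Sec I p, T (u + v) = T u + T v)
    (hs : ∀ (c : ℝ), ∀ u ∈ Sec I p, T (c • u) = c • T u) {C : ℝ} (hC : 0 ≤ C)
    (hb : ∀ u ∈ Sec I p, F'.nrm j (T u) ≤ C * F.nrm k u) :
    F.RepT F' (F.liftT k j p F' q' T) T ∧ ‖F.liftT k j p F' q' T‖ ≤ C :=
  repT_liftT
    { toFun := fun u => ⟨T u.1, hm _ u.2⟩
      map_add' := fun u v => Subtype.ext (ha _ u.2 _ v.2)
      map_smul' := fun c u => Subtype.ext (hs c _ u.2) } (fun _ => rfl) hC fun u => hb _ u.2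

theorem liftT_congr (h : ∀ u : Sec I p, T u.1 = S u.1) :
    F.liftT k j p F' q' T = F.liftT k j p F' q' S := by
  by_cases hT : ∃ A : F.H k p →L[ℝ] F'.H j q', F.RepT F' A T
  · obtain ⟨A, hA⟩ := hT
    rw [hA.liftT_eq, (RepT_congr hA h).liftT_eq]
  · have hS : ¬∃ A : F.H k p →L[ℝ] F'.H j q', F.RepT F' A S := fun ⟨A, hA⟩ =>
      hT ⟨A, RepT_congr hA fun u => (h u).symm⟩
    rw [liftT, liftT, dif_neg hT, dif_neg hS]

end RepT

section Rep₂
variable {A B : F.H k p →L[ℝ] F.H j q →L[ℝ] F.H l r} {T S : (M → V) → (M → W) → M → U}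

theorem Rep₂_mem (hA : F.Rep₂ A T) (u : Sec I p) (v : Sec I q) : T u.1 v.1 ∈ Sec I r := by
  obtain ⟨w, hw, -⟩ := hA u v
  exact hw ▸ w.2

theorem Rep₂_toH (hA : F.Rep₂ A T) (u : Sec I p) (v : Sec I q) :
    A (F.toH k p u) (F.toH j q v) = F.toH l r ⟨T u.1 v.1, Rep₂_mem hA u v⟩ := by
  obtain ⟨w, hw, h⟩ := hA u v
  rw [h]; congr 1; exact Subtype.ext hw

theorem Rep₂_left (hA : F.Rep₂ A T) (u : Sec I p) : F.Rep (A (F.toH k p u)) (T u.1) := hA u

theorem Rep₂_right (hA : F.Rep₂ A T) (v : Sec I q) :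
    F.Rep (A.flip (F.toH j q v)) fun u => T u v.1 := fun u => hA u v

theorem Rep₂_eq (hA : F.Rep₂ A T) (hB : F.Rep₂ B S)
    (h : ∀ (u : Sec I p) (v : Sec I q), T u.1 v.1 = S u.1 v.1) : A = B :=
  clm_ext fun u => RepT_eq (Rep₂_left hA u) (Rep₂_left hB u) (h u)

theorem Rep₂_lift₂_eq (hA : F.Rep₂ A T) : F.lift₂ k j p q r l T = A := by
  have h : ∃ A : F.H k p →L[ℝ] F.H j q →L[ℝ] F.H l r, F.Rep₂ A T := ⟨A, hA⟩
  rw [lift₂, dif_pos h]; exact Rep₂_eq h.choose_spec hA fun _ _ => rfl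

/-- the usual way to prove `Rep₂` for `lift₂` -/
theorem rep_lift₂ (hm : ∀ u ∈ Sec I p, ∀ v ∈ Sec I q, T u v ∈ Sec I r)
    (ha : ∀ u ∈ Sec I p, ∀ u' ∈ Sec I p, ∀ v ∈ Sec I q, T (u + u') v = T u v + T u' v)
    (hs : ∀ (c : ℝ), ∀ u ∈ Sec I p, ∀ v ∈ Sec I q, T (c • u) v = c • T u v)
    (ha' : ∀ u ∈ Sec I p, ∀ v ∈ Sec I q, ∀ v' ∈ Sec I q, T u (v + v') = T u v + T u v')
    (hs' : ∀ (c : ℝ), ∀ u ∈ Sec I p, ∀ v ∈ Sec I q, T u (c • v) = c • T u v) {C : ℝ} (hC : 0 ≤ C)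
    (hb : ∀ u ∈ Sec I p, ∀ v ∈ Sec I q, F.nrm l (T u v) ≤ C * F.nrm k u * F.nrm j v) :
    F.Rep₂ (F.lift₂ k j p q r l T) T ∧ ‖F.lift₂ k j p q r l T‖ ≤ C := by
  have h1 := fun u : Sec I p => rep_liftT (F := F) (F' := F) (k := j) (j := l) (hm u.1 u.2)
    (ha' u.1 u.2) (fun c => hs' c u.1 u.2) (mul_nonneg hC (nrm_nonneg k u.1)) (hb u.1 u.2)
  let L : Sec I p →ₗ[ℝ] (F.H j q →L[ℝ] F.H l r) :=
    { toFun := fun u => F.lift j l q r (T u.1)
      map_add' := fun u u' => RepT_eq (h1 (u + u')).1 (RepT_add (h1 u).1 (h1 u').1)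
        fun v => ha _ u.2 _ u'.2 _ v.2
      map_smul' := fun c u => RepT_eq (h1 (c • u)).1 (RepT_smul c (h1 u).1)
        fun v => hs c _ u.2 _ v.2 }
  obtain ⟨A, hA, hn⟩ := exists_ext (F := F) (k := k) L hC fun u => (h1 u).2
  have h : F.Rep₂ A T := fun u v => by rw [hA u]; exact (h1 u).1 v
  rw [Rep₂_lift₂_eq h]; exact ⟨h, hn⟩

end Rep₂

end Crest.Agent.X212.Sob92
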