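import Crest.Agent.X212.Sob92.Ops

/-! Products `bilH`; integration by parts on `H`; injectivity of the inclusions. -/

set_option autoImplicit false
set_option linter.unusedSectionVars false
noncomputable section
open scoped Manifold ContDiff Topology InnerProductSpace
open MeasureTheory Set Function Filter

namespace Crest.Agent.X212.Sob92
open An An.Pre

variable {E : Type} [NormedAddCommGroup E] [NormedSpace ℝ E] [FiniteDimensional ℝ E]
  [MeasurableSpace E] [BorelSpace E]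
  {HM : Type} [TopologicalSpace HM] {I : ModelWithCorners ℝ E HM}
  {M : Type} [TopologicalSpace M] [ChartedSpace HM M] [IsManifold I ∞ M]
  [MeasurableSpace M] [T2Space M] [BorelSpace M] {ι : Type} [Fintype ι]
  {U V W : Type} [NormedAddCommGroup U] [InnerProductSpace ℝ U]
  [NormedAddCommGroup V] [InnerProductSpace ℝ V] [NormedAddCommGroup W] [InnerProductSpace ℝ W]
  {k j l : ℕ} {p : M → V →L[ℝ] V} {q : M → W →L[ℝ] W} {r : M → U →L[ℝ] U}

section bil
variable {F : Pre I M ι} [SecondCountableTopology M]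

/-- `β` maps `p × q` to `r` -/
def Maps₂ (p : M → V →L[ℝ] V) (q : M → W →L[ℝ] W) (r : M → U →L[ℝ] U)
    (β : M → V →L[ℝ] W →L[ℝ] U) : Prop :=
  ∀ x v w, p x v = v → q x w = w → r x (β x v w) = β x v w

theorem Maps₂.triv (β : M → V →L[ℝ] W →L[ℝ] U) : Maps₂ p q (triv M U) β := fun _ _ _ _ _ => rfl

theorem Maps₂.of_left {β : M → V →L[ℝ] W →L[ℝ] U} (h : ∀ x v w, r x (β x v w) = β x v w) :
    Maps₂ p q r β := fun x v w _ _ => h x v w

/-- the levels for which `L²_k × L²_j → L²_l` is bounded -/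
def Lev (k j l : ℕ) : Prop := l ≤ k ∧ l ≤ j ∧ l + 1 ≤ (k - 3) + (j - 3)

theorem Lev.left (hk : 7 ≤ k) (h : l ≤ k) : Lev k l l := by unfold Lev; omega
theorem Lev.right (hk : 7 ≤ k) (h : l ≤ k) : Lev l k l := by unfold Lev; omega
theorem Lev.self (hk : 7 ≤ k) : Lev k k k := Lev.left hk le_rfl
theorem Lev.symm (h : Lev k j l) : Lev j k l := by unfold Lev at *; omega
theorem Lev.of_le {k' j' l' : ℕ} (h : Lev k j l) (hk : k ≤ k') (hj : j ≤ j') (hl : l' ≤ l) :
    Lev k' j' l' := by unfold Lev at *; omega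

/-- the constant of the product estimate -/
def cB (ι : Type) [Fintype ι] (k l : ℕ) (S C : ℝ) : ℝ := √(2 * |S|) * cK ι l * cK ι k * |C|

theorem cB_nonneg (S C : ℝ) : 0 ≤ cB ι k l S C := by
  have := cK_nonneg (ι := ι) k
  have := cK_nonneg (ι := ι) l
  unfold cB; positivity

section
variable {N N' : Type} [NormedAddCommGroup N] [NormedSpace ℝ N] [NormedAddCommGroup N']
  [NormedSpace ℝ N']

theorem N2_app {f : M → N →L[ℝ] N'} {u : M → N} {C : ℝ} (hf : Sm I f) (hu : Sm I u)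
    (hC : F.CB k f C) (hL : FL F k u) :
    N2 F k (fun x => f x (u x)) ≤ (cK ι k * |C|) ^ 2 * N2 F k u := by
  have h1 := (N2_mul (ContinuousLinearMap.id ℝ (N →L[ℝ] N')) hf hu hC hL).2
  refine h1.trans (mul_le_mul_of_nonneg_right ?_ (n2_nonneg k u))
  rw [mul_pow, mul_pow, mul_pow, sq_abs]
  refine mul_le_mul_of_nonneg_right (mul_le_of_le_one_right (sq_nonneg _) ?_) (sq_nonneg C)
  exact pow_le_one₀ (norm_nonneg _) ContinuousLinearMap.norm_id_le

theorem Sup.N2_app {S : ℝ} (hS : Sup F S) (h : Lev k j l) {f : M → N →L[ℝ] N'} {v : M → N}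
    (hf : Sm I f) (hc : HasCompactSupport f) (hv : Sm I v) (hc' : HasCompactSupport v) :
    N2 F l (fun x => f x (v x)) ≤ 2 * |S| * cK ι l ^ 2 * N2 F k f * N2 F j v := by
  have h2 := hS.N2_bil (ContinuousLinearMap.id ℝ (N →L[ℝ] N')) h.1 h.2.1 h.2.2 hf hc hv hc'
  refine h2.trans (mul_le_mul_of_nonneg_right (mul_le_mul_of_nonneg_right
    (mul_le_mul_of_nonneg_left ?_ (by positivity)) (n2_nonneg k f)) (n2_nonneg j v))
  rw [mul_pow]
  exact mul_le_of_le_one_right (sq_nonneg _)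
    (pow_le_one₀ (norm_nonneg _) ContinuousLinearMap.norm_id_le)

end

theorem nrm_bil {S C : ℝ} (hS : Sup F S) (h : Lev k j l) {β : M → V →L[ℝ] W →L[ℝ] U}
    (hβ : Sm I β) (hC : F.CB k β C) {u : M → V} {v : M → W} (hu : Sm I u)
    (hc : HasCompactSupport u) (hv : Sm I v) (hc' : HasCompactSupport v) :
    F.nrm l (fun x => β x (u x) (v x)) ≤ cB ι k l S C * F.nrm k u * F.nrm j v := by
  have h1 := N2_app hβ hu hC (FL_of_hcs k hu hc)
  have h2 := hS.N2_app h (f := fun x => β x (u x)) (hβ.clm_apply hu)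
    (hc.mono fun x hx h => hx (by simp [h])) hv hc'
  refine nrm_le_of_sq (mul_nonneg (mul_nonneg (cB_nonneg S C) (nrm_nonneg k u)) (nrm_nonneg j v))
    (h2.trans ((mul_le_mul_of_nonneg_right (mul_le_mul_of_nonneg_left h1 (by positivity))
      (n2_nonneg j v)).trans (le_of_eq ?_)))
  simp only [cB, mul_pow, nrm_sq, Real.sq_sqrt (show 0 ≤ 2 * |S| by positivity)]; ring

theorem rep_bilH' {S C : ℝ} (hS : Sup F S) (h : Lev k j l) {β : M → V →L[ℝ] W →L[ℝ] U}
    (hβ : Sm I β) (hC : F.CB k β C) (hm : Maps₂ p q r β) :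
    F.Rep₂ (F.bilH k j p q r l β) (fun u v x => β x (u x) (v x)) ∧
      ‖F.bilH k j p q r l β‖ ≤ cB ι k l S C :=
  rep_lift₂ (fun _ hu _ hv => ⟨(hβ.clm_apply hu.1).clm_apply hv.1,
      hu.2.1.mono fun x hx h => hx (by simp [h]), fun x => hm x _ _ (hu.2.2 x) (hv.2.2 x)⟩)
    (fun _ _ _ _ _ _ => funext fun x => by simp) (fun _ _ _ _ _ => funext fun x => by simp)
    (fun _ _ _ _ _ _ => funext fun x => by simp) (fun _ _ _ _ _ => funext fun x => by simp)
    (cB_nonneg S C) fun _ hu _ hv => nrm_bil hS h hβ hC hu.1 hu.2.1 hv.1 hv.2.1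

theorem rep_bilH {S : ℝ} (hS : Sup F S) (h : Lev k j l) {β : M → V →L[ℝ] W →L[ℝ] U}
    (hβ : F.Cb β) (hm : Maps₂ p q r β) :
    F.Rep₂ (F.bilH k j p q r l β) fun u v x => β x (u x) (v x) :=
  let ⟨_, hC⟩ := hβ; (rep_bilH' hS h hC.1 (hC.2 k) hm).1

theorem norm_bilH_le {S C : ℝ} (hS : Sup F S) (h : Lev k j l) {β : M → V →L[ℝ] W →L[ℝ] U}
    (hβ : Sm I β) (hC : F.CB k β C) (hm : Maps₂ p q r β) (x : F.H k p) (y : F.H j q) :
    ‖F.bilH k j p q r l β x y‖ ≤ cB ι k l S C * ‖x‖ * ‖y‖ :=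
  (ContinuousLinearMap.le_opNorm₂ _ x y).trans (by
    have := (rep_bilH' hS h hβ hC hm).2; gcongr)

variable {S : ℝ} {β : M → V →L[ℝ] W →L[ℝ] U}

theorem bilH_toH (hS : Sup F S) (h : Lev k j l) (hβ : F.Cb β) (hm : Maps₂ p q r β)
    (u : Sec I p) (y : F.H j q) : F.bilH k j p q r l β (F.toH k p u) y =
      F.mulH l q r (fun x => β x (u.1 x)) (F.incl j l q y) :=
  DFunLike.congr_fun (RepT_eq (Rep₂_left (rep_bilH hS h hβ hm) u) (RepT_comp (rep_mulH
    (Cb_app hβ (Cb_of_hcs u.2.1 u.2.2.1)) fun x w hw => hm x _ w (u.2.2.2 x) hw) (rep_incl h.2.1))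
    fun _ => rfl) y

theorem bilH_flip (hS : Sup F S) (h : Lev k j l) (hβ : F.Cb β) (hm : Maps₂ p q r β)
    (x : F.H k p) (y : F.H j q) :
    F.bilH k j p q r l β x y = F.bilH j k q p r l (fun z => (β z).flip) y x := by
  have h2 := rep_bilH (p := q) (q := p) (r := r) hS h.symm
    (Cb_clm (ContinuousLinearMap.flipₗᵢ ℝ V W U).toContinuousLinearEquiv.toContinuousLinearMap hβ)
    fun x w v hw hv => hm x v w hv hw
  induction x, y using H_ind₂ with
  | hP => exact isClosed_eq (by fun_prop) (by fun_prop)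
  | h u v => exact (Rep₂_toH (rep_bilH hS h hβ hm) u v).trans (Rep₂_toH h2 v u).symm

theorem incl_bilH {k' j' l' : ℕ} (hS : Sup F S) (h : Lev k j l) (h' : Lev k' j' l') (hk : k' ≤ k)
    (hj : j' ≤ j) (hl : l' ≤ l) (hβ : F.Cb β) (hm : Maps₂ p q r β) (x : F.H k p) (y : F.H j q) :
    F.incl l l' r (F.bilH k j p q r l β x y) =
      F.bilH k' j' p q r l' β (F.incl k k' p x) (F.incl j j' q y) := by
  induction x, y using H_ind₂ with
  | hP => exact isClosed_eq (by fun_prop) (by fun_prop)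
  | h u v =>
    rw [incl_toH hk, incl_toH hj, Rep₂_toH (rep_bilH hS h hβ hm), Rep₂_toH (rep_bilH hS h' hβ hm),
      incl_toH hl]

/-- Leibniz rule for products -/
theorem DH_bilH (hS : Sup F S) (h : Lev k (j + 1) l) (h' : Lev (k + 1) j l)
    (h'' : Lev (k + 1) (j + 1) (l + 1)) (hβ : F.Cb β) (hm : Maps₂ p q r β) (a : ι)
    (x : F.H (k + 1) p) (y : F.H (j + 1) q) :
    DH F l r a (F.bilH (k + 1) (j + 1) p q r (l + 1) β x y) =
      F.bilH (k + 1) (j + 1) p q (triv M U) l (F.D a β) x y +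
      F.bilH k (j + 1) (triv M V) q (triv M U) l β (DH F k p a x) y +
      F.bilH (k + 1) j p (triv M W) (triv M U) l β x (DH F j q a y) := by
  induction x, y using H_ind₂ with
  | hP => exact isClosed_eq (by fun_prop) (by fun_prop)
  | h u v =>
    rw [Rep₂_toH (rep_bilH hS h'' hβ hm), RepT_toH (rep_DH a), RepT_toH (rep_DH a),
      RepT_toH (rep_DH a), Rep₂_toH (rep_bilH hS h hβ (Maps₂.triv _)),
      Rep₂_toH (rep_bilH hS h' hβ (Maps₂.triv _)),
      Rep₂_toH (rep_bilH hS (h''.of_le le_rfl le_rfl l.le_succ) (Cb_D hβ a) (Maps₂.triv _)),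
      ← map_add, ← map_add]
    congr 1
    refine Subtype.ext (funext fun z => ?_)
    have hb := hβ.choose_spec.1
    have h1 := dv_app (e := F.e a) ((hb.clm_apply u.2.1).mdifferentiableAt (x := z) (by simp))
      (v.2.1.mdifferentiableAt (by simp))
    rw [dv_app (hb.mdifferentiableAt (by simp)) (u.2.1.mdifferentiableAt (by simp))] at h1
    exact h1

end bil

section ibp
variable {F : Fr I M ι}

/-- integration by parts for a pair of functions -/
theorem ip_D (a : ι) {u φ : M → V} (hu : Sm I u) (hφ : Sm I φ) (hc : HasCompactSupport φ) :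
    F.ip 0 (F.D a u) φ = -F.ip 0 u fun x => F.D a φ x + F.dv a x • φ x := by
  have h := F.ibp a (fun x => ⟪u x, φ x⟫_ℝ) (smooth_bil (innerSL ℝ) hu hφ)
    (hcs_bil_right (innerSL ℝ) u hc)
  have h1 : F.D a (fun x => ⟪u x, φ x⟫_ℝ) = fun x => ⟪F.D a u x, φ x⟫_ℝ + ⟪u x, F.D a φ x⟫_ℝ :=
    funext fun x => dv_bil (innerSL ℝ) (hu.mdifferentiableAt (by simp))
      (hφ.mdifferentiableAt (by simp))
  have i : ∀ {v ψ : M → V}, Sm I v → Sm I ψ → HasCompactSupport ψ →
      Integrable (fun x => ⟪v x, ψ x⟫_ℝ) F.μ := fun hv hψ hψc => by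
    simpa only [real_inner_comm] using F.integrable_inner hψ.continuous hψc hv.continuous
  have i1 := i (F.sm_D hu a) hφ hc
  have i2 := i hu (F.sm_D hφ a) (F.hcs_D hc a)
  have i3 := i (ψ := fun x => F.dv a x • φ x) hu ((F.dv_sm a).smul hφ) (hcs_bil_right (ContinuousLinearMap.lsmul ℝ ℝ) _ hc)
  rw [h1, integral_add i1 i2] at h
  simp only [ip, inner_add_right]
  rw [integral_add i2 i3]
  simp only [real_inner_smul_right]
  linarith

/-- the formal transpose of `D a` on test functions -/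
def Dt (F : Fr I M ι) (a : ι) (φ : Sec I (triv M V)) : Sec I (triv M V) :=
  ⟨fun x => F.D a φ.1 x + F.dv a x • φ.1 x,
    mem_triv ((F.sm_D φ.2.1 a).add ((F.dv_sm a).smul φ.2.1))
    ((F.hcs_D φ.2.2.1 a).add (hcs_bil_right (ContinuousLinearMap.lsmul ℝ ℝ) _ φ.2.2.1))⟩

theorem inner_DH (a : ι) (x : F.H (k + 1) p) (φ : Sec I (triv M V)) :
    ⟪F.incl k 0 _ (DH F.toPre k p a x), F.toH 0 _ φ⟫_ℝ =
      -⟪fg F.toPre 0 p (F.incl (k + 1) 0 p x), F.toH 0 _ (Dt F a φ)⟫_ℝ := by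
  induction x using H_ind with
  | hP => exact isClosed_eq (by fun_prop) (by fun_prop)
  | h u =>
    rw [RepT_toH (rep_DH a), incl_toH (Nat.zero_le _), incl_toH (Nat.zero_le _), RepT_toH rep_fg,
      inner_toH, inner_toH]
    exact ip_D a u.2.1 φ.2.1 φ.2.2.1

theorem eq_zero_of_inner {F : Pre I M ι} {x : F.H k p} (h : ∀ φ, ⟪x, F.toH k p φ⟫_ℝ = 0) : x = 0 :=
  inner_self_eq_zero (𝕜 := ℝ).1
    (H_eq (f := fun y => ⟪x, y⟫_ℝ) (g := fun _ => 0) (by fun_prop) (by fun_prop) h x)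

theorem incl_zero_eq_zero (k : ℕ) :
    ∀ {p : M → V →L[ℝ] V} {x : F.H k p}, F.incl k 0 p x = 0 → x = 0 := by
  induction k with
  | zero => exact fun h => by rwa [incl_self] at h
  | succ k ih =>
    intro p x h
    have h1 : ∀ a, DH F.toPre k p a x = 0 := fun a =>
      ih (eq_zero_of_inner fun φ => by rw [inner_DH, h]; simp)
    have := norm_succ_sq x
    simpa [h, h1] using this

theorem incl_injective (h : j ≤ k) : Injective (F.incl k j p) :=
  (injective_iff_map_eq_zero _).2 fun x hx => incl_zero_eq_zero k <| by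
    rw [← incl_incl h (Nat.zero_le j), hx, map_zero]

end ibp

end Crest.Agent.X212.Sob92
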