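import Mathlib

/-! Extension of bounded linear and bilinear maps to completions, with norm bounds. -/

open UniformSpace

noncomputable section
namespace Crest.Agent.X212.Sob92

variable {A B C Z : Type*} [SeminormedAddCommGroup A] [NormedSpace ℝ A]
  [SeminormedAddCommGroup B] [NormedSpace ℝ B] [SeminormedAddCommGroup C] [NormedSpace ℝ C]
  [NormedAddCommGroup Z] [NormedSpace ℝ Z] [CompleteSpace Z]

/-- Extension of a bounded linear map into a Banach space. -/
def ext1 (T : A →ₗ[ℝ] Z) (c : ℝ) (h : ∀ a, ‖T a‖ ≤ c * ‖a‖) : Completion A →L[ℝ] Z :=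
  (T.mkContinuous c h).fromCompletion

@[simp] theorem ext1_coe (T : A →ₗ[ℝ] Z) (c : ℝ) (h : ∀ a, ‖T a‖ ≤ c * ‖a‖) (a : A) :
    ext1 T c h (a : Completion A) = T a := by
  simp [ext1]

omit [CompleteSpace Z] in
theorem le_of_dense (S : Completion A →L[ℝ] Z) {c : ℝ}
    (h : ∀ a : A, ‖S (a : Completion A)‖ ≤ c * ‖a‖) (x : Completion A) : ‖S x‖ ≤ c * ‖x‖ := by
  induction x using Completion.induction_on with
  | hp => exact isClosed_le (by fun_prop) (by fun_prop)
  | ih a => simpa using h a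

theorem ext1_le (T : A →ₗ[ℝ] Z) (c : ℝ) (h : ∀ a, ‖T a‖ ≤ c * ‖a‖) (x : Completion A) :
    ‖ext1 T c h x‖ ≤ c * ‖x‖ := le_of_dense _ (by simpa using h) x

omit [CompleteSpace Z] in
theorem eq_of_dense {S T : Completion A →L[ℝ] Z}
    (h : ∀ a : A, S (a : Completion A) = T (a : Completion A)) : S = T := by
  ext x
  induction x using Completion.induction_on with
  | hp => exact isClosed_eq (by fun_prop) (by fun_prop)
  | ih a => exact h a

/-- Extension of a bounded linear map to the completions. -/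
def cmp (T : A →ₗ[ℝ] B) (c : ℝ) (h : ∀ a, ‖T a‖ ≤ c * ‖a‖) : Completion A →L[ℝ] Completion B :=
  (T.mkContinuous c h).completion

@[simp] theorem cmp_coe (T : A →ₗ[ℝ] B) (c : ℝ) (h : ∀ a, ‖T a‖ ≤ c * ‖a‖) (a : A) :
    cmp T c h (a : Completion A) = (T a : Completion B) := by
  simp [cmp]

theorem cmp_le (T : A →ₗ[ℝ] B) (c : ℝ) (h : ∀ a, ‖T a‖ ≤ c * ‖a‖) (x : Completion A) :
    ‖cmp T c h x‖ ≤ c * ‖x‖ := le_of_dense _ (by simpa using h) x

/-- Extension in the second variable, as a linear map in the first. -/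
def ext2a (T : A →ₗ[ℝ] B →ₗ[ℝ] Z) (c : ℝ) (h : ∀ a b, ‖T a b‖ ≤ c * ‖a‖ * ‖b‖) :
    A →ₗ[ℝ] (Completion B →L[ℝ] Z) where
  toFun a := ext1 (T a) (c * ‖a‖) (h a)
  map_add' a a' := eq_of_dense fun b => by simp
  map_smul' r a := eq_of_dense fun b => by simp

theorem ext2a_le (T : A →ₗ[ℝ] B →ₗ[ℝ] Z) {c : ℝ} (hc : 0 ≤ c)
    (h : ∀ a b, ‖T a b‖ ≤ c * ‖a‖ * ‖b‖) (a : A) : ‖ext2a T c h a‖ ≤ c * ‖a‖ :=
  ContinuousLinearMap.opNorm_le_bound _ (by positivity) (ext1_le (T a) _ (h a))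

/-- Extension of a bounded bilinear map into a Banach space. -/
def ext2 (T : A →ₗ[ℝ] B →ₗ[ℝ] Z) (c : ℝ) (hc : 0 ≤ c) (h : ∀ a b, ‖T a b‖ ≤ c * ‖a‖ * ‖b‖) :
    Completion A →L[ℝ] Completion B →L[ℝ] Z :=
  ext1 (ext2a T c h) c (ext2a_le T hc h)

@[simp] theorem ext2_coe (T : A →ₗ[ℝ] B →ₗ[ℝ] Z) (c : ℝ) (hc : 0 ≤ c)
    (h : ∀ a b, ‖T a b‖ ≤ c * ‖a‖ * ‖b‖) (a : A) (b : B) :
    ext2 T c hc h (a : Completion A) (b : Completion B) = T a b := by
  simp [ext2, ext2a]

theorem ext2_le (T : A →ₗ[ℝ] B →ₗ[ℝ] Z) (c : ℝ) (hc : 0 ≤ c)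
    (h : ∀ a b, ‖T a b‖ ≤ c * ‖a‖ * ‖b‖) (x : Completion A) (y : Completion B) :
    ‖ext2 T c hc h x y‖ ≤ c * ‖x‖ * ‖y‖ :=
  ((ext2 T c hc h x).le_opNorm y).trans
    (mul_le_mul_of_nonneg_right (ext1_le _ _ _ x) (norm_nonneg _))

/-- The coercion into the completion as a linear map. -/
def toC (C : Type*) [SeminormedAddCommGroup C] [NormedSpace ℝ C] : C →ₗ[ℝ] Completion C :=
  (Completion.toComplₗᵢ (𝕜 := ℝ) (E := C)).toLinearMap

@[simp] theorem toC_apply (a : C) : toC C a = (a : Completion C) := rfl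

/-- Extension of a bounded bilinear map to the completions. -/
def cmp2 (T : A →ₗ[ℝ] B →ₗ[ℝ] C) (c : ℝ) (hc : 0 ≤ c) (h : ∀ a b, ‖T a b‖ ≤ c * ‖a‖ * ‖b‖) :
    Completion A →L[ℝ] Completion B →L[ℝ] Completion C :=
  ext2 (T.compr₂ (toC C)) c hc (by simpa using h)

@[simp] theorem cmp2_coe (T : A →ₗ[ℝ] B →ₗ[ℝ] C) (c : ℝ) (hc : 0 ≤ c)
    (h : ∀ a b, ‖T a b‖ ≤ c * ‖a‖ * ‖b‖) (a : A) (b : B) :
    cmp2 T c hc h (a : Completion A) (b : Completion B) = (T a b : Completion C) := by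
  simp [cmp2]

theorem cmp2_le (T : A →ₗ[ℝ] B →ₗ[ℝ] C) (c : ℝ) (hc : 0 ≤ c)
    (h : ∀ a b, ‖T a b‖ ≤ c * ‖a‖ * ‖b‖) (x : Completion A) (y : Completion B) :
    ‖cmp2 T c hc h x y‖ ≤ c * ‖x‖ * ‖y‖ := ext2_le _ _ _ _ x y

omit [NormedSpace ℝ A] in
/-- Two continuous functions on a completion that agree on the dense part agree. -/
theorem fun_eq_of_dense {Y : Type*} [TopologicalSpace Y] [T2Space Y] {f g : Completion A → Y}
    (hf : Continuous f) (hg : Continuous g) (h : ∀ a : A, f a = g a) (x : Completion A) :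
    f x = g x := by
  induction x using Completion.induction_on with
  | hp => exact isClosed_eq hf hg
  | ih a => exact h a

omit [NormedSpace ℝ A] [NormedSpace ℝ B] in
theorem fun_eq_of_dense₂ {Y : Type*} [TopologicalSpace Y] [T2Space Y]
    {f g : Completion A → Completion B → Y}
    (hf : Continuous fun p : Completion A × Completion B => f p.1 p.2)
    (hg : Continuous fun p : Completion A × Completion B => g p.1 p.2)
    (h : ∀ (a : A) (b : B), f a b = g a b) (x : Completion A) (y : Completion B) :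
    f x y = g x y := by
  induction x, y using Completion.induction_on₂ with
  | hp => exact isClosed_eq hf hg
  | ih a b => exact h a b

omit [NormedSpace ℝ A] in
theorem fun_le_of_dense {f g : Completion A → ℝ}
    (hf : Continuous f) (hg : Continuous g) (h : ∀ a : A, f a ≤ g a) (x : Completion A) :
    f x ≤ g x := by
  induction x using Completion.induction_on with
  | hp => exact isClosed_le hf hg
  | ih a => exact h a

end Crest.Agent.X212.Sob92
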